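import Crest.Agent.R213.J0
import Crest.Agent.R213.J310
import Crest.Agent.R213.B.Space

/-!
# Row 213, part B: assembly lemmas (helper182)
-/

set_option autoImplicit false

open Set MeasureTheory Filter Topology

noncomputable section

namespace Crest.Agent.R213.B

theorem bg_L_pos {c0 C0 : ℝ} {g : ℝ → ℝ} {L : ℝ} {φ m : ℝ → ℝ → ℝ} (hB : Bg c0 C0 g L φ m) :
    0 < L := lt_of_lt_of_le (by norm_num) hB.L_ge

theorem bg_sm_phi {c0 C0 : ℝ} {g : ℝ → ℝ} {L : ℝ} {φ m : ℝ → ℝ → ℝ} (hB : Bg c0 C0 g L φ m) :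
    Sm (Ioo 0 1) L φ := by
  have h1 : Sm (Ioo 0 1) L (fun τ x => x * (1 - x / L) * m τ x) := by
    refine Sm.mul ?_ hB.sm
    refine Sm.of_right (f := fun x => x * (1 - x / L)) ?_
    exact ContDiff.contDiffOn (by fun_prop)
  exact h1.congr (fun t ht x hx => hB.phi_eq t ht x hx)

/-- second derivative in the interior -/
theorem dxdx_eq_interior {L τ x : ℝ} {u : ℝ → ℝ → ℝ} {f : ℝ → ℝ} (hx : x ∈ Ioo 0 L)
    (h : ∀ y ∈ Ioo 0 L, u τ y = f y) :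
    dx L (dx L u) τ x = deriv (deriv f) x := by
  have h1 : ∀ y ∈ Ioo 0 L, dx L u τ y = deriv f y := by
    intro y hy
    rw [dx_eq_deriv hy]
    refine Filter.EventuallyEq.deriv_eq ?_
    filter_upwards [Ioo_mem_nhds hy.1 hy.2] with z hz using h z hz
  rw [dx_eq_deriv hx]
  refine Filter.EventuallyEq.deriv_eq ?_
  filter_upwards [Ioo_mem_nhds hx.1 hx.2] with z hz using h1 z hz


theorem measurable_of_continuousOn_Ω {L : ℝ} {u : ℝ → ℝ → ℝ}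
    (hu : ContinuousOn (fun p : ℝ × ℝ => u p.1 p.2) (Ioo (0 : ℝ) 1 ×ˢ Ioo 0 L)) :
    Measurable ((Ioo (0 : ℝ) 1 ×ˢ Ioo 0 L).indicator (fun p : ℝ × ℝ => u p.1 p.2)) := by
  have hm : MeasurableSet (Ioo (0 : ℝ) 1 ×ˢ Ioo 0 L) := measurableSet_Ioo.prod measurableSet_Ioo
  have h := ContinuousOn.measurable_piecewise (f := fun p : ℝ × ℝ => u p.1 p.2)
    (g := (0 : ℝ × ℝ → ℝ)) (s := Ioo (0 : ℝ) 1 ×ˢ Ioo 0 L) hu continuousOn_const hm
  rwa [Set.piecewise_eq_indicator] at h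

/-- from the a.e.-in-τ, a.e.-in-x identities to the statement of `reg` -/
theorem reg_core {c0 C0 : ℝ} {g : ℝ → ℝ} {L : ℝ} {φ m : ℝ → ℝ → ℝ} (hB : Bg c0 C0 g L φ m)
    {b δ : ℝ → ℝ → ℝ}
    (hbm : Measurable (fun p : ℝ × ℝ => b p.1 p.2))
    (hdm : Measurable (fun p : ℝ × ℝ => δ p.1 p.2))
    {U Z : ℝ → HL L}
    (h1 : ∀ᵐ τ ∂(volume.restrict (Ioo (0 : ℝ) 1)),
        (∀ᵐ x ∂(mu L), (U τ) x = δ τ x) ∧ (∀ᵐ x ∂(mu L), m τ x * (Z τ) x = b τ x))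
    {δ' : ℝ → ℝ → ℝ} (hδ : Sm (Ioo 0 1) L δ')
    (h2 : ∀ τ ∈ Ioo (0 : ℝ) 1, ∀ᵐ x ∂(volume.restrict (Ioo 0 L)),
        δ' τ x = (U τ) x ∧ x * (1 - x / L) * dx L (dx L δ') τ x = (Z τ) x) :
    ∀ᵐ p : ℝ × ℝ, p ∈ (Ioo (0 : ℝ) 1 ×ˢ Ioo (0 : ℝ) L) →
        δ' p.1 p.2 = δ p.1 p.2 ∧ φ p.1 p.2 * dx L (dx L δ') p.1 p.2 = b p.1 p.2 := by
  have hL : 0 < L := bg_L_pos hB
  have hopen : IsOpen (Ioo (0 : ℝ) 1) := isOpen_Ioo
  set Ω : Set (ℝ × ℝ) := Ioo (0 : ℝ) 1 ×ˢ Ioo (0 : ℝ) L with hΩ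
  have hΩm : MeasurableSet Ω := measurableSet_Ioo.prod measurableSet_Ioo
  have hsub : Ω ⊆ Ioo (0 : ℝ) 1 ×ˢ Icc 0 L := Set.prod_mono subset_rfl Ioo_subset_Icc_self
  have hφ : Sm (Ioo 0 1) L φ := bg_sm_phi hB
  have hd2 : Sm (Ioo 0 1) L (fun τ x => φ τ x * dx L (dx L δ') τ x) :=
    hφ.mul ((hδ.dx hopen hL).dx hopen hL)
  have hm1 : Measurable (Ω.indicator (fun p : ℝ × ℝ => δ' p.1 p.2)) :=
    measurable_of_continuousOn_Ω (hδ.continuousOn.mono hsub)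
  have hm2 : Measurable (Ω.indicator (fun p : ℝ × ℝ => φ p.1 p.2 * dx L (dx L δ') p.1 p.2)) :=
    measurable_of_continuousOn_Ω (u := fun τ x => φ τ x * dx L (dx L δ') τ x)
      (hd2.continuousOn.mono hsub)
  have hm3 : Measurable (Ω.indicator (fun p : ℝ × ℝ => δ p.1 p.2)) := hdm.indicator hΩm
  have hm4 : Measurable (Ω.indicator (fun p : ℝ × ℝ => b p.1 p.2)) := hbm.indicator hΩm
  have hS : MeasurableSet {p : ℝ × ℝ |
      Ω.indicator (fun p : ℝ × ℝ => δ' p.1 p.2) p = Ω.indicator (fun p : ℝ × ℝ => δ p.1 p.2) p ∧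
      Ω.indicator (fun p : ℝ × ℝ => φ p.1 p.2 * dx L (dx L δ') p.1 p.2) p =
        Ω.indicator (fun p : ℝ × ℝ => b p.1 p.2) p} :=
    (measurableSet_eq_fun hm1 hm3).inter (measurableSet_eq_fun hm2 hm4)
  have key : ∀ᵐ p : ℝ × ℝ,
      Ω.indicator (fun p : ℝ × ℝ => δ' p.1 p.2) p = Ω.indicator (fun p : ℝ × ℝ => δ p.1 p.2) p ∧
      Ω.indicator (fun p : ℝ × ℝ => φ p.1 p.2 * dx L (dx L δ') p.1 p.2) p =
        Ω.indicator (fun p : ℝ × ℝ => b p.1 p.2) p := by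
    rw [Measure.volume_eq_prod]
    rw [Measure.ae_prod_iff_ae_ae hS]
    have h1' := (ae_restrict_iff' measurableSet_Ioo).1 h1
    filter_upwards [h1'] with τ hτ
    by_cases hmem : τ ∈ Ioo (0 : ℝ) 1
    · obtain ⟨ha, hb⟩ := hτ hmem
      have ha' := (ae_restrict_iff' measurableSet_Ioo).1 (ae_mu_iff.1 ha)
      have hb' := (ae_restrict_iff' measurableSet_Ioo).1 (ae_mu_iff.1 hb)
      have hc' := (ae_restrict_iff' measurableSet_Ioo).1 (h2 τ hmem)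
      filter_upwards [ha', hb', hc'] with x hxa hxb hxc
      by_cases hx : x ∈ Ioo (0 : ℝ) L
      · have hp : (τ, x) ∈ Ω := ⟨hmem, hx⟩
        simp only [Set.indicator_of_mem hp]
        obtain ⟨e1, e2⟩ := hxc hx
        refine ⟨e1.trans (hxa hx), ?_⟩
        rw [hB.phi_eq τ hmem x (Ioo_subset_Icc_self hx), ← hxb hx, ← e2]
        ring
      · have hp : (τ, x) ∉ Ω := fun h => hx h.2
        simp only [Set.indicator_of_notMem hp, and_self]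
    · filter_upwards with x
      have hp : (τ, x) ∉ Ω := fun h => hmem h.1
      simp only [Set.indicator_of_notMem hp, and_self]
  filter_upwards [key] with p hp hpΩ
  simpa only [Set.indicator_of_mem hpΩ] using hp

end Crest.Agent.R213.B
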