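import Crest.Agent.R213.B.Space
import Mathlib
import Crest.Agent.R213.B.Asm

-- ▼ part R213/B/Conc
section

/-!
# Row 213, part B, B2: from the hypotheses of `reg` to the abstract setting
-/

set_option autoImplicit false

open Set MeasureTheory Filter Topology
open scoped BoundedContinuousFunction RealInnerProductSpace ENNReal

noncomputable section

namespace Crest.Agent.R213.B

variable {s : Set ℝ} {L : ℝ} {u : ℝ → ℝ → ℝ}




theorem Sm.contDiffOn_toHL (hs : IsOpen s) (hL : 0 < L) (hu : Sm s L u) :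
    ContDiffOn ℝ (⊤ : ℕ∞) (fun τ => toHL L (u τ)) s := by
  have h := (BoundedContinuousFunction.toLp 2 (mu L) ℝ (E := ℝ)).contDiff.comp_contDiffOn
    (Sm.contDiffOn_ex hs hL hu)
  refine h.congr fun τ hτ => ?_
  exact toHL_ex hL (hu.continuousOn_right hτ)

/-- the coefficient operator -/
def NL (L : ℝ) (m : ℝ → ℝ → ℝ) (τ : ℝ) : HL L →L[ℝ] HL L := mulL L (ex L (fun x => m τ x ^ 2))

theorem NL_contDiffOn (hs : IsOpen s) (hL : 0 < L) {m : ℝ → ℝ → ℝ} (hm : Sm s L m) :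
    ContDiffOn ℝ (⊤ : ℕ∞) (NL L m) s :=
  (mulL L).contDiff.comp_contDiffOn (Sm.contDiffOn_ex hs hL (hm.pow 2))

theorem NL_symm {m : ℝ → ℝ → ℝ} (τ : ℝ) (x y : HL L) : ⟪NL L m τ x, y⟫ = ⟪x, NL L m τ y⟫ :=
  mulL_symm _ _ _

theorem NL_coer (hL : 0 < L) {m : ℝ → ℝ → ℝ} (hm : Sm s L m) {c0 : ℝ} (hc : 0 < c0) {τ : ℝ}
    (hτ : τ ∈ s) (hlow : ∀ x ∈ Icc 0 L, c0 ≤ m τ x) (x : HL L) :
    c0 ^ 2 * ‖x‖ ^ 2 ≤ ⟪NL L m τ x, x⟫ := by
  refine mulL_coercive (fun y hy => ?_) x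
  rw [ex_apply_mem hL.le ((hm.pow 2).continuousOn_right hτ) (Ioo_subset_Icc_self hy)]
  exact pow_le_pow_left₀ hc.le (hlow y (Ioo_subset_Icc_self hy)) 2

end Crest.Agent.R213.B
end
end

-- ▼ part R213/B/Conc2
section

/-!
# Row 213, part B, B2: the weak solution as a curve in `V`
-/

set_option autoImplicit false

open Set MeasureTheory Filter Topology
open scoped BoundedContinuousFunction RealInnerProductSpace ENNReal

noncomputable section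

namespace Crest.Agent.R213.B

variable {s : Set ℝ} {L : ℝ} {u : ℝ → ℝ → ℝ}

/-! ### weights -/

/-- lower bound of the weights -/
def om (L κ τ : ℝ) : ℝ := τ ^ (2 * κ) / (L ^ 2 + 1) ^ 60

theorem om_pos {κ τ : ℝ} (hτ : τ ∈ Ioo (0 : ℝ) 1) : 0 < om L κ τ := by
  unfold om
  have := Real.rpow_pos_of_pos hτ.1 (2 * κ)
  positivity

theorem om_le_Wt {κ τ x : ℝ} (hτ : τ ∈ Ioo (0 : ℝ) 1) (hx : x ∈ Icc 0 L) :
    om L κ τ ≤ Wt κ τ x := by
  unfold om Wt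
  have h0 := Real.rpow_pos_of_pos hτ.1 (2 * κ)
  have h1 : 0 < x ^ 2 + τ := by nlinarith [hτ.1, sq_nonneg x]
  apply div_le_div_of_nonneg_left h0.le (by positivity)
  apply pow_le_pow_left₀ h1.le
  have : x ^ 2 ≤ L ^ 2 := pow_le_pow_left₀ hx.1 hx.2 2
  linarith [hτ.2]

theorem om_le_Wt' {κ τ x : ℝ} (hτ : τ ∈ Ioo (0 : ℝ) 1) (hx : x ∈ Icc 0 L) :
    om L κ τ ≤ Wt' κ τ x := by
  have h := om_le_Wt (κ := κ) hτ hx
  have h2 : 0 < Wt κ τ x := (om_pos hτ).trans_le h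
  unfold Wt'
  rw [le_div_iff₀ hτ.1]
  nlinarith [hτ.2, om_pos (L := L) (κ := κ) hτ]

theorem om_lower {κ a b : ℝ} (ha : 0 < a) (hab : a ≤ b) :
    ∃ c > 0, ∀ τ ∈ Icc a b, c ≤ om L κ τ := by
  have hc : ContinuousOn (om L κ) (Icc a b) := by
    unfold om
    apply ContinuousOn.div_const
    exact ContinuousOn.rpow_const continuousOn_id
      (fun x hx => Or.inl (ha.trans_le hx.1).ne')
  obtain ⟨y, hy, hy2⟩ := isCompact_Icc.exists_isMinOn ⟨a, left_mem_Icc.2 hab⟩ hc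
  refine ⟨om L κ y, ?_, fun τ hτ => hy2 hτ⟩
  unfold om
  have := Real.rpow_pos_of_pos (ha.trans_le hy.1) (2 * κ)
  positivity

/-! ### norms in `HL` -/

theorem integrable_w_mul {f g : ℝ → ℝ} (hf : MemLp f 2 (mu L)) (hg : MemLp g 2 (mu L)) :
    IntegrableOn (fun x => x ^ 9 * (f x * g x)) (Ioo 0 L) := by
  have h : Integrable (fun x => f x * g x) (mu L) := by
    have := MemLp.integrable_mul hf hg
    exact this
  unfold mu at h
  rw [integrable_withDensity_iff_integrable_smul₀' measurable_w.aemeasurable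
    (Eventually.of_forall fun _ => ENNReal.ofReal_lt_top)] at h
  refine (integrableOn_congr_fun ?_ measurableSet_Ioo).1 h
  intro x hx
  simp only [smul_eq_mul]
  rw [ENNReal.toReal_ofReal (pow_nonneg hx.1.le 9)]

theorem norm_toHL_sq {f : ℝ → ℝ} (hf : MemLp f 2 (mu L)) :
    ENNReal.ofReal (‖toHL L f‖ ^ 2) = ∫⁻ x in Ioo 0 L, ENNReal.ofReal (x ^ 9 * (f x) ^ 2) := by
  rw [← real_inner_self_eq_norm_sq, inner_toHL hf hf,
    ofReal_integral_eq_lintegral_ofReal (integrable_w_mul hf hf)]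
  · refine lintegral_congr fun x => ?_
    rw [sq]
  · filter_upwards [ae_restrict_mem measurableSet_Ioo] with x hx
    exact mul_nonneg (pow_nonneg hx.1.le 9) (mul_self_nonneg _)

theorem toHL_sub {f g : ℝ → ℝ} (hf : MemLp f 2 (mu L)) (hg : MemLp g 2 (mu L)) :
    toHL L (fun x => f x - g x) = toHL L f - toHL L g := by
  have h : MemLp (fun x => f x - g x) 2 (mu L) := hf.sub hg
  rw [toHL_eq hf, toHL_eq hg, toHL_eq h, ← MemLp.toLp_sub hf hg]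
  rfl

theorem norm_toHL_sub_sq {f g : ℝ → ℝ} (hf : MemLp f 2 (mu L)) (hg : MemLp g 2 (mu L)) :
    ENNReal.ofReal (‖toHL L f - toHL L g‖ ^ 2)
      = ∫⁻ x in Ioo 0 L, ENNReal.ofReal (x ^ 9 * (f x - g x) ^ 2) := by
  have h : MemLp (fun x => f x - g x) 2 (mu L) := hf.sub hg
  rw [← toHL_sub hf hg, norm_toHL_sq h]

theorem memLp_of_lintegral {f : ℝ → ℝ} (hm : AEStronglyMeasurable f (volume.restrict (Ioo 0 L)))
    (h : ∫⁻ x in Ioo 0 L, ENNReal.ofReal (x ^ 9 * (f x) ^ 2) < ⊤) : MemLp f 2 (mu L) := by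
  have hm' : AEStronglyMeasurable f (mu L) :=
    hm.mono_ac (withDensity_absolutelyContinuous _ _)
  refine ⟨hm', ?_⟩
  rw [eLpNorm_lt_top_iff_lintegral_rpow_enorm_lt_top (by norm_num) (by norm_num)]
  have e : ∫⁻ x, ‖f x‖ₑ ^ (2 : ℝ≥0∞).toReal ∂(mu L)
      = ∫⁻ x in Ioo 0 L, ENNReal.ofReal (x ^ 9 * (f x) ^ 2) := by
    rw [lintegral_mu]
    · refine setLIntegral_congr_fun measurableSet_Ioo fun x hx => ?_
      simp only [ENNReal.toReal_ofNat, ENNReal.rpow_ofNat]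
      rw [ENNReal.ofReal_mul (pow_nonneg hx.1.le 9)]
      congr 1
      rw [← ofReal_norm (f x), ← ENNReal.ofReal_pow (norm_nonneg _), Real.norm_eq_abs,
        sq_abs]
    · exact (hm.enorm.pow_const _)
  rw [e]
  exact h

/-! ### slicing -/

theorem meas_S : MeasurableSet (Ioo (0 : ℝ) 1 ×ˢ Ioo (0 : ℝ) L) :=
  measurableSet_Ioo.prod measurableSet_Ioo

theorem restrict_S : (volume : Measure (ℝ × ℝ)).restrict (Ioo (0 : ℝ) 1 ×ˢ Ioo (0 : ℝ) L)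
    = (volume.restrict (Ioo (0 : ℝ) 1)).prod (volume.restrict (Ioo (0 : ℝ) L)) := by
  rw [Measure.prod_restrict]
  rfl

theorem lintegral_S {F : ℝ → ℝ → ℝ≥0∞}
    (hF : AEMeasurable (fun p : ℝ × ℝ => F p.1 p.2)
      (volume.restrict (Ioo (0 : ℝ) 1 ×ˢ Ioo (0 : ℝ) L))) :
    ∫⁻ p in (Ioo (0 : ℝ) 1 ×ˢ Ioo (0 : ℝ) L), F p.1 p.2
      = ∫⁻ τ in Ioo (0 : ℝ) 1, ∫⁻ x in Ioo 0 L, F τ x := by
  rw [restrict_S] at hF ⊢
  exact lintegral_prod _ hF

theorem aemeas_slice {F : ℝ → ℝ → ℝ≥0∞}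
    (hF : AEMeasurable (fun p : ℝ × ℝ => F p.1 p.2)
      (volume.restrict (Ioo (0 : ℝ) 1 ×ˢ Ioo (0 : ℝ) L))) :
    AEMeasurable (fun τ => ∫⁻ x in Ioo 0 L, F τ x) (volume.restrict (Ioo (0 : ℝ) 1)) := by
  rw [restrict_S] at hF
  exact hF.lintegral_prod_right'

/-- convergence of double integrals gives a.e. convergence of slices along a subsequence. -/
theorem exists_subseq_slice {F : ℕ → ℝ → ℝ → ℝ≥0∞}
    (hF : ∀ k, AEMeasurable (fun p : ℝ × ℝ => F k p.1 p.2)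
      (volume.restrict (Ioo (0 : ℝ) 1 ×ˢ Ioo (0 : ℝ) L)))
    (h : Tendsto (fun k => ∫⁻ p in (Ioo (0 : ℝ) 1 ×ˢ Ioo (0 : ℝ) L), F k p.1 p.2) atTop (𝓝 0)) :
    ∃ φ : ℕ → ℕ, StrictMono φ ∧ ∀ᵐ τ ∂(volume.restrict (Ioo (0 : ℝ) 1)),
      Tendsto (fun k => ∫⁻ x in Ioo 0 L, F (φ k) τ x) atTop (𝓝 0) := by
  have h1 : ∀ j : ℕ, ∀ᶠ k in atTop,
      ∫⁻ p in (Ioo (0 : ℝ) 1 ×ˢ Ioo (0 : ℝ) L), F k p.1 p.2 < (1 / 2 : ℝ≥0∞) ^ j := by
    intro j
    apply h.eventually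
    apply gt_mem_nhds
    exact ENNReal.pow_pos (by norm_num) j
  obtain ⟨φ, hφ, hφ2⟩ := extraction_forall_of_eventually (P := fun j k => ∫⁻ p in (Ioo (0 : ℝ) 1 ×ˢ Ioo (0 : ℝ) L), F k p.1 p.2 < (1 / 2 : ℝ≥0∞) ^ j) (fun j => (h1 j))
  refine ⟨φ, hφ, ?_⟩
  have h2 : ∫⁻ τ in Ioo (0 : ℝ) 1, ∑' k, ∫⁻ x in Ioo 0 L, F (φ k) τ x ≠ ⊤ := by
    rw [lintegral_tsum (fun k => aemeas_slice (hF (φ k)))]
    have h3 : ∑' k, ∫⁻ τ in Ioo (0 : ℝ) 1, ∫⁻ x in Ioo 0 L, F (φ k) τ x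
        ≤ ∑' k : ℕ, (1 / 2 : ℝ≥0∞) ^ k := by
      refine ENNReal.tsum_le_tsum fun k => ?_
      rw [← lintegral_S (hF (φ k))]
      exact (hφ2 k).le
    refine ne_top_of_le_ne_top ?_ h3
    rw [ENNReal.tsum_geometric]
    norm_num
  have h4 := ae_lt_top' (AEMeasurable.tsum fun k => aemeas_slice (hF (φ k))) h2
  filter_upwards [h4] with τ hτ
  exact ENNReal.tendsto_atTop_zero_of_tsum_ne_top hτ.ne

/-! ### pointwise comparison of slices -/

theorem slice_le {w : ℝ} (hw : 0 ≤ w) {W y z : ℝ → ℝ} (hW : ∀ x ∈ Ioo 0 L, w ≤ W x) {c : ℝ}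
    (hz : ∀ x ∈ Ioo 0 L, (z x) ^ 2 ≤ c * (y x) ^ 2) :
    ENNReal.ofReal w * ∫⁻ x in Ioo 0 L, ENNReal.ofReal (x ^ 9 * (z x) ^ 2)
      ≤ ENNReal.ofReal c * ∫⁻ x in Ioo 0 L, ENNReal.ofReal (W x * x ^ 9 * (y x) ^ 2) := by
  rw [← lintegral_const_mul' _ _ ENNReal.ofReal_ne_top, ← lintegral_const_mul' _ _ ENNReal.ofReal_ne_top]
  refine setLIntegral_mono' measurableSet_Ioo fun x hx => ?_
  have hx9 : 0 ≤ x ^ 9 := pow_nonneg hx.1.le 9
  by_cases hc : 0 ≤ c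
  · rw [← ENNReal.ofReal_mul hw, ← ENNReal.ofReal_mul hc]
    apply ENNReal.ofReal_le_ofReal
    have h1 := hW x hx
    have h2 := hz x hx
    calc w * (x ^ 9 * z x ^ 2) ≤ W x * (x ^ 9 * (c * y x ^ 2)) := by
          apply mul_le_mul h1 _ (by positivity) (hw.trans h1)
          exact mul_le_mul_of_nonneg_left h2 hx9
      _ = c * (W x * x ^ 9 * y x ^ 2) := by ring
  · have h2 := hz x hx
    have h3 : z x ^ 2 ≤ 0 := h2.trans (by nlinarith [sq_nonneg (y x), not_le.1 hc])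
    have h4 : z x ^ 2 = 0 := le_antisymm h3 (sq_nonneg _)
    rw [h4, mul_zero, ENNReal.ofReal_zero, mul_zero]
    exact zero_le

theorem slice_lt_top {w : ℝ} (hw : 0 < w) {W y z : ℝ → ℝ} (hW : ∀ x ∈ Ioo 0 L, w ≤ W x) {c : ℝ}
    (hz : ∀ x ∈ Ioo 0 L, (z x) ^ 2 ≤ c * (y x) ^ 2)
    (h : ∫⁻ x in Ioo 0 L, ENNReal.ofReal (W x * x ^ 9 * (y x) ^ 2) < ⊤) :
    ∫⁻ x in Ioo 0 L, ENNReal.ofReal (x ^ 9 * (z x) ^ 2) < ⊤ := by
  have h1 := slice_le hw.le hW hz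
  have h2 : ENNReal.ofReal w * ∫⁻ x in Ioo 0 L, ENNReal.ofReal (x ^ 9 * (z x) ^ 2) < ⊤ :=
    h1.trans_lt (ENNReal.mul_lt_top ENNReal.ofReal_lt_top h)
  by_contra h3
  rw [not_lt, top_le_iff] at h3
  rw [h3, ENNReal.mul_top (by simpa using hw)] at h2
  exact lt_irrefl _ h2

theorem slice_tendsto {w : ℝ} (hw : 0 < w) {W : ℝ → ℝ} {y z : ℕ → ℝ → ℝ}
    (hW : ∀ x ∈ Ioo 0 L, w ≤ W x) {c : ℝ}
    (hz : ∀ k, ∀ x ∈ Ioo 0 L, (z k x) ^ 2 ≤ c * (y k x) ^ 2)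
    (h : Tendsto (fun k => ∫⁻ x in Ioo 0 L, ENNReal.ofReal (W x * x ^ 9 * (y k x) ^ 2)) atTop
      (𝓝 0)) :
    Tendsto (fun k => ∫⁻ x in Ioo 0 L, ENNReal.ofReal (x ^ 9 * (z k x) ^ 2)) atTop (𝓝 0) := by
  have h1 : Tendsto (fun k => (ENNReal.ofReal w)⁻¹ * (ENNReal.ofReal c *
      ∫⁻ x in Ioo 0 L, ENNReal.ofReal (W x * x ^ 9 * (y k x) ^ 2))) atTop (𝓝 0) := by
    have h2 := ENNReal.Tendsto.const_mul (a := ENNReal.ofReal c) h (Or.inr ENNReal.ofReal_ne_top)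
    rw [mul_zero] at h2
    have h3 := ENNReal.Tendsto.const_mul (a := (ENNReal.ofReal w)⁻¹) h2
      (Or.inr (ENNReal.inv_ne_top.2 (by simpa using hw)))
    rwa [mul_zero] at h3
  refine tendsto_of_tendsto_of_tendsto_of_le_of_le tendsto_const_nhds h1 (fun _ => zero_le)
    fun k => ?_
  have h4 := slice_le hw.le hW (hz k)
  have hw' : ENNReal.ofReal w ≠ 0 := by simpa using hw
  calc _ = (ENNReal.ofReal w)⁻¹ * (ENNReal.ofReal w *
        ∫⁻ x in Ioo 0 L, ENNReal.ofReal (x ^ 9 * (z k x) ^ 2)) := by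
        rw [← mul_assoc, ENNReal.inv_mul_cancel hw' ENNReal.ofReal_ne_top, one_mul]
    _ ≤ _ := by gcongr

/-! ### measurability of the integrands -/

theorem meas_Wt (κ : ℝ) : Measurable (fun p : ℝ × ℝ => Wt κ p.1 p.2) := by
  unfold Wt
  fun_prop

theorem meas_Wt' (κ : ℝ) : Measurable (fun p : ℝ × ℝ => Wt' κ p.1 p.2) := by
  unfold Wt'
  exact (meas_Wt κ).div measurable_fst

theorem Sm.aemeas (hu : Sm (Ioo 0 1) L u) :
    AEMeasurable (fun p : ℝ × ℝ => u p.1 p.2)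
      (volume.restrict (Ioo (0 : ℝ) 1 ×ˢ Ioo (0 : ℝ) L)) :=
  (hu.continuousOn.mono (prod_mono (subset_refl _) Ioo_subset_Icc_self)).aemeasurable meas_S

theorem aemeas_integrand {V y : ℝ → ℝ → ℝ} (hV : Measurable (fun p : ℝ × ℝ => V p.1 p.2))
    (hy : AEMeasurable (fun p : ℝ × ℝ => y p.1 p.2)
      (volume.restrict (Ioo (0 : ℝ) 1 ×ˢ Ioo (0 : ℝ) L))) :
    AEMeasurable (fun p : ℝ × ℝ => ENNReal.ofReal (V p.1 p.2 * p.2 ^ 9 * (y p.1 p.2) ^ 2))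
      (volume.restrict (Ioo (0 : ℝ) 1 ×ˢ Ioo (0 : ℝ) L)) := by
  apply AEMeasurable.ennreal_ofReal
  exact (hV.aemeasurable.mul (measurable_snd.pow_const 9).aemeasurable).mul (hy.pow_const 2)

/-- finite `N2` norm: almost every slice is finite. -/
theorem ae_slice_lt_top {V y : ℝ → ℝ → ℝ} (hV : Measurable (fun p : ℝ × ℝ => V p.1 p.2))
    (hy : AEMeasurable (fun p : ℝ × ℝ => y p.1 p.2)
      (volume.restrict (Ioo (0 : ℝ) 1 ×ˢ Ioo (0 : ℝ) L))) (h : N2 L V y < ⊤) :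
    ∀ᵐ τ ∂(volume.restrict (Ioo (0 : ℝ) 1)),
      ∫⁻ x in Ioo 0 L, ENNReal.ofReal (V τ x * x ^ 9 * (y τ x) ^ 2) < ⊤ := by
  unfold N2 at h
  rw [lintegral_S (F := fun τ x => ENNReal.ofReal (V τ x * x ^ 9 * (y τ x) ^ 2))
    (aemeas_integrand hV hy)] at h
  exact ae_lt_top' (aemeas_slice (aemeas_integrand hV hy)) h.ne

end Crest.Agent.R213.B
end
end

-- ▼ part R213/B/Conc3
section

/-!
# Row 213, part B, B2: the weak solution as a curve in `V` (continued)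
-/

set_option autoImplicit false

open Set MeasureTheory Filter Topology
open scoped BoundedContinuousFunction RealInnerProductSpace ENNReal

noncomputable section

namespace Crest.Agent.R213.B

variable {L : ℝ} {u : ℝ → ℝ → ℝ}

open Classical in
/-- smooth functions as elements of `V` (zero if not smooth) -/
def smV' (L : ℝ) (p : ℝ → ℝ) : VL L :=
  if h : ContDiffOn ℝ (⊤ : ℕ∞) p (Icc 0 L) then smV L p h else 0

theorem smV'_eq {p : ℝ → ℝ} (h : ContDiffOn ℝ (⊤ : ℕ∞) p (Icc 0 L)) : smV' L p = smV L p h := by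
  unfold smV'
  rw [dif_pos h]

theorem sm_phi0dd (hL : 0 < L) (hu : Sm (Ioo 0 1) L u) :
    Sm (Ioo 0 1) L (fun τ x => phi0 L x * dx L (dx L u) τ x) := by
  apply Sm.mul
  · apply Sm.of_right
    unfold phi0
    fun_prop
  · exact (hu.dx isOpen_Ioo hL).dx isOpen_Ioo hL

theorem continuousOn_smV' (hL : 0 < L) (hu : Sm (Ioo 0 1) L u) :
    ContinuousOn (fun τ => smV' L (u τ)) (Ioo 0 1) := by
  rw [Topology.IsInducing.subtypeVal.continuousOn_iff]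
  have h1 : ContinuousOn (fun τ => WithLp.toLp 2 (toHL L (u τ),
      toHL L (fun x => phi0 L x * dx L (dx L u) τ x))) (Ioo (0 : ℝ) 1) := by
    have e1 : ContinuousOn (fun τ => toHL L (u τ)) (Ioo (0 : ℝ) 1) :=
      (Sm.contDiffOn_toHL isOpen_Ioo hL hu).continuousOn
    have e2 : ContinuousOn (fun τ => toHL L (fun x => phi0 L x * dx L (dx L u) τ x))
        (Ioo (0 : ℝ) 1) :=
      (Sm.contDiffOn_toHL isOpen_Ioo hL (sm_phi0dd hL hu)).continuousOn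
    exact (WithLp.prodContinuousLinearEquiv 2 ℝ (HL L) (HL L)).symm.continuous.comp_continuousOn
      (e1.prodMk e2)
  refine h1.congr fun τ hτ => ?_
  have hs := hu.contDiffOn_right hτ
  simp only [Function.comp]
  rw [smV'_eq hs]
  rfl

open Classical in
/-- the curve -/
def wc (L : ℝ) (m δ b : ℝ → ℝ → ℝ) (τ : ℝ) : VL L :=
  if h : WithLp.toLp 2 (toHL L (δ τ), toHL L (fun x => b τ x / m τ x)) ∈ VS L then
    ⟨_, h⟩ else 0

theorem wc_coe {m δ b : ℝ → ℝ → ℝ} {τ : ℝ}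
    (h : WithLp.toLp 2 (toHL L (δ τ), toHL L (fun x => b τ x / m τ x)) ∈ VS L) :
    (wc L m δ b τ : WithLp 2 (HL L × HL L)) =
      WithLp.toLp 2 (toHL L (δ τ), toHL L (fun x => b τ x / m τ x)) := by
  unfold wc
  rw [dif_pos h]

theorem Bg.L_pos {c0 C0 : ℝ} {g : ℝ → ℝ} {φ m : ℝ → ℝ → ℝ} (hB : Bg c0 C0 g L φ m) : 0 < L := by
  linarith [hB.L_ge]

theorem tendsto_toHL {y : ℕ → ℝ → ℝ} {z : ℝ → ℝ} (hy : ∀ k, MemLp (y k) 2 (mu L))
    (hz : MemLp z 2 (mu L))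
    (h : Tendsto (fun k => ∫⁻ x in Ioo 0 L, ENNReal.ofReal (x ^ 9 * (y k x - z x) ^ 2)) atTop
      (𝓝 0)) :
    Tendsto (fun k => toHL L (y k)) atTop (𝓝 (toHL L z)) := by
  rw [tendsto_iff_norm_sub_tendsto_zero]
  have e : ∀ k, ENNReal.ofReal (‖toHL L (y k) - toHL L z‖ ^ 2)
      = ∫⁻ x in Ioo 0 L, ENNReal.ofReal (x ^ 9 * (y k x - z x) ^ 2) := fun k =>
    norm_toHL_sub_sq (hy k) hz
  simp only [← e] at h
  have h5 := (ENNReal.tendsto_toReal ENNReal.zero_ne_top).comp h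
  simp only [ENNReal.toReal_zero] at h5
  have h6 : Tendsto (fun k => ‖toHL L (y k) - toHL L z‖ ^ 2) atTop (𝓝 0) := by
    refine h5.congr fun k => ?_
    simp only [Function.comp]
    rw [ENNReal.toReal_ofReal (sq_nonneg _)]
  have h7 := h6.sqrt
  rw [Real.sqrt_zero] at h7
  refine h7.congr fun k => ?_
  rw [Real.sqrt_sq (norm_nonneg _)]

theorem tendsto_pair {y : ℕ → ℝ → ℝ} {z : HL L × HL L}
    (hy : ∀ k, ContDiffOn ℝ (⊤ : ℕ∞) (y k) (Icc 0 L))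
    (h1 : Tendsto (fun k => toHL L (y k)) atTop (𝓝 z.1))
    (h2 : Tendsto (fun k => toHL L (fun x => phi0 L x * dd L (y k) x)) atTop (𝓝 z.2)) :
    Tendsto (fun k => (smV' L (y k) : WithLp 2 (HL L × HL L))) atTop (𝓝 (WithLp.toLp 2 z)) := by
  have c3 := ((WithLp.prodContinuousLinearEquiv 2 ℝ (HL L) (HL L)).symm.continuous.tendsto
    _).comp (h1.prodMk_nhds h2)
  refine Tendsto.congr (fun k => ?_) c3
  rw [smV'_eq (hy _)]
  rfl

theorem hphi_sm {c0 C0 : ℝ} {g : ℝ → ℝ} {φ m : ℝ → ℝ → ℝ} (hB : Bg c0 C0 g L φ m) :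
    Sm (Ioo 0 1) L φ := by
  refine Sm.congr (u := fun τ x => phi0 L x * m τ x) (Sm.mul (Sm.of_right ?_) hB.sm) ?_
  · unfold phi0; fun_prop
  · intro t ht x hx
    rw [hB.phi_eq t ht x hx]; rfl

theorem sq_div_le {c0 y m : ℝ} (hc0 : 0 < c0) (hm : c0 ≤ m) : (y / m) ^ 2 ≤ (c0 ^ 2)⁻¹ * y ^ 2 := by
  rw [div_pow, div_eq_mul_inv, mul_comm]
  apply mul_le_mul_of_nonneg_right _ (sq_nonneg y)
  exact inv_anti₀ (by positivity) (pow_le_pow_left₀ hc0.le hm 2)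

/-- subsequence along which almost all slices converge -/
theorem exists_sub {c0 C0 : ℝ} {g : ℝ → ℝ} {φ m : ℝ → ℝ → ℝ} (hB : Bg c0 C0 g L φ m)
    {κ : ℝ} {b δ : ℝ → ℝ → ℝ}
    (hbm : Measurable (fun p : ℝ × ℝ => b p.1 p.2))
    (hdm : Measurable (fun p : ℝ × ℝ => δ p.1 p.2))
    {u : ℕ → ℝ → ℝ → ℝ} (hSu : ∀ k, Sm (Ioo 0 1) L (u k))
    (hu1 : Tendsto (fun k => N2 L (Wt κ) (fun τ x => φ τ x * dx L (dx L (u k)) τ x - b τ x))
            atTop (𝓝 0))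
    (hu2 : Tendsto (fun k => N2 L (Wt' κ) (fun τ x => u k τ x - δ τ x)) atTop (𝓝 0)) :
    ∃ ν : ℕ → ℕ, ∀ᵐ τ ∂(volume.restrict (Ioo (0 : ℝ) 1)),
      Tendsto (fun k => ∫⁻ x in Ioo 0 L, ENNReal.ofReal (Wt κ τ x * x ^ 9 *
        (φ τ x * dx L (dx L (u (ν k))) τ x - b τ x) ^ 2)) atTop (𝓝 0) ∧
      Tendsto (fun k => ∫⁻ x in Ioo 0 L, ENNReal.ofReal (Wt' κ τ x * x ^ 9 *
        (u (ν k) τ x - δ τ x) ^ 2)) atTop (𝓝 0) := by
  have hL := Bg.L_pos hB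
  have hphi := hphi_sm hB
  have hSuu : ∀ k, Sm (Ioo 0 1) L (dx L (dx L (u k))) := fun k =>
    ((hSu k).dx isOpen_Ioo hL).dx isOpen_Ioo hL
  -- measurability of the two integrands
  have mF1 : ∀ k, AEMeasurable (fun p : ℝ × ℝ => ENNReal.ofReal (Wt κ p.1 p.2 * p.2 ^ 9 *
      (φ p.1 p.2 * dx L (dx L (u k)) p.1 p.2 - b p.1 p.2) ^ 2))
      (volume.restrict (Ioo (0 : ℝ) 1 ×ˢ Ioo (0 : ℝ) L)) := fun k =>
    aemeas_integrand (y := fun τ x => φ τ x * dx L (dx L (u k)) τ x - b τ x) (meas_Wt κ)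
      (((Sm.aemeas hphi).mul (Sm.aemeas (hSuu k))).sub hbm.aemeasurable)
  have mF2 : ∀ k, AEMeasurable (fun p : ℝ × ℝ => ENNReal.ofReal (Wt' κ p.1 p.2 * p.2 ^ 9 *
      (u k p.1 p.2 - δ p.1 p.2) ^ 2))
      (volume.restrict (Ioo (0 : ℝ) 1 ×ˢ Ioo (0 : ℝ) L)) := fun k =>
    aemeas_integrand (y := fun τ x => u k τ x - δ τ x) (meas_Wt' κ)
      ((Sm.aemeas (hSu k)).sub hdm.aemeasurable)
  have hsum : Tendsto (fun k => ∫⁻ p in (Ioo (0 : ℝ) 1 ×ˢ Ioo (0 : ℝ) L),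
      (ENNReal.ofReal (Wt κ p.1 p.2 * p.2 ^ 9 *
      (φ p.1 p.2 * dx L (dx L (u k)) p.1 p.2 - b p.1 p.2) ^ 2) +
        ENNReal.ofReal (Wt' κ p.1 p.2 * p.2 ^ 9 * (u k p.1 p.2 - δ p.1 p.2) ^ 2))) atTop
          (𝓝 0) := by
    have h := hu1.add hu2
    rw [add_zero] at h
    refine h.congr fun k => ?_
    rw [lintegral_add_left' (mF1 k)]
    rfl
  obtain ⟨ν, -, hν⟩ := exists_subseq_slice
    (F := fun k τ x => ENNReal.ofReal (Wt κ τ x * x ^ 9 *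
      (φ τ x * dx L (dx L (u k)) τ x - b τ x) ^ 2) +
        ENNReal.ofReal (Wt' κ τ x * x ^ 9 * (u k τ x - δ τ x) ^ 2))
    (fun k => (mF1 k).add (mF2 k)) hsum
  refine ⟨ν, ?_⟩
  filter_upwards [hν] with τ h1
  constructor
  · refine tendsto_of_tendsto_of_tendsto_of_le_of_le tendsto_const_nhds h1 (fun _ => zero_le)
      fun k => ?_
    exact lintegral_mono fun x => le_self_add
  · refine tendsto_of_tendsto_of_tendsto_of_le_of_le tendsto_const_nhds h1 (fun _ => zero_le)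
      fun k => ?_
    exact lintegral_mono fun x => le_add_self

/-- slices of the weak solution are in `L²`. -/
theorem slice_memLp {c0 C0 : ℝ} {g : ℝ → ℝ} {φ m : ℝ → ℝ → ℝ} (hB : Bg c0 C0 g L φ m)
    (hc0 : 0 < c0) {κ : ℝ} {b δ : ℝ → ℝ → ℝ}
    (hbm : Measurable (fun p : ℝ × ℝ => b p.1 p.2))
    (hdm : Measurable (fun p : ℝ × ℝ => δ p.1 p.2)) {τ : ℝ} (hτ : τ ∈ Ioo (0 : ℝ) 1)
    (h2 : ∫⁻ x in Ioo 0 L, ENNReal.ofReal (Wt κ τ x * x ^ 9 * (b τ x) ^ 2) < ⊤)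
    (h3 : ∫⁻ x in Ioo 0 L, ENNReal.ofReal (Wt' κ τ x * x ^ 9 * (δ τ x) ^ 2) < ⊤) :
    MemLp (δ τ) 2 (mu L) ∧ MemLp (fun x => b τ x / m τ x) 2 (mu L) := by
  have hw := om_pos (L := L) (κ := κ) hτ
  have hmc : ContinuousOn (m τ) (Icc 0 L) := hB.sm.continuousOn_right hτ
  have measδ : Measurable (δ τ) := hdm.comp (measurable_const.prodMk measurable_id)
  have measb : Measurable (b τ) := hbm.comp (measurable_const.prodMk measurable_id)
  constructor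
  · apply memLp_of_lintegral measδ.aestronglyMeasurable
    exact slice_lt_top hw (W := Wt' κ τ) (y := δ τ) (c := 1)
      (fun x hx => om_le_Wt' hτ (Ioo_subset_Icc_self hx)) (fun x _ => by rw [one_mul]) h3
  · apply memLp_of_lintegral
    · apply AEMeasurable.aestronglyMeasurable
      exact measb.aemeasurable.div
        ((hmc.mono Ioo_subset_Icc_self).aemeasurable measurableSet_Ioo)
    · exact slice_lt_top hw (W := Wt κ τ) (y := b τ) (c := (c0 ^ 2)⁻¹)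
        (fun x hx => om_le_Wt hτ (Ioo_subset_Icc_self hx))
        (fun x hx => sq_div_le hc0 (hB.lower τ hτ x (Ioo_subset_Icc_self hx))) h2

/-- everything we need to know about the slices -/
theorem conc_ae {c0 C0 : ℝ} {g : ℝ → ℝ} {φ m : ℝ → ℝ → ℝ} (hB : Bg c0 C0 g L φ m)
    (hc0 : 0 < c0) {κ : ℝ} {b δ : ℝ → ℝ → ℝ}
    (hbm : Measurable (fun p : ℝ × ℝ => b p.1 p.2))
    (hdm : Measurable (fun p : ℝ × ℝ => δ p.1 p.2))
    (hb : N2 L (Wt κ) b < ⊤) (hd : N2 L (Wt' κ) δ < ⊤)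
    (h1 : ∃ u : ℕ → ℝ → ℝ → ℝ, (∀ k, Tst L (u k)) ∧
          Tendsto (fun k => N2 L (Wt κ) (fun τ x => φ τ x * dx L (dx L (u k)) τ x - b τ x))
            atTop (𝓝 0) ∧
          Tendsto (fun k => N2 L (Wt' κ) (fun τ x => u k τ x - δ τ x)) atTop (𝓝 0)) :
    ∃ wk : ℕ → ℝ → VL L, (∀ k, ContinuousOn (wk k) (Ioo 0 1)) ∧
      ∀ᵐ τ ∂(volume.restrict (Ioo (0 : ℝ) 1)),
        MemLp (δ τ) 2 (mu L) ∧ MemLp (fun x => b τ x / m τ x) 2 (mu L) ∧
        Tendsto (fun k => (wk k τ : WithLp 2 (HL L × HL L))) atTop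
          (𝓝 (WithLp.toLp 2 (toHL L (δ τ), toHL L (fun x => b τ x / m τ x)))) := by
  obtain ⟨u, hu, hu1, hu2⟩ := h1
  have hL := Bg.L_pos hB
  have hSu : ∀ k, Sm (Ioo 0 1) L (u k) := fun k => (hu k).1
  obtain ⟨ν, hν⟩ := exists_sub hB hbm hdm hSu hu1 hu2
  refine ⟨fun k τ => smV' L (u (ν k) τ), fun k => continuousOn_smV' hL (hSu _), ?_⟩
  have a1 := ae_slice_lt_top (meas_Wt κ) hbm.aemeasurable hb
  have a2 := ae_slice_lt_top (meas_Wt' κ) hdm.aemeasurable hd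
  filter_upwards [hν, a1, a2, ae_restrict_mem measurableSet_Ioo] with τ h1 h2 h3 hτ
  obtain ⟨hF1, hF2⟩ := h1
  have hw := om_pos (L := L) (κ := κ) hτ
  obtain ⟨hδ, hβ⟩ := slice_memLp hB hc0 hbm hdm hτ h2 h3
  have hsm : ∀ k, ContDiffOn ℝ (⊤ : ℕ∞) (u k τ) (Icc 0 L) := fun k =>
    (hSu k).contDiffOn_right hτ
  have hcu : ∀ k, MemLp (u k τ) 2 (mu L) := fun k => memLp_of_continuousOn hL (hsm k).continuousOn
  have hcuu : ∀ k, MemLp (fun x => phi0 L x * dd L (u k τ) x) 2 (mu L) := fun k =>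
    memLp_of_continuousOn hL ((sm_phi0dd hL (hSu k)).continuousOn_right hτ)
  refine ⟨hδ, hβ, ?_⟩
  refine tendsto_pair (fun k => hsm _) ?_ ?_
  · refine tendsto_toHL (fun k => hcu _) hδ ?_
    exact slice_tendsto hw (W := Wt' κ τ) (c := 1)
      (fun x hx => om_le_Wt' hτ (Ioo_subset_Icc_self hx)) (fun k x _ => by rw [one_mul]) hF2
  · refine tendsto_toHL (fun k => hcuu _) hβ ?_
    refine slice_tendsto hw (W := Wt κ τ) (c := (c0 ^ 2)⁻¹)
      (fun x hx => om_le_Wt hτ (Ioo_subset_Icc_self hx)) (fun k x hx => ?_) hF1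
    have h5 := hB.lower τ hτ x (Ioo_subset_Icc_self hx)
    have h6 : m τ x ≠ 0 := (hc0.trans_le h5).ne'
    have e : phi0 L x * dd L (u (ν k) τ) x - b τ x / m τ x
        = (φ τ x * dx L (dx L (u (ν k))) τ x - b τ x) / m τ x := by
      rw [hB.phi_eq τ hτ x (Ioo_subset_Icc_self hx)]
      unfold phi0 dd dx
      field_simp
    rw [e]
    exact sq_div_le hc0 h5

end Crest.Agent.R213.B
end
end

-- ▼ part R213/B/Conc4
section

/-!
# Row 213, part B, B2: the weak solution as a curve in `V` (measurability, local square integrability)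
-/

set_option autoImplicit false

open Set MeasureTheory Filter Topology
open scoped BoundedContinuousFunction RealInnerProductSpace ENNReal

noncomputable section

namespace Crest.Agent.R213.B

variable {L : ℝ} {u : ℝ → ℝ → ℝ}

/-- the hypotheses of part B on the weak solution -/
structure WS (L κ : ℝ) (φ b δ : ℝ → ℝ → ℝ) : Prop where
  bm : Measurable (fun p : ℝ × ℝ => b p.1 p.2)
  dm : Measurable (fun p : ℝ × ℝ => δ p.1 p.2)
  bN : N2 L (Wt κ) b < ⊤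
  dN : N2 L (Wt' κ) δ < ⊤
  ap : ∃ u : ℕ → ℝ → ℝ → ℝ, (∀ k, Tst L (u k)) ∧
          Tendsto (fun k => N2 L (Wt κ) (fun τ x => φ τ x * dx L (dx L (u k)) τ x - b τ x))
            atTop (𝓝 0) ∧
          Tendsto (fun k => N2 L (Wt' κ) (fun τ x => u k τ x - δ τ x)) atTop (𝓝 0)

instance : SecondCountableTopologyEither ℝ (VL L) := ⟨Or.inl inferInstance⟩

variable {c0 C0 κ : ℝ} {g : ℝ → ℝ} {φ m b δ : ℝ → ℝ → ℝ}

theorem wc_ae (hB : Bg c0 C0 g L φ m) (hc0 : 0 < c0) (hW : WS L κ φ b δ) :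
    AEStronglyMeasurable (wc L m δ b) (volume.restrict (Ioo (0 : ℝ) 1)) ∧
    ∀ᵐ τ ∂(volume.restrict (Ioo (0 : ℝ) 1)),
      MemLp (δ τ) 2 (mu L) ∧ MemLp (fun x => b τ x / m τ x) 2 (mu L) ∧
      (wc L m δ b τ : WithLp 2 (HL L × HL L)) =
        WithLp.toLp 2 (toHL L (δ τ), toHL L (fun x => b τ x / m τ x)) := by
  obtain ⟨wk, hwk, hae⟩ := conc_ae hB hc0 hW.bm hW.dm hW.bN hW.dN hW.ap
  have hmem : ∀ {τ : ℝ}, Tendsto (fun k => (wk k τ : WithLp 2 (HL L × HL L))) atTop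
      (𝓝 (WithLp.toLp 2 (toHL L (δ τ), toHL L (fun x => b τ x / m τ x)))) →
      WithLp.toLp 2 (toHL L (δ τ), toHL L (fun x => b τ x / m τ x)) ∈ VS L := by
    intro τ h
    have hcl : IsClosed (VS L : Set (WithLp 2 (HL L × HL L))) :=
      Submodule.isClosed_topologicalClosure _
    exact hcl.mem_of_tendsto h (Eventually.of_forall fun k => (wk k τ).2)
  constructor
  · refine aestronglyMeasurable_of_tendsto_ae (u := atTop) (f := wk)
      (fun k => (hwk k).aestronglyMeasurable measurableSet_Ioo) ?_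
    filter_upwards [hae] with τ hτ
    rw [tendsto_subtype_rng, wc_coe (hmem hτ.2.2)]
    exact hτ.2.2
  · filter_upwards [hae] with τ hτ
    exact ⟨hτ.1, hτ.2.1, wc_coe (hmem hτ.2.2)⟩

theorem JL_wc {τ : ℝ} (h : (wc L m δ b τ : WithLp 2 (HL L × HL L)) =
      WithLp.toLp 2 (toHL L (δ τ), toHL L (fun x => b τ x / m τ x))) :
    JL L (wc L m δ b τ) = toHL L (δ τ) := by
  rw [JL_apply, h]; rfl

theorem BL_wc {τ : ℝ} (h : (wc L m δ b τ : WithLp 2 (HL L × HL L)) =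
      WithLp.toLp 2 (toHL L (δ τ), toHL L (fun x => b τ x / m τ x))) :
    BL L (wc L m δ b τ) = toHL L (fun x => b τ x / m τ x) := by
  rw [BL_apply, h]; rfl

/-- norm bound for almost every slice in terms of the weighted slices -/
theorem wc_norm_le (hB : Bg c0 C0 g L φ m) (hc0 : 0 < c0) {τ : ℝ} (hτ : τ ∈ Ioo (0 : ℝ) 1)
    {w : ℝ} (hw0 : 0 < w) (hw : w ≤ om L κ τ)
    (h1 : MemLp (δ τ) 2 (mu L)) (h2 : MemLp (fun x => b τ x / m τ x) 2 (mu L))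
    (h : (wc L m δ b τ : WithLp 2 (HL L × HL L)) =
      WithLp.toLp 2 (toHL L (δ τ), toHL L (fun x => b τ x / m τ x))) :
    ENNReal.ofReal w * ENNReal.ofReal (‖wc L m δ b τ‖ ^ 2) ≤
      ENNReal.ofReal 1 * (∫⁻ x in Ioo 0 L, ENNReal.ofReal (Wt' κ τ x * x ^ 9 * (δ τ x) ^ 2)) +
      ENNReal.ofReal ((c0 ^ 2)⁻¹) *
        (∫⁻ x in Ioo 0 L, ENNReal.ofReal (Wt κ τ x * x ^ 9 * (b τ x) ^ 2)) := by
  rw [norm_VL, JL_wc h, BL_wc h, ENNReal.ofReal_add (sq_nonneg _) (sq_nonneg _), mul_add,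
    norm_toHL_sq h1, norm_toHL_sq h2]
  apply add_le_add
  · exact slice_le hw0.le (fun x hx => hw.trans (om_le_Wt' hτ (Ioo_subset_Icc_self hx)))
      (fun x _ => by rw [one_mul])
  · exact slice_le hw0.le (fun x hx => hw.trans (om_le_Wt hτ (Ioo_subset_Icc_self hx)))
      (fun x hx => sq_div_le hc0 (hB.lower τ hτ x (Ioo_subset_Icc_self hx)))

theorem wc_memLp (hB : Bg c0 C0 g L φ m) (hc0 : 0 < c0) (hW : WS L κ φ b δ) (p q : ℝ)
    (hp : 0 < p) (hq : q < 1) :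
    MemLp (wc L m δ b) 2 (volume.restrict (Icc p q)) := by
  have hsub : Icc p q ⊆ Ioo 0 1 := fun x hx => ⟨hp.trans_le hx.1, hx.2.trans_lt hq⟩
  obtain ⟨hmeas, hae⟩ := wc_ae hB hc0 hW
  have hmeas' : AEStronglyMeasurable (wc L m δ b) (volume.restrict (Icc p q)) :=
    hmeas.mono_measure (Measure.restrict_mono hsub le_rfl)
  refine ⟨hmeas', ?_⟩
  rcases lt_or_ge q p with hpq | hpq
  · rw [Icc_eq_empty (not_le.2 hpq), Measure.restrict_empty]
    simp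
  obtain ⟨c, hc, hcl⟩ := om_lower (L := L) (κ := κ) hp hpq
  rw [eLpNorm_lt_top_iff_lintegral_rpow_enorm_lt_top (by norm_num) (by norm_num)]
  have e : ∫⁻ τ in Icc p q, ‖wc L m δ b τ‖ₑ ^ (2 : ℝ≥0∞).toReal
      = ∫⁻ τ in Icc p q, ENNReal.ofReal (‖wc L m δ b τ‖ ^ 2) := by
    refine lintegral_congr fun τ => ?_
    simp only [ENNReal.toReal_ofNat, ENNReal.rpow_ofNat]
    rw [← ofReal_norm, ← ENNReal.ofReal_pow (norm_nonneg _)]
  rw [e]
  -- the weighted double integrals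
  have f1 : ∫⁻ τ in Ioo (0 : ℝ) 1, ∫⁻ x in Ioo 0 L,
      ENNReal.ofReal (Wt κ τ x * x ^ 9 * (b τ x) ^ 2) < ⊤ := by
    have := hW.bN
    unfold N2 at this
    rwa [lintegral_S (F := fun τ x => ENNReal.ofReal (Wt κ τ x * x ^ 9 * (b τ x) ^ 2))
      (aemeas_integrand (meas_Wt κ) hW.bm.aemeasurable)] at this
  have f2 : ∫⁻ τ in Ioo (0 : ℝ) 1, ∫⁻ x in Ioo 0 L,
      ENNReal.ofReal (Wt' κ τ x * x ^ 9 * (δ τ x) ^ 2) < ⊤ := by
    have := hW.dN
    unfold N2 at this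
    rwa [lintegral_S (F := fun τ x => ENNReal.ofReal (Wt' κ τ x * x ^ 9 * (δ τ x) ^ 2))
      (aemeas_integrand (meas_Wt' κ) hW.dm.aemeasurable)] at this
  have hm1 := aemeas_slice (L := L) (F := fun τ x => ENNReal.ofReal (Wt κ τ x * x ^ 9 * (b τ x) ^ 2))
    (aemeas_integrand (meas_Wt κ) hW.bm.aemeasurable)
  have hm2 := aemeas_slice (L := L) (F := fun τ x => ENNReal.ofReal (Wt' κ τ x * x ^ 9 * (δ τ x) ^ 2))
    (aemeas_integrand (meas_Wt' κ) hW.dm.aemeasurable)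
  have hbound : ENNReal.ofReal c * ∫⁻ τ in Icc p q, ENNReal.ofReal (‖wc L m δ b τ‖ ^ 2) < ⊤ := by
    rw [← lintegral_const_mul' _ _ ENNReal.ofReal_ne_top]
    calc ∫⁻ τ in Icc p q, ENNReal.ofReal c * ENNReal.ofReal (‖wc L m δ b τ‖ ^ 2)
        ≤ ∫⁻ τ in Icc p q, (ENNReal.ofReal 1 *
            (∫⁻ x in Ioo 0 L, ENNReal.ofReal (Wt' κ τ x * x ^ 9 * (δ τ x) ^ 2)) +
          ENNReal.ofReal ((c0 ^ 2)⁻¹) *
            (∫⁻ x in Ioo 0 L, ENNReal.ofReal (Wt κ τ x * x ^ 9 * (b τ x) ^ 2))) := by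
          refine lintegral_mono_ae ?_
          have hae' : ∀ᵐ τ ∂(volume.restrict (Icc p q)),
              MemLp (δ τ) 2 (mu L) ∧ MemLp (fun x => b τ x / m τ x) 2 (mu L) ∧
              (wc L m δ b τ : WithLp 2 (HL L × HL L)) =
                WithLp.toLp 2 (toHL L (δ τ), toHL L (fun x => b τ x / m τ x)) :=
            ae_mono (Measure.restrict_mono hsub le_rfl) hae
          filter_upwards [hae', ae_restrict_mem measurableSet_Icc] with τ h hτ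
          exact wc_norm_le hB hc0 (hsub hτ) hc (hcl τ hτ) h.1 h.2.1 h.2.2
      _ ≤ ∫⁻ τ in Ioo (0 : ℝ) 1, (ENNReal.ofReal 1 *
            (∫⁻ x in Ioo 0 L, ENNReal.ofReal (Wt' κ τ x * x ^ 9 * (δ τ x) ^ 2)) +
          ENNReal.ofReal ((c0 ^ 2)⁻¹) *
            (∫⁻ x in Ioo 0 L, ENNReal.ofReal (Wt κ τ x * x ^ 9 * (b τ x) ^ 2))) :=
          lintegral_mono_set hsub
      _ < ⊤ := by
          rw [lintegral_add_left' (hm2.const_mul _), lintegral_const_mul'' _ hm2,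
            lintegral_const_mul'' _ hm1]
          exact ENNReal.add_lt_top.2 ⟨ENNReal.mul_lt_top ENNReal.ofReal_lt_top f2,
            ENNReal.mul_lt_top ENNReal.ofReal_lt_top f1⟩
  by_contra h3
  rw [not_lt, top_le_iff] at h3
  rw [h3, ENNReal.mul_top (by simpa using hc)] at hbound
  exact lt_irrefl _ hbound

end Crest.Agent.R213.B
end
end

-- ▼ part R213/B/VInV
section

/-!
# Row 213, part B: elements of the graph space are limits of smooth functions (helper182)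
-/

set_option autoImplicit false

open Set MeasureTheory Filter Topology
open scoped RealInnerProductSpace ENNReal

noncomputable section

namespace Crest.Agent.R213.B

theorem lintegral_sq_HL {L : ℝ} (f : HL L) :
    ∫⁻ x, ENNReal.ofReal ((f x) ^ 2) ∂(mu L) = ENNReal.ofReal (‖f‖ ^ 2) := by
  have h1 : MemLp (f : ℝ → ℝ) 2 (mu L) := Lp.memLp f
  have h2 : Integrable (fun x => (f x) ^ 2) (mu L) := h1.integrable_sq
  rw [← ofReal_integral_eq_lintegral_ofReal h2 (Eventually.of_forall fun x => sq_nonneg _)]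
  congr 1
  rw [← real_inner_self_eq_norm_sq, L2.inner_def]
  refine integral_congr_ae (Eventually.of_forall fun x => ?_)
  simp [sq]

theorem dd_add {L : ℝ} (hL : 0 < L) {p q : ℝ → ℝ} (hp : ContDiffOn ℝ (⊤ : ℕ∞) p (Icc 0 L))
    (hq : ContDiffOn ℝ (⊤ : ℕ∞) q (Icc 0 L)) {x : ℝ} (hx : x ∈ Icc 0 L) :
    dd L (fun x => p x + q x) x = dd L p x + dd L q x := by
  have hU := uniqueDiffOn_Icc hL
  have hp1 : DifferentiableOn ℝ p (Icc 0 L) := hp.differentiableOn (by simp)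
  have hq1 : DifferentiableOn ℝ q (Icc 0 L) := hq.differentiableOn (by simp)
  have hp2 : DifferentiableOn ℝ (fun y => derivWithin p (Icc 0 L) y) (Icc 0 L) :=
    (hp.derivWithin (m := (⊤ : ℕ∞)) hU (by simp)).differentiableOn (by simp)
  have hq2 : DifferentiableOn ℝ (fun y => derivWithin q (Icc 0 L) y) (Icc 0 L) :=
    (hq.derivWithin (m := (⊤ : ℕ∞)) hU (by simp)).differentiableOn (by simp)
  unfold dd
  have e : ∀ y ∈ Icc 0 L, derivWithin (fun x => p x + q x) (Icc 0 L) y =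
      derivWithin p (Icc 0 L) y + derivWithin q (Icc 0 L) y := by
    intro y hy
    exact ((hp1 y hy).hasDerivWithinAt.add (hq1 y hy).hasDerivWithinAt).derivWithin (hU y hy)
  rw [derivWithin_congr e (e x hx)]
  exact ((hp2 x hx).hasDerivWithinAt.add (hq2 x hx).hasDerivWithinAt).derivWithin (hU x hx)

theorem dd_smul {L : ℝ} (hL : 0 < L) (c : ℝ) {p : ℝ → ℝ}
    (hp : ContDiffOn ℝ (⊤ : ℕ∞) p (Icc 0 L)) {x : ℝ} (hx : x ∈ Icc 0 L) :
    dd L (fun x => c * p x) x = c * dd L p x := by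
  have hU := uniqueDiffOn_Icc hL
  have hp1 : DifferentiableOn ℝ p (Icc 0 L) := hp.differentiableOn (by simp)
  have hp2 : DifferentiableOn ℝ (fun y => derivWithin p (Icc 0 L) y) (Icc 0 L) :=
    (hp.derivWithin (m := (⊤ : ℕ∞)) hU (by simp)).differentiableOn (by simp)
  unfold dd
  have e : ∀ y ∈ Icc 0 L, derivWithin (fun x => c * p x) (Icc 0 L) y =
      c * derivWithin p (Icc 0 L) y := by
    intro y hy
    exact ((hp1 y hy).hasDerivWithinAt.const_mul c).derivWithin (hU y hy)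
  rw [derivWithin_congr e (e x hx)]
  exact ((hp2 x hx).hasDerivWithinAt.const_mul c).derivWithin (hU x hx)

theorem continuousOn_dd {L : ℝ} (hL : 0 < L) {p : ℝ → ℝ}
    (hp : ContDiffOn ℝ (⊤ : ℕ∞) p (Icc 0 L)) : ContinuousOn (dd L p) (Icc 0 L) := by
  have hU := uniqueDiffOn_Icc hL
  have h1 : ContDiffOn ℝ (⊤ : ℕ∞) (derivWithin p (Icc 0 L)) (Icc 0 L) :=
    hp.derivWithin (m := (⊤ : ℕ∞)) hU (by simp)
  have h2 : ContDiffOn ℝ (⊤ : ℕ∞) (derivWithin (derivWithin p (Icc 0 L)) (Icc 0 L)) (Icc 0 L) :=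
    h1.derivWithin (m := (⊤ : ℕ∞)) hU (by simp)
  exact h2.continuousOn

theorem continuousOn_phi0_dd {L : ℝ} (hL : 0 < L) {p : ℝ → ℝ}
    (hp : ContDiffOn ℝ (⊤ : ℕ∞) p (Icc 0 L)) :
    ContinuousOn (fun x => phi0 L x * dd L p x) (Icc 0 L) :=
  (continuous_phi0 L).continuousOn.mul (continuousOn_dd hL hp)

theorem toHL_add {L : ℝ} (hL : 0 < L) {f g : ℝ → ℝ} (hf : ContinuousOn f (Icc 0 L))
    (hg : ContinuousOn g (Icc 0 L)) : toHL L (fun x => f x + g x) = toHL L f + toHL L g := by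
  have h1 := memLp_of_continuousOn hL hf
  have h2 := memLp_of_continuousOn hL hg
  rw [toHL_eq h1, toHL_eq h2, toHL_eq (L := L) (f := fun x => f x + g x) (h1.add h2)]
  rfl

theorem toHL_smul {L : ℝ} (hL : 0 < L) (c : ℝ) {f : ℝ → ℝ} (hf : ContinuousOn f (Icc 0 L)) :
    toHL L (fun x => c * f x) = c • toHL L f := by
  have h1 := memLp_of_continuousOn hL hf
  rw [toHL_eq h1, toHL_eq (L := L) (f := fun x => c * f x) (h1.const_mul c)]
  rfl

theorem mem_G0_of_mem_span {L : ℝ} (hL : 0 < L) {z : WithLp 2 (HL L × HL L)}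
    (hz : z ∈ Submodule.span ℝ (G0 L)) : z ∈ G0 L := by
  induction hz using Submodule.span_induction with
  | mem z hz => exact hz
  | zero =>
    refine ⟨fun _ => 0, contDiffOn_const, ?_⟩
    have h0 : toHL L (fun _ => (0 : ℝ)) = 0 := by
      have h := toHL_smul hL 0 (f := fun _ => (0 : ℝ)) continuousOn_const
      simpa using h
    have h1 : toHL L (fun x => phi0 L x * dd L (fun _ => (0 : ℝ)) x) = 0 := by
      have e : (fun x => phi0 L x * dd L (fun _ => (0 : ℝ)) x) = fun _ => (0 : ℝ) := by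
        funext x
        have : (fun y : ℝ => derivWithin (fun _ : ℝ => (0 : ℝ)) (Icc 0 L) y) = fun _ => 0 := by
          funext y; simp
        simp [dd]
      rw [e, h0]
    rw [h0, h1]
    rfl
  | add a b ha hb iha ihb =>
    obtain ⟨p, hp, rfl⟩ := iha
    obtain ⟨q, hq, rfl⟩ := ihb
    refine ⟨fun x => p x + q x, hp.add hq, ?_⟩
    rw [toHL_add hL hp.continuousOn hq.continuousOn]
    have e : toHL L (fun x => phi0 L x * dd L (fun x => p x + q x) x) =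
        toHL L (fun x => phi0 L x * dd L p x) + toHL L (fun x => phi0 L x * dd L q x) := by
      rw [← toHL_add hL (continuousOn_phi0_dd hL hp) (continuousOn_phi0_dd hL hq)]
      have hc : ContinuousOn (fun x => phi0 L x * dd L (fun x => p x + q x) x) (Icc 0 L) :=
        continuousOn_phi0_dd hL (hp.add hq)
      have hc2 : ContinuousOn (fun x => phi0 L x * dd L p x + phi0 L x * dd L q x) (Icc 0 L) :=
        (continuousOn_phi0_dd hL hp).add (continuousOn_phi0_dd hL hq)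
      apply Lp.ext
      refine (coe_toHL (memLp_of_continuousOn hL hc)).trans ?_
      refine EventuallyEq.trans ?_ (coe_toHL (memLp_of_continuousOn hL hc2)).symm
      filter_upwards [ae_mu_mem L] with x hx
      rw [dd_add hL hp hq (Ioo_subset_Icc_self hx)]
      ring
    rw [e]
    rfl
  | smul c a ha iha =>
    obtain ⟨p, hp, rfl⟩ := iha
    refine ⟨fun x => c * p x, contDiffOn_const.mul hp, ?_⟩
    rw [toHL_smul hL c hp.continuousOn]
    have e : toHL L (fun x => phi0 L x * dd L (fun x => c * p x) x) =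
        c • toHL L (fun x => phi0 L x * dd L p x) := by
      rw [← toHL_smul hL c (continuousOn_phi0_dd hL hp)]
      have hc : ContinuousOn (fun x => phi0 L x * dd L (fun x => c * p x) x) (Icc 0 L) :=
        continuousOn_phi0_dd hL (contDiffOn_const.mul hp)
      have hc2 : ContinuousOn (fun x => c * (phi0 L x * dd L p x)) (Icc 0 L) :=
        (continuousOn_phi0_dd hL hp).const_mul c
      apply Lp.ext
      refine (coe_toHL (memLp_of_continuousOn hL hc)).trans ?_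
      refine EventuallyEq.trans ?_ (coe_toHL (memLp_of_continuousOn hL hc2)).symm
      filter_upwards [ae_mu_mem L] with x hx
      rw [dd_smul hL c hp (Ioo_subset_Icc_self hx)]
      ring
    rw [e]
    rfl

theorem tendsto_lintegral_of_tendsto {L : ℝ} (hL : 0 < L) {f : ℕ → ℝ → ℝ}
    (hf : ∀ k, ContinuousOn (f k) (Icc 0 L)) {U : HL L}
    (h : Tendsto (fun k => toHL L (f k)) atTop (𝓝 U)) :
    Tendsto (fun k => ∫⁻ x, ENNReal.ofReal ((f k x - U x) ^ 2) ∂(mu L)) atTop (𝓝 0) := by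
  have h1 : ∀ k, ∫⁻ x, ENNReal.ofReal ((f k x - U x) ^ 2) ∂(mu L) =
      ENNReal.ofReal (‖toHL L (f k) - U‖ ^ 2) := by
    intro k
    rw [← lintegral_sq_HL]
    refine lintegral_congr_ae ?_
    filter_upwards [coe_toHL (memLp_of_continuousOn hL (hf k)), Lp.coeFn_sub (toHL L (f k)) U]
      with x h2 h3
    rw [h3, Pi.sub_apply, h2]
  simp_rw [h1]
  have h2 : Tendsto (fun k => ‖toHL L (f k) - U‖ ^ 2) atTop (𝓝 0) := by
    have h3 := tendsto_iff_norm_sub_tendsto_zero.1 h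
    have := h3.pow 2
    simpa using this
  have h4 := (ENNReal.continuous_ofReal.tendsto 0).comp h2
  rw [ENNReal.ofReal_zero] at h4
  exact h4

/-- every element of the graph space is a limit of smooth functions -/
theorem inV_of_VL {L : ℝ} (hL : 0 < L) (v : VL L) : InV L (JL L v) (BL L v) := by
  have hv : (v : WithLp 2 (HL L × HL L)) ∈ closure
      (Submodule.span ℝ (G0 L) : Set (WithLp 2 (HL L × HL L))) := v.2
  obtain ⟨z, hz, hlim⟩ := mem_closure_iff_seq_limit.1 hv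
  choose p hp hpz using fun k => mem_G0_of_mem_span hL (hz k)
  refine ⟨p, hp, ?_, ?_⟩
  · refine tendsto_lintegral_of_tendsto hL (fun k => (hp k).continuousOn) ?_
    have h1 : Tendsto (fun k => (WithLp.fstL 2 ℝ (HL L) (HL L)) (z k)) atTop
        (𝓝 ((WithLp.fstL 2 ℝ (HL L) (HL L)) (v : WithLp 2 (HL L × HL L)))) :=
      ((WithLp.fstL 2 ℝ (HL L) (HL L)).continuous.tendsto _).comp hlim
    refine h1.congr fun k => ?_
    rw [hpz k]
    rfl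
  · refine tendsto_lintegral_of_tendsto (f := fun k x => x * (1 - x / L) * dd L (p k) x) hL
      (fun k => continuousOn_phi0_dd hL (hp k)) ?_
    have h1 : Tendsto (fun k => (WithLp.sndL 2 ℝ (HL L) (HL L)) (z k)) atTop
        (𝓝 ((WithLp.sndL 2 ℝ (HL L) (HL L)) (v : WithLp 2 (HL L × HL L)))) :=
      ((WithLp.sndL 2 ℝ (HL L) (HL L)).continuous.tendsto _).comp hlim
    refine h1.congr fun k => ?_
    rw [hpz k]
    rfl

end Crest.Agent.R213.B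
end
end

-- ▼ part R213/B/Conc5
section

/-!
# Row 213, part B, B2: the weak equation for the curve
-/

set_option autoImplicit false

open Set MeasureTheory Filter Topology
open scoped BoundedContinuousFunction RealInnerProductSpace ENNReal ContDiff

noncomputable section

namespace Crest.Agent.R213.B

variable {L : ℝ} {u : ℝ → ℝ → ℝ}
variable {c0 C0 κ : ℝ} {g : ℝ → ℝ} {φ m b δ E ht : ℝ → ℝ → ℝ}

/-! ### cut-off functions -/

theorem exists_Icc_of_tsupport {χ : ℝ → ℝ} (h : HasCompactSupport χ) (h2 : tsupport χ ⊆ Ioo 0 1) :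
    ∃ p q : ℝ, 0 < p ∧ p < q ∧ q < 1 ∧ (∀ τ, τ ∉ Icc p q → χ τ = 0) ∧
      (∀ τ, τ ∉ Icc p q → deriv χ τ = 0) := by
  have key : ∃ p q : ℝ, 0 < p ∧ p < q ∧ q < 1 ∧ tsupport χ ⊆ Icc p q := by
    rcases (tsupport χ).eq_empty_or_nonempty with he | hne
    · exact ⟨1 / 4, 1 / 2, by norm_num, by norm_num, by norm_num, by rw [he]; exact empty_subset _⟩
    · have hc : IsCompact (tsupport χ) := h
      obtain ⟨a, ha, ha2⟩ := hc.exists_isLeast hne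
      obtain ⟨b, hb, hb2⟩ := hc.exists_isGreatest hne
      have h3 := h2 ha
      have h4 := h2 hb
      have h5 : a ≤ b := ha2 hb
      refine ⟨a / 2, (b + 1) / 2, by linarith [h3.1], by linarith [h3.1, h4.2],
        by linarith [h4.2], fun x hx => ⟨?_, ?_⟩⟩
      · linarith [ha2 hx, h3.1]
      · linarith [hb2 hx, h4.2]
  obtain ⟨p, q, hp, hpq, hq, hs⟩ := key
  refine ⟨p, q, hp, hpq, hq, fun τ hτ => ?_, fun τ hτ => ?_⟩
  · by_contra h3
    exact hτ (hs (subset_tsupport _ h3))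
  · by_contra h3
    exact hτ (hs (support_deriv_subset h3))

theorem integrable_smul_of_Icc {X : Type*} [NormedAddCommGroup X] [NormedSpace ℝ X] {θ : ℝ → ℝ}
    (hθ : Continuous θ) {p q : ℝ} (hs : ∀ τ, τ ∉ Icc p q → θ τ = 0) {F : ℝ → X}
    (hF : IntegrableOn F (Icc p q)) : Integrable (fun τ => θ τ • F τ) := by
  have h1 : IntegrableOn (fun τ => θ τ • F τ) (Icc p q) := by
    obtain ⟨C, hC⟩ := isCompact_Icc.exists_bound_of_continuousOn (hθ.continuousOn (s := Icc p q))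
    refine Integrable.bdd_smul hF C hθ.aestronglyMeasurable ?_
    filter_upwards [ae_restrict_mem measurableSet_Icc] with x hx
    exact hC x hx
  rw [← integrableOn_iff_integrable_of_support_subset (s := Icc p q)]
  · exact h1
  · intro τ hτ
    by_contra h3
    apply hτ
    simp only [hs τ h3, zero_smul]

/-! ### integrability on the strip -/

theorem vol_S_lt_top : volume (Ioo (0 : ℝ) 1 ×ˢ Ioo (0 : ℝ) L) < ⊤ := by
  rw [Measure.volume_eq_prod, Measure.prod_prod]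
  simp

theorem integrableOn_of_N2 {V y : ℝ → ℝ → ℝ} (hV : Measurable (fun p : ℝ × ℝ => V p.1 p.2))
    (hV0 : ∀ τ ∈ Ioo (0 : ℝ) 1, ∀ x ∈ Icc 0 L, 0 ≤ V τ x)
    (hy : Measurable (fun p : ℝ × ℝ => y p.1 p.2)) (h : N2 L V y < ⊤) :
    IntegrableOn (fun p : ℝ × ℝ => V p.1 p.2 * p.2 ^ 9 * (y p.1 p.2) ^ 2)
      (Ioo (0 : ℝ) 1 ×ˢ Ioo (0 : ℝ) L) := by
  refine ⟨((hV.mul (measurable_snd.pow_const 9)).mul (hy.pow_const 2)).aestronglyMeasurable, ?_⟩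
  rw [hasFiniteIntegral_iff_ofReal]
  · exact h
  · filter_upwards [ae_restrict_mem meas_S] with p hp
    have := hV0 p.1 hp.1 p.2 (Ioo_subset_Icc_self hp.2)
    have := hp.2.1.le
    positivity

theorem integrableOn_S_mul {V y A : ℝ → ℝ → ℝ} (hL : 0 < L)
    (hV : Measurable (fun p : ℝ × ℝ => V p.1 p.2))
    (hVo : ∀ τ ∈ Ioo (0 : ℝ) 1, ∀ x ∈ Icc 0 L, om L κ τ ≤ V τ x)
    (hy : Measurable (fun p : ℝ × ℝ => y p.1 p.2)) (h : N2 L V y < ⊤)
    (hA : Sm (Ioo 0 1) L A) {p q : ℝ} (hp : 0 < p) (hpq : p < q) (hq : q < 1)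
    (hA0 : ∀ τ, τ ∉ Icc p q → ∀ x ∈ Icc 0 L, A τ x = 0) :
    IntegrableOn (fun z : ℝ × ℝ => z.2 ^ 9 * (A z.1 z.2 * y z.1 z.2))
      (Ioo (0 : ℝ) 1 ×ˢ Ioo (0 : ℝ) L) := by
  have hsub : Icc p q ⊆ Ioo 0 1 := fun x hx => ⟨hp.trans_le hx.1, hx.2.trans_lt hq⟩
  obtain ⟨C, hC⟩ := (isCompact_Icc.prod isCompact_Icc).exists_bound_of_continuousOn
    (hA.continuousOn.mono (prod_mono hsub (subset_refl (Icc 0 L))))
  have hC0 : 0 ≤ C := (norm_nonneg _).trans (hC (p, 0) ⟨⟨le_refl _, hpq.le⟩, ⟨le_refl _, hL.le⟩⟩)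
  obtain ⟨c, hc, hcl⟩ := om_lower (L := L) (κ := κ) hp hpq.le
  have hV0 : ∀ τ ∈ Ioo (0 : ℝ) 1, ∀ x ∈ Icc 0 L, 0 ≤ V τ x := fun τ hτ x hx =>
    (om_pos hτ).le.trans (hVo τ hτ x hx)
  have h1 := integrableOn_of_N2 hV hV0 hy h
  have h2 : IntegrableOn (fun _ : ℝ × ℝ => C * L ^ 9) (Ioo (0 : ℝ) 1 ×ˢ Ioo (0 : ℝ) L) :=
    integrableOn_const vol_S_lt_top.ne
  have h3 := h2.add (h1.const_mul (C / c))
  refine Integrable.mono' h3 ?_ ?_
  · apply AEStronglyMeasurable.mul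
    · exact (measurable_snd.pow_const 9).aestronglyMeasurable
    · exact (Sm.aemeas hA).aestronglyMeasurable.mul hy.aestronglyMeasurable
  · filter_upwards [ae_restrict_mem meas_S] with z hz
    have hx := Ioo_subset_Icc_self hz.2
    have hx0 := hz.2.1.le
    have hx9 : 0 ≤ z.2 ^ 9 := pow_nonneg hx0 9
    have hxL : z.2 ^ 9 ≤ L ^ 9 := pow_le_pow_left₀ hx0 hx.2 9
    simp only [Pi.add_apply]
    by_cases hτ : z.1 ∈ Icc p q
    · have e1 : |A z.1 z.2| ≤ C := hC z ⟨hτ, hx⟩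
      have e2 : c ≤ V z.1 z.2 := (hcl _ hτ).trans (hVo _ (hsub hτ) _ hx)
      rw [Real.norm_eq_abs, abs_mul, abs_mul, abs_of_nonneg hx9]
      have e3 : |y z.1 z.2| ≤ 1 + (y z.1 z.2) ^ 2 := by
        nlinarith [sq_nonneg (|y z.1 z.2| - 1), abs_nonneg (y z.1 z.2), sq_abs (y z.1 z.2)]
      calc z.2 ^ 9 * (|A z.1 z.2| * |y z.1 z.2|)
          ≤ z.2 ^ 9 * (C * (1 + (y z.1 z.2) ^ 2)) := by gcongr
        _ = C * z.2 ^ 9 + C / c * (c * z.2 ^ 9 * (y z.1 z.2) ^ 2) := by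
            field_simp
        _ ≤ C * L ^ 9 + C / c * (V z.1 z.2 * z.2 ^ 9 * (y z.1 z.2) ^ 2) := by gcongr
    · rw [hA0 _ hτ _ hx, zero_mul, mul_zero, norm_zero]
      have := hV0 _ hz.1 _ hx
      positivity

theorem integrableOn_S_sm {A : ℝ → ℝ → ℝ} (hL : 0 < L)
    (hA : Sm (Ioo 0 1) L A) {p q : ℝ} (hp : 0 < p) (hpq : p < q) (hq : q < 1)
    (hA0 : ∀ τ, τ ∉ Icc p q → ∀ x ∈ Icc 0 L, A τ x = 0) :
    IntegrableOn (fun z : ℝ × ℝ => z.2 ^ 9 * A z.1 z.2)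
      (Ioo (0 : ℝ) 1 ×ˢ Ioo (0 : ℝ) L) := by
  have hsub : Icc p q ⊆ Ioo 0 1 := fun x hx => ⟨hp.trans_le hx.1, hx.2.trans_lt hq⟩
  obtain ⟨C, hC⟩ := (isCompact_Icc.prod isCompact_Icc).exists_bound_of_continuousOn
    (hA.continuousOn.mono (prod_mono hsub (subset_refl (Icc 0 L))))
  have hC0 : 0 ≤ C := (norm_nonneg _).trans (hC (p, 0) ⟨⟨le_refl _, hpq.le⟩, ⟨le_refl _, hL.le⟩⟩)
  have h2 : IntegrableOn (fun _ : ℝ × ℝ => L ^ 9 * C) (Ioo (0 : ℝ) 1 ×ˢ Ioo (0 : ℝ) L) :=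
    integrableOn_const vol_S_lt_top.ne
  refine Integrable.mono' h2 ?_ ?_
  · apply AEStronglyMeasurable.mul
    · exact (measurable_snd.pow_const 9).aestronglyMeasurable
    · exact (Sm.aemeas hA).aestronglyMeasurable
  · filter_upwards [ae_restrict_mem meas_S] with z hz
    have hx := Ioo_subset_Icc_self hz.2
    have hx0 := hz.2.1.le
    have hx9 : 0 ≤ z.2 ^ 9 := pow_nonneg hx0 9
    have hxL : z.2 ^ 9 ≤ L ^ 9 := pow_le_pow_left₀ hx0 hx.2 9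
    rw [Real.norm_eq_abs, abs_mul, abs_of_nonneg hx9]
    by_cases hτ : z.1 ∈ Icc p q
    · have e1 : |A z.1 z.2| ≤ C := hC z ⟨hτ, hx⟩
      gcongr
    · rw [hA0 _ hτ _ hx, abs_zero, mul_zero]
      positivity

theorem II_eq {F : ℝ → ℝ → ℝ}
    (hF : IntegrableOn (fun z : ℝ × ℝ => F z.1 z.2) (Ioo (0 : ℝ) 1 ×ˢ Ioo (0 : ℝ) L)) :
    II L F = ∫ τ in Ioo (0 : ℝ) 1, ∫ x in Ioo 0 L, F τ x := by
  unfold II
  exact setIntegral_prod (fun z : ℝ × ℝ => F z.1 z.2) hF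

/-! ### the test functions `χ(τ) p(x)` -/

variable {χ p : ℝ → ℝ}

theorem sm_chip (hχ : ContDiff ℝ ∞ χ) (hp : ContDiffOn ℝ ∞ p (Icc 0 L)) :
    Sm (Ioo 0 1) L (fun τ x => χ τ * p x) :=
  Sm.mul (Sm.of_left hχ.contDiffOn) (Sm.of_right hp)

theorem tst_chip (hχ : ContDiff ℝ ∞ χ) (hp : ContDiffOn ℝ ∞ p (Icc 0 L)) {a b : ℝ} (ha : 0 < a)
    (hab : a < b) (hb : b < 1) (h0 : ∀ τ, τ ∉ Icc a b → χ τ = 0) :
    Tst L (fun τ x => χ τ * p x) :=
  ⟨sm_chip hχ hp, a, b, ha, hab, hb, fun τ x hτ => by simp only [h0 τ hτ, zero_mul]⟩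

theorem dt_chip (hχ : ContDiff ℝ ∞ χ) (τ x : ℝ) :
    dt (fun τ x => χ τ * p x) τ x = deriv χ τ * p x := by
  unfold dt
  have : DifferentiableAt ℝ χ τ := (hχ.differentiable (by simp)) τ
  exact deriv_mul_const this _

theorem dxdx_chip (hL : 0 < L) (hp : ContDiffOn ℝ ∞ p (Icc 0 L)) (τ : ℝ) {x : ℝ}
    (hx : x ∈ Icc 0 L) :
    dx L (dx L (fun τ x => χ τ * p x)) τ x = χ τ * dd L p x :=
  dd_smul hL (χ τ) hp hx

theorem slice_rhs (hB : Bg c0 C0 g L φ m) (hE : Sm (Ioo 0 1) L E) (hh : Sm (Ioo 0 1) L ht)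
    (hp : ContDiffOn ℝ ∞ p (Icc 0 L)) {τ : ℝ} (hτ : τ ∈ Ioo (0 : ℝ) 1) (k : ℝ) :
    ∫ x in Ioo 0 L, x ^ 9 * (E τ x * (k * p x) + (φ τ x * ht τ x) * φ τ x * (k * dd L p x)) =
      k * (⟪toHL L (E τ), toHL L p⟫ + ⟪toHL L (fun x => phi0 L x * m τ x ^ 2 * ht τ x),
        toHL L (fun x => phi0 L x * dd L p x)⟫) := by
  have hL := Bg.L_pos hB
  have h1 : MemLp (E τ) 2 (mu L) := memLp_of_continuousOn hL (hE.continuousOn_right hτ)
  have h2 : MemLp p 2 (mu L) := memLp_of_continuousOn hL hp.continuousOn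
  have hφ0 : ContinuousOn (phi0 L) (Icc 0 L) := (continuous_phi0 L).continuousOn
  have h3 : MemLp (fun x => phi0 L x * m τ x ^ 2 * ht τ x) 2 (mu L) :=
    memLp_of_continuousOn hL ((hφ0.mul ((hB.sm.continuousOn_right hτ).pow 2)).mul
      (hh.continuousOn_right hτ))
  have h4 : MemLp (fun x => phi0 L x * dd L p x) 2 (mu L) :=
    memLp_of_continuousOn hL (hφ0.mul (continuousOn_dd hL hp))
  rw [inner_toHL h1 h2, inner_toHL h3 h4, ← integral_add (integrable_w_mul h1 h2)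
    (integrable_w_mul h3 h4), ← integral_const_mul]
  refine setIntegral_congr_fun measurableSet_Ioo fun x hx => ?_
  rw [hB.phi_eq τ hτ x (Ioo_subset_Icc_self hx)]
  unfold phi0
  ring

theorem slice_lhs (hB : Bg c0 C0 g L φ m) (hc0 : 0 < c0)
    (hp : ContDiffOn ℝ ∞ p (Icc 0 L)) {τ : ℝ} (hτ : τ ∈ Ioo (0 : ℝ) 1) (k k' : ℝ)
    (hδ : MemLp (δ τ) 2 (mu L)) (hβ : MemLp (fun x => b τ x / m τ x) 2 (mu L)) :
    ∫ x in Ioo 0 L, x ^ 9 * (k' * p x * δ τ x + φ τ x * (k * dd L p x) * b τ x) =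
      k' * ⟪toHL L p, toHL L (δ τ)⟫ + k * ⟪toHL L (fun x => phi0 L x * dd L p x),
        NL L m τ (toHL L (fun x => b τ x / m τ x))⟫ := by
  have hL := Bg.L_pos hB
  have h2 : MemLp p 2 (mu L) := memLp_of_continuousOn hL hp.continuousOn
  have hφ0 : ContinuousOn (phi0 L) (Icc 0 L) := (continuous_phi0 L).continuousOn
  have h4 : MemLp (fun x => phi0 L x * dd L p x) 2 (mu L) :=
    memLp_of_continuousOn hL (hφ0.mul (continuousOn_dd hL hp))
  have hm2 : ContinuousOn (fun x => m τ x ^ 2) (Icc 0 L) := (hB.sm.continuousOn_right hτ).pow 2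
  obtain ⟨h5, h6⟩ := mulL_toHL hL hm2 hβ
  unfold NL
  rw [h6, inner_toHL h2 hδ, inner_toHL h4 h5, ← integral_const_mul, ← integral_const_mul,
    ← integral_add ((integrable_w_mul h2 hδ).const_mul k')
      ((integrable_w_mul h4 h5).const_mul k)]
  refine setIntegral_congr_fun measurableSet_Ioo fun x hx => ?_
  rw [hB.phi_eq τ hτ x (Ioo_subset_Icc_self hx)]
  have h7 : m τ x ≠ 0 := (hc0.trans_le (hB.lower τ hτ x (Ioo_subset_Icc_self hx))).ne'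
  unfold phi0
  field_simp

/-- the weak equation tested with `χ(τ)p(x)`. -/
theorem weak_smooth (hB : Bg c0 C0 g L φ m) (hc0 : 0 < c0) (hW : WS L κ φ b δ)
    (hE : Sm (Ioo 0 1) L E) (hh : Sm (Ioo 0 1) L ht)
    (h2 : ∀ ψ, Tst L ψ →
          II L (fun τ x => x ^ 9 * (dt ψ τ x * δ τ x + φ τ x * dx L (dx L ψ) τ x * b τ x)) =
            II L (fun τ x => x ^ 9 * (E τ x * ψ τ x +
              (φ τ x * ht τ x) * φ τ x * dx L (dx L ψ) τ x)))
    (hχ : ContDiff ℝ ∞ χ) (hχc : HasCompactSupport χ) (hχs : tsupport χ ⊆ Ioo 0 1)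
    (hp : ContDiffOn ℝ ∞ p (Icc 0 L)) :
    ∫ τ, (deriv χ τ * ⟪JL L (smV L p hp), JL L (wc L m δ b τ)⟫ +
        χ τ * ⟪BL L (smV L p hp), NL L m τ (BL L (wc L m δ b τ))⟫) =
      ∫ τ, χ τ * (⟪toHL L (E τ), JL L (smV L p hp)⟫ +
        ⟪toHL L (fun x => phi0 L x * m τ x ^ 2 * ht τ x), BL L (smV L p hp)⟫) := by
  have hL := Bg.L_pos hB
  obtain ⟨a, c, ha, hac, hc, hs1, hs2⟩ := exists_Icc_of_tsupport hχc hχs
  have hT := tst_chip (L := L) hχ hp ha hac hc hs1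
  have h := h2 _ hT
  have hsub : Icc a c ⊆ Ioo 0 1 := fun x hx => ⟨ha.trans_le hx.1, hx.2.trans_lt hc⟩
  have hχ' : ContDiff ℝ ∞ (deriv χ) := by
    exact (contDiff_infty_iff_deriv.1 hχ).2
  have hφ := hphi_sm hB
  have hdd : ContDiffOn ℝ ∞ (dd L p) (Icc 0 L) := by
    have h3 : Sm (Ioo 0 1) L (fun _ x => p x) := Sm.of_right hp
    have h4 := ((h3.dx isOpen_Ioo hL).dx isOpen_Ioo hL).contDiffOn_right
      (show (1 / 2 : ℝ) ∈ Ioo (0 : ℝ) 1 by constructor <;> norm_num)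
    exact h4
  -- rewrite the integrands on the strip
  have eL : II L (fun τ x => x ^ 9 * (dt (fun τ x => χ τ * p x) τ x * δ τ x +
      φ τ x * dx L (dx L (fun τ x => χ τ * p x)) τ x * b τ x)) =
      II L (fun τ x => x ^ 9 * (deriv χ τ * p x * δ τ x + φ τ x * (χ τ * dd L p x) * b τ x)) := by
    unfold II
    refine setIntegral_congr_fun meas_S fun z hz => ?_
    simp only
    rw [dt_chip hχ, dxdx_chip hL hp _ (Ioo_subset_Icc_self hz.2)]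
  have eR : II L (fun τ x => x ^ 9 * (E τ x * (χ τ * p x) +
      (φ τ x * ht τ x) * φ τ x * dx L (dx L (fun τ x => χ τ * p x)) τ x)) =
      II L (fun τ x => x ^ 9 * (E τ x * (χ τ * p x) +
        (φ τ x * ht τ x) * φ τ x * (χ τ * dd L p x))) := by
    unfold II
    refine setIntegral_congr_fun meas_S fun z hz => ?_
    simp only
    rw [dxdx_chip hL hp _ (Ioo_subset_Icc_self hz.2)]
  rw [eL, eR] at h
  -- integrability
  have hW' : ∀ τ ∈ Ioo (0 : ℝ) 1, ∀ x ∈ Icc 0 L, om L κ τ ≤ Wt' κ τ x := fun τ hτ x hx =>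
    om_le_Wt' hτ hx
  have hWt : ∀ τ ∈ Ioo (0 : ℝ) 1, ∀ x ∈ Icc 0 L, om L κ τ ≤ Wt κ τ x := fun τ hτ x hx =>
    om_le_Wt hτ hx
  have i1 := integrableOn_S_mul (κ := κ) (A := fun τ x => deriv χ τ * p x) hL (meas_Wt' κ) hW'
    hW.dm hW.dN (sm_chip hχ' hp) ha hac hc (fun τ hτ x _ => by rw [hs2 τ hτ, zero_mul])
  have i2 := integrableOn_S_mul (κ := κ) (A := fun τ x => φ τ x * (χ τ * dd L p x)) hL
    (meas_Wt κ) hWt hW.bm hW.bN (Sm.mul hφ (sm_chip hχ hdd)) ha hac hc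
    (fun τ hτ x _ => by rw [hs1 τ hτ, zero_mul, mul_zero])
  have i3 := integrableOn_S_sm (A := fun τ x => E τ x * (χ τ * p x) +
        (φ τ x * ht τ x) * φ τ x * (χ τ * dd L p x)) hL
    (Sm.add (Sm.mul hE (sm_chip hχ hp)) (Sm.mul (Sm.mul (Sm.mul hφ hh) hφ) (sm_chip hχ hdd)))
    ha hac hc (fun τ hτ x _ => by rw [hs1 τ hτ]; ring)
  have i12 : IntegrableOn (fun z : ℝ × ℝ => z.2 ^ 9 * (deriv χ z.1 * p z.2 * δ z.1 z.2 +
      φ z.1 z.2 * (χ z.1 * dd L p z.2) * b z.1 z.2)) (Ioo (0 : ℝ) 1 ×ˢ Ioo (0 : ℝ) L) := by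
    refine (i1.add i2).congr (Eventually.of_forall fun z => ?_)
    simp only [Pi.add_apply]
    ring
  rw [II_eq (F := fun τ x => x ^ 9 * (deriv χ τ * p x * δ τ x +
      φ τ x * (χ τ * dd L p x) * b τ x)) i12,
    II_eq (F := fun τ x => x ^ 9 * (E τ x * (χ τ * p x) +
        (φ τ x * ht τ x) * φ τ x * (χ τ * dd L p x))) i3] at h
  -- the abstract integrals live on `(0,1)`
  have f1 : ∫ τ, (deriv χ τ * ⟪JL L (smV L p hp), JL L (wc L m δ b τ)⟫ +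
        χ τ * ⟪BL L (smV L p hp), NL L m τ (BL L (wc L m δ b τ))⟫) =
      ∫ τ in Ioo (0 : ℝ) 1, (deriv χ τ * ⟪JL L (smV L p hp), JL L (wc L m δ b τ)⟫ +
        χ τ * ⟪BL L (smV L p hp), NL L m τ (BL L (wc L m δ b τ))⟫) := by
    symm
    apply setIntegral_eq_integral_of_forall_compl_eq_zero
    intro τ hτ
    rw [hs1 τ (fun h => hτ (hsub h)), hs2 τ (fun h => hτ (hsub h)), zero_mul, zero_mul, add_zero]
  have f2 : ∫ τ, χ τ * (⟪toHL L (E τ), JL L (smV L p hp)⟫ +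
        ⟪toHL L (fun x => phi0 L x * m τ x ^ 2 * ht τ x), BL L (smV L p hp)⟫) =
      ∫ τ in Ioo (0 : ℝ) 1, χ τ * (⟪toHL L (E τ), JL L (smV L p hp)⟫ +
        ⟪toHL L (fun x => phi0 L x * m τ x ^ 2 * ht τ x), BL L (smV L p hp)⟫) := by
    symm
    apply setIntegral_eq_integral_of_forall_compl_eq_zero
    intro τ hτ
    rw [hs1 τ (fun h => hτ (hsub h)), zero_mul]
  rw [f1, f2]
  have g1 : ∫ τ in Ioo (0 : ℝ) 1, (deriv χ τ * ⟪JL L (smV L p hp), JL L (wc L m δ b τ)⟫ +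
        χ τ * ⟪BL L (smV L p hp), NL L m τ (BL L (wc L m δ b τ))⟫) =
      ∫ τ in Ioo (0 : ℝ) 1, ∫ x in Ioo 0 L, x ^ 9 * (deriv χ τ * p x * δ τ x +
        φ τ x * (χ τ * dd L p x) * b τ x) := by
    refine integral_congr_ae ?_
    filter_upwards [(wc_ae hB hc0 hW).2, ae_restrict_mem measurableSet_Ioo] with τ h hτ
    rw [JL_wc h.2.2, BL_wc h.2.2, JL_smV, BL_smV, slice_lhs hB hc0 hp hτ _ _ h.1 h.2.1]
  have g2 : ∫ τ in Ioo (0 : ℝ) 1, χ τ * (⟪toHL L (E τ), JL L (smV L p hp)⟫ +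
        ⟪toHL L (fun x => phi0 L x * m τ x ^ 2 * ht τ x), BL L (smV L p hp)⟫) =
      ∫ τ in Ioo (0 : ℝ) 1, ∫ x in Ioo 0 L, x ^ 9 * (E τ x * (χ τ * p x) +
        (φ τ x * ht τ x) * φ τ x * (χ τ * dd L p x)) := by
    refine setIntegral_congr_fun measurableSet_Ioo fun τ hτ => ?_
    rw [JL_smV, BL_smV, slice_rhs hB hE hh hp hτ]
  rw [g1, g2, h]

end Crest.Agent.R213.B
end
end

-- ▼ part R213/B/Conc6
section

/-!
# Row 213, part B, B2: the weak equation for all `v ∈ V`, in the form of `TimeRegIface`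
-/

set_option autoImplicit false

open Set MeasureTheory Filter Topology
open scoped BoundedContinuousFunction RealInnerProductSpace ENNReal ContDiff

noncomputable section

namespace Crest.Agent.R213.B

variable {L : ℝ} {c0 C0 κ : ℝ} {g : ℝ → ℝ} {φ m b δ E ht : ℝ → ℝ → ℝ}


theorem integrableOn_wc (hB : Bg c0 C0 g L φ m) (hc0 : 0 < c0) (hW : WS L κ φ b δ) {p q : ℝ}
    (hp : 0 < p) (hq : q < 1) : IntegrableOn (wc L m δ b) (Icc p q) :=
  (wc_memLp hB hc0 hW p q hp hq).integrable (by norm_num)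

theorem integrableOn_NBwc (hB : Bg c0 C0 g L φ m) (hc0 : 0 < c0) (hW : WS L κ φ b δ) {p q : ℝ}
    (hp : 0 < p) (hq : q < 1) :
    IntegrableOn (fun τ => NL L m τ (BL L (wc L m δ b τ))) (Icc p q) := by
  have hL := Bg.L_pos hB
  have hsub : Icc p q ⊆ Ioo 0 1 := fun x hx => ⟨hp.trans_le hx.1, hx.2.trans_lt hq⟩
  have hN : ContinuousOn (NL L m) (Icc p q) :=
    ((NL_contDiffOn isOpen_Ioo hL hB.sm).continuousOn).mono hsub
  obtain ⟨C, hC⟩ := isCompact_Icc.exists_bound_of_continuousOn hN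
  have hw := (BL L).integrable_comp (integrableOn_wc hB hc0 hW hp hq)
  have hmeas : AEStronglyMeasurable (fun τ => NL L m τ (BL L (wc L m δ b τ)))
      (volume.restrict (Icc p q)) :=
    (ContinuousLinearMap.id ℝ (HL L →L[ℝ] HL L)).aestronglyMeasurable_comp₂
      (hN.aestronglyMeasurable measurableSet_Icc) hw.aestronglyMeasurable
  refine Integrable.mono' (hw.norm.const_mul C) hmeas ?_
  filter_upwards [ae_restrict_mem measurableSet_Icc] with τ hτ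
  exact (ContinuousLinearMap.le_opNorm _ _).trans (by gcongr; exact hC τ hτ)

/-- the weak equation in the form needed by `time_reg`. -/
theorem weak_all (hB : Bg c0 C0 g L φ m) (hc0 : 0 < c0) (hW : WS L κ φ b δ)
    (hE : Sm (Ioo 0 1) L E) (hh : Sm (Ioo 0 1) L ht)
    (h2 : ∀ ψ, Tst L ψ →
          II L (fun τ x => x ^ 9 * (dt ψ τ x * δ τ x + φ τ x * dx L (dx L ψ) τ x * b τ x)) =
            II L (fun τ x => x ^ 9 * (E τ x * ψ τ x +
              (φ τ x * ht τ x) * φ τ x * dx L (dx L ψ) τ x)))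
    (χ : ℝ → ℝ) (hχ : ContDiff ℝ ∞ χ) (hχc : HasCompactSupport χ) (hχs : tsupport χ ⊆ Ioo 0 1)
    (v : VL L) :
    ∫ τ, (deriv χ τ * ⟪JL L v, JL L (wc L m δ b τ)⟫ +
        χ τ * ⟪BL L v, NL L m τ (BL L (wc L m δ b τ))⟫) =
      ∫ τ, χ τ * (⟪toHL L (E τ), JL L v⟫ +
        ⟪toHL L (fun x => phi0 L x * m τ x ^ 2 * ht τ x), BL L v⟫) := by
  have hL := Bg.L_pos hB
  obtain ⟨p, q, hp, hpq, hq, hs1, hs2⟩ := exists_Icc_of_tsupport hχc hχs
  have hsub : Icc p q ⊆ Ioo 0 1 := fun x hx => ⟨hp.trans_le hx.1, hx.2.trans_lt hq⟩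
  have hχ' : Continuous (deriv χ) := hχ.continuous_deriv (by simp)
  have hR : Sm (Ioo 0 1) L (fun τ x => phi0 L x * m τ x ^ 2 * ht τ x) := by
    refine Sm.mul (Sm.mul (Sm.of_right ?_) (Sm.pow hB.sm 2)) hh
    unfold phi0; fun_prop
  -- four integrable curves
  have i1 : Integrable (fun τ => deriv χ τ • JL L (wc L m δ b τ)) :=
    integrable_smul_of_Icc hχ' hs2 ((JL L).integrable_comp (integrableOn_wc hB hc0 hW hp hq))
  have i2 : Integrable (fun τ => χ τ • NL L m τ (BL L (wc L m δ b τ))) :=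
    integrable_smul_of_Icc hχ.continuous hs1 (integrableOn_NBwc hB hc0 hW hp hq)
  have i3 : Integrable (fun τ => χ τ • toHL L (E τ)) :=
    integrable_smul_of_Icc hχ.continuous hs1
      (((Sm.contDiffOn_toHL isOpen_Ioo hL hE).continuousOn.mono hsub).integrableOn_Icc)
  have i4 : Integrable (fun τ => χ τ • toHL L (fun x => phi0 L x * m τ x ^ 2 * ht τ x)) :=
    integrable_smul_of_Icc hχ.continuous hs1
      (((Sm.contDiffOn_toHL isOpen_Ioo hL hR).continuousOn.mono hsub).integrableOn_Icc)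
  let F : VL L →L[ℝ] ℝ := (innerSL ℝ (∫ τ, deriv χ τ • JL L (wc L m δ b τ))) ∘L (JL L) +
    (innerSL ℝ (∫ τ, χ τ • NL L m τ (BL L (wc L m δ b τ)))) ∘L (BL L)
  let G : VL L →L[ℝ] ℝ := (innerSL ℝ (∫ τ, χ τ • toHL L (E τ))) ∘L (JL L) +
    (innerSL ℝ (∫ τ, χ τ • toHL L (fun x => phi0 L x * m τ x ^ 2 * ht τ x))) ∘L (BL L)
  have hF : ∀ v, F v = ∫ τ, (deriv χ τ * ⟪JL L v, JL L (wc L m δ b τ)⟫ +
        χ τ * ⟪BL L v, NL L m τ (BL L (wc L m δ b τ))⟫) := by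
    intro v
    have e1 : F v = ⟪(∫ τ, deriv χ τ • JL L (wc L m δ b τ)), JL L v⟫ +
        ⟪(∫ τ, χ τ • NL L m τ (BL L (wc L m δ b τ))), BL L v⟫ := rfl
    rw [e1, real_inner_comm, real_inner_comm (BL L v), ← integral_inner i1, ← integral_inner i2,
      ← integral_add (i1.const_inner _) (i2.const_inner _)]
    refine integral_congr_ae (Eventually.of_forall fun τ => ?_)
    simp only [real_inner_smul_right]
  have hG : ∀ v, G v = ∫ τ, χ τ * (⟪toHL L (E τ), JL L v⟫ +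
        ⟪toHL L (fun x => phi0 L x * m τ x ^ 2 * ht τ x), BL L v⟫) := by
    intro v
    have e1 : G v = ⟪(∫ τ, χ τ • toHL L (E τ)), JL L v⟫ +
        ⟪(∫ τ, χ τ • toHL L (fun x => phi0 L x * m τ x ^ 2 * ht τ x)), BL L v⟫ := rfl
    rw [e1, real_inner_comm, real_inner_comm (BL L v), ← integral_inner i3, ← integral_inner i4,
      ← integral_add (i3.const_inner _) (i4.const_inner _)]
    refine integral_congr_ae (Eventually.of_forall fun τ => ?_)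
    simp only [real_inner_smul_right]
    rw [real_inner_comm, real_inner_comm (BL L v)]
    ring
  rw [← hF, ← hG]
  refine VL_ext F G (fun p hp => ?_) v
  rw [hF, hG]
  exact weak_smooth hB hc0 hW hE hh h2 hχ hχc hχs hp

end Crest.Agent.R213.B
end
end

-- ▼ part R213/B/TimeConc
section

/-!
# Row 213, part B: `time_reg_conc` from the abstract time regularity theorem
-/

set_option autoImplicit false

open Set MeasureTheory Filter Topology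
open scoped BoundedContinuousFunction RealInnerProductSpace ENNReal ContDiff

noncomputable section

namespace Crest.Agent.R213.B

/-- the statement of the abstract theorem `time_reg` (see `TimeRegIface.lean`) -/
def TimeRegStmt : Prop :=
  ∀ {V H K : Type} [NormedAddCommGroup V] [InnerProductSpace ℝ V] [CompleteSpace V]
    [NormedAddCommGroup H] [InnerProductSpace ℝ H] [CompleteSpace H]
    [NormedAddCommGroup K] [InnerProductSpace ℝ K] [CompleteSpace K]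
    (J : V →L[ℝ] H) (B : V →L[ℝ] K) {C : ℝ} (_ : ∀ v, ‖v‖ ^ 2 ≤ C * (‖J v‖ ^ 2 + ‖B v‖ ^ 2))
    {N : ℝ → K →L[ℝ] K} (_ : ContDiffOn ℝ ∞ N (Ioo 0 1))
    (_ : ∀ τ ∈ Ioo (0 : ℝ) 1, ∀ x y, ⟪N τ x, y⟫ = ⟪x, N τ y⟫)
    {c : ℝ} (_ : 0 < c) (_ : ∀ τ ∈ Ioo (0 : ℝ) 1, ∀ x, c * ‖x‖ ^ 2 ≤ ⟪N τ x, x⟫)
    {E : ℝ → H} (_ : ContDiffOn ℝ ∞ E (Ioo 0 1)) {R : ℝ → K} (_ : ContDiffOn ℝ ∞ R (Ioo 0 1))
    {w : ℝ → V} (_ : ∀ a b : ℝ, 0 < a → b < 1 → MemLp w 2 (volume.restrict (Icc a b)))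
    (_ : ∀ χ : ℝ → ℝ, ContDiff ℝ ∞ χ → HasCompactSupport χ → tsupport χ ⊆ Ioo 0 1 → ∀ v : V,
      ∫ τ, (deriv χ τ * ⟪J v, J (w τ)⟫ + χ τ * ⟪B v, N τ (B (w τ))⟫) =
        ∫ τ, χ τ * (⟪E τ, J v⟫ + ⟪R τ, B v⟫)),
    ∃ w' : ℝ → V, ContDiffOn ℝ ∞ w' (Ioo 0 1) ∧ (∀ᵐ τ, τ ∈ Ioo (0 : ℝ) 1 → w' τ = w τ) ∧
      ∀ τ ∈ Ioo (0 : ℝ) 1, ∀ v : V,
        -⟪J v, J (deriv w' τ)⟫ + ⟪B v, N τ (B (w' τ))⟫ = ⟪E τ, J v⟫ + ⟪R τ, B v⟫

variable {L : ℝ}

theorem inner_eq_integral (f g : HL L) : ⟪f, g⟫ = ∫ x, f x * g x ∂(mu L) := by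
  rw [L2.inner_def]
  refine integral_congr_ae (Eventually.of_forall fun x => ?_)
  simp [mul_comm]

theorem time_reg_conc_of (htr : TimeRegStmt)
    {c0 C0 : ℝ} {g : ℝ → ℝ} {φ m : ℝ → ℝ → ℝ} (hB : Bg c0 C0 g L φ m)
    (hc0 : 0 < c0)
    {κ : ℝ} {E ht b δ : ℝ → ℝ → ℝ} (hE : Sm (Ioo 0 1) L E) (hh : Sm (Ioo 0 1) L ht)
    (hbm : Measurable (fun p : ℝ × ℝ => b p.1 p.2))
    (hdm : Measurable (fun p : ℝ × ℝ => δ p.1 p.2))
    (hb : N2 L (Wt κ) b < ⊤) (hd : N2 L (Wt' κ) δ < ⊤)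
    (h1 : ∃ u : ℕ → ℝ → ℝ → ℝ, (∀ k, Tst L (u k)) ∧
          Tendsto (fun k => N2 L (Wt κ) (fun τ x => φ τ x * dx L (dx L (u k)) τ x - b τ x))
            atTop (𝓝 0) ∧
          Tendsto (fun k => N2 L (Wt' κ) (fun τ x => u k τ x - δ τ x)) atTop (𝓝 0))
    (h2 : ∀ ψ, Tst L ψ →
          II L (fun τ x => x ^ 9 * (dt ψ τ x * δ τ x + φ τ x * dx L (dx L ψ) τ x * b τ x)) =
            II L (fun τ x => x ^ 9 * (E τ x * ψ τ x +
              (φ τ x * ht τ x) * φ τ x * dx L (dx L ψ) τ x))) :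
    ∃ U Z : ℝ → HL L, ContDiffOn ℝ (⊤ : ℕ∞) U (Ioo 0 1) ∧ ContDiffOn ℝ (⊤ : ℕ∞) Z (Ioo 0 1) ∧
      (∀ᵐ τ ∂(volume.restrict (Ioo (0 : ℝ) 1)),
        (∀ᵐ x ∂(mu L), (U τ) x = δ τ x) ∧ (∀ᵐ x ∂(mu L), m τ x * (Z τ) x = b τ x)) ∧
      (∀ τ ∈ Ioo (0 : ℝ) 1, InV L (U τ) (Z τ)) ∧
      (∀ τ ∈ Ioo (0 : ℝ) 1, ∀ ζ : ℝ → ℝ, ContDiffOn ℝ (⊤ : ℕ∞) ζ (Icc 0 L) →
        ∫ x, ζ x * (E τ x + (deriv U τ : HL L) x) ∂(mu L) =
          ∫ x, (x * (1 - x / L) * dd L ζ x) *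
            (m τ x ^ 2 * ((Z τ) x - x * (1 - x / L) * ht τ x)) ∂(mu L)) := by
  have hL := Bg.L_pos hB
  have hW : WS L κ φ b δ := ⟨hbm, hdm, hb, hd, h1⟩
  have hR : Sm (Ioo 0 1) L (fun τ x => phi0 L x * m τ x ^ 2 * ht τ x) := by
    refine Sm.mul (Sm.mul (Sm.of_right ?_) (Sm.pow hB.sm 2)) hh
    unfold phi0; fun_prop
  obtain ⟨w', hw', hae, heq⟩ := htr (JL L) (BL L) (C := 1)
    (fun v => by rw [one_mul]; exact (norm_VL v).le)
    (N := NL L m) (NL_contDiffOn isOpen_Ioo hL hB.sm) (fun τ _ x y => NL_symm τ x y)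
    (c := c0 ^ 2) (by positivity)
    (fun τ hτ x => NL_coer hL hB.sm hc0 hτ (hB.lower τ hτ) x)
    (E := fun τ => toHL L (E τ)) (Sm.contDiffOn_toHL isOpen_Ioo hL hE)
    (R := fun τ => toHL L (fun x => phi0 L x * m τ x ^ 2 * ht τ x))
    (Sm.contDiffOn_toHL isOpen_Ioo hL hR)
    (w := wc L m δ b) (wc_memLp hB hc0 hW) (weak_all hB hc0 hW hE hh h2)
  refine ⟨fun τ => JL L (w' τ), fun τ => BL L (w' τ), (JL L).contDiff.comp_contDiffOn hw',
    (BL L).contDiff.comp_contDiffOn hw', ?_, fun τ _ => inV_of_VL hL _, ?_⟩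
  · have hae' : ∀ᵐ τ ∂(volume.restrict (Ioo (0 : ℝ) 1)), w' τ = wc L m δ b τ :=
      (ae_restrict_iff' measurableSet_Ioo).2 hae
    filter_upwards [hae', (wc_ae hB hc0 hW).2, ae_restrict_mem measurableSet_Ioo] with τ h1 h2 hτ
    rw [h1, JL_wc h2.2.2, BL_wc h2.2.2]
    refine ⟨coe_toHL h2.1, ?_⟩
    filter_upwards [coe_toHL h2.2.1, ae_mu_mem L] with x hx hx2
    rw [hx]
    have h7 : m τ x ≠ 0 := (hc0.trans_le (hB.lower τ hτ x (Ioo_subset_Icc_self hx2))).ne'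
    field_simp
  · intro τ hτ ζ hζ
    have h := heq τ hτ (smV L ζ hζ)
    rw [JL_smV, BL_smV] at h
    have hdU : deriv (fun τ => JL L (w' τ)) τ = JL L (deriv w' τ) := by
      have hd : DifferentiableAt ℝ w' τ :=
        (hw'.differentiableOn (by simp)).differentiableAt (isOpen_Ioo.mem_nhds hτ)
      exact ((JL L).hasFDerivAt.comp_hasDerivAt τ hd.hasDerivAt).deriv
    rw [hdU]
    have hζm : MemLp ζ 2 (mu L) := memLp_of_continuousOn hL hζ.continuousOn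
    have hφ0 : ContinuousOn (phi0 L) (Icc 0 L) := (continuous_phi0 L).continuousOn
    have hζd : MemLp (fun x => phi0 L x * dd L ζ x) 2 (mu L) :=
      memLp_of_continuousOn hL (hφ0.mul (continuousOn_dd hL hζ))
    have hEm : MemLp (E τ) 2 (mu L) := memLp_of_continuousOn hL (hE.continuousOn_right hτ)
    have hRm : MemLp (fun x => phi0 L x * m τ x ^ 2 * ht τ x) 2 (mu L) :=
      memLp_of_continuousOn hL (hR.continuousOn_right hτ)
    have e1 : ∫ x, ζ x * (E τ x + (JL L (deriv w' τ) : HL L) x) ∂(mu L) =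
        ⟪toHL L ζ, toHL L (E τ) + JL L (deriv w' τ)⟫ := by
      rw [inner_eq_integral]
      refine integral_congr_ae ?_
      filter_upwards [coe_toHL hζm, coe_toHL hEm,
        Lp.coeFn_add (toHL L (E τ)) (JL L (deriv w' τ))] with x h1 h2 h3
      rw [h3, h1, Pi.add_apply, h2]
    have e2 : ∫ x, (x * (1 - x / L) * dd L ζ x) *
            (m τ x ^ 2 * ((BL L (w' τ) : HL L) x - x * (1 - x / L) * ht τ x)) ∂(mu L) =
        ⟪toHL L (fun x => phi0 L x * dd L ζ x), NL L m τ (BL L (w' τ)) -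
          toHL L (fun x => phi0 L x * m τ x ^ 2 * ht τ x)⟫ := by
      rw [inner_eq_integral]
      refine integral_congr_ae ?_
      have h5 := coe_mulL (ex L (fun x => m τ x ^ 2)) (BL L (w' τ))
      filter_upwards [coe_toHL hζd, coe_toHL hRm,
        Lp.coeFn_sub (NL L m τ (BL L (w' τ))) (toHL L (fun x => phi0 L x * m τ x ^ 2 * ht τ x)),
        h5, ae_mu_mem L] with x h1 h2 h3 h4 h6
      rw [h3, h1, Pi.sub_apply, h2]
      unfold NL
      have h8 : ContinuousOn (fun x => m τ x ^ 2) (Icc 0 L) := (hB.sm.continuousOn_right hτ).pow 2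
      rw [h4, ex_apply_mem hL.le h8 (Ioo_subset_Icc_self h6)]
      unfold phi0
      ring
    rw [e1, e2, inner_add_right, inner_sub_right]
    rw [real_inner_comm (toHL L ζ) (toHL L (E τ)),
      real_inner_comm (toHL L (fun x => phi0 L x * dd L ζ x))
        (toHL L (fun x => phi0 L x * m τ x ^ 2 * ht τ x))] at h
    linarith

end Crest.Agent.R213.B
end
end

-- ▼ part R213/B/RegOf

/-!
# Row 213, part B: `reg` from the abstract time regularity theorem and the spatial bootstrap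
-/

set_option autoImplicit false

open Set MeasureTheory Filter Topology
open scoped RealInnerProductSpace ContDiff

noncomputable section

namespace Crest.Agent.R213.B

/-- the statement of `space_boot` (see `BIface.lean`) -/
def SpaceBootStmt : Prop :=
  ∀ {c0 C0 : ℝ} {g : ℝ → ℝ} {L : ℝ} {φ m : ℝ → ℝ → ℝ} (_ : Bg c0 C0 g L φ m)
    (_ : 0 < c0) {E ht : ℝ → ℝ → ℝ} (_ : Sm (Ioo 0 1) L E) (_ : Sm (Ioo 0 1) L ht)
    {U Z : ℝ → HL L} (_ : ContDiffOn ℝ (⊤ : ℕ∞) U (Ioo 0 1))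
    (_ : ContDiffOn ℝ (⊤ : ℕ∞) Z (Ioo 0 1))
    (_ : ∀ τ ∈ Ioo (0 : ℝ) 1, InV L (U τ) (Z τ))
    (_ : ∀ τ ∈ Ioo (0 : ℝ) 1, ∀ ζ : ℝ → ℝ, ContDiffOn ℝ (⊤ : ℕ∞) ζ (Icc 0 L) →
        ∫ x, ζ x * (E τ x + (deriv U τ : HL L) x) ∂(mu L) =
          ∫ x, (x * (1 - x / L) * dd L ζ x) *
            (m τ x ^ 2 * ((Z τ) x - x * (1 - x / L) * ht τ x)) ∂(mu L)),
    ∃ δ' : ℝ → ℝ → ℝ, Sm (Ioo 0 1) L δ' ∧
      (∀ τ ∈ Ioo (0 : ℝ) 1, ∀ᵐ x ∂(volume.restrict (Ioo 0 L)),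
        δ' τ x = (U τ) x ∧ x * (1 - x / L) * dx L (dx L δ') τ x = (Z τ) x) ∧
      ∀ τ ∈ Ioo (0 : ℝ) 1, ∀ x ∈ Icc 0 L,
        x ^ 9 * (φ τ x ^ 2 * dx L (dx L δ') τ x - φ τ x ^ 2 * ht τ x) =
          Kint (fun ξ => E τ ξ + dt δ' τ ξ) x

theorem reg_of (htr : TimeRegStmt) (hsb : SpaceBootStmt)
    {c0 C0 : ℝ} {g : ℝ → ℝ} {L : ℝ} {φ m : ℝ → ℝ → ℝ} (hc0 : 0 < c0) (hB : Bg c0 C0 g L φ m)
    {κ : ℝ} {E ht b δ : ℝ → ℝ → ℝ} (hE : Sm (Ioo 0 1) L E) (hh : Sm (Ioo 0 1) L ht)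
    (hbm : Measurable (fun p : ℝ × ℝ => b p.1 p.2))
    (hdm : Measurable (fun p : ℝ × ℝ => δ p.1 p.2))
    (hb : N2 L (Wt κ) b < ⊤) (hd : N2 L (Wt' κ) δ < ⊤)
    (h1 : ∃ u : ℕ → ℝ → ℝ → ℝ, (∀ k, Tst L (u k)) ∧
          Tendsto (fun k => N2 L (Wt κ) (fun τ x => φ τ x * dx L (dx L (u k)) τ x - b τ x))
            atTop (𝓝 0) ∧
          Tendsto (fun k => N2 L (Wt' κ) (fun τ x => u k τ x - δ τ x)) atTop (𝓝 0))
    (h2 : ∀ ψ, Tst L ψ →
          II L (fun τ x => x ^ 9 * (dt ψ τ x * δ τ x + φ τ x * dx L (dx L ψ) τ x * b τ x)) =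
            II L (fun τ x => x ^ 9 * (E τ x * ψ τ x +
              (φ τ x * ht τ x) * φ τ x * dx L (dx L ψ) τ x))) :
    ∃ δ' : ℝ → ℝ → ℝ, Sm (Ioo 0 1) L δ' ∧
      (∀ᵐ p : ℝ × ℝ, p ∈ (Ioo (0 : ℝ) 1 ×ˢ Ioo (0 : ℝ) L) →
        δ' p.1 p.2 = δ p.1 p.2 ∧ φ p.1 p.2 * dx L (dx L δ') p.1 p.2 = b p.1 p.2) ∧
      ∀ τ ∈ Ioo (0 : ℝ) 1, ∀ x ∈ Icc 0 L,
        x ^ 9 * (φ τ x ^ 2 * dx L (dx L δ') τ x - φ τ x ^ 2 * ht τ x) =
          Kint (fun ξ => E τ ξ + dt δ' τ ξ) x := by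
  obtain ⟨U, Z, hU, hZ, hae, hV, heq⟩ := time_reg_conc_of htr hB hc0 hE hh hbm hdm hb hd h1 h2
  obtain ⟨δ', hδ, h3, h4⟩ := hsb hB hc0 hE hh hU hZ hV heq
  exact ⟨δ', hδ, reg_core hB hbm hdm hae hδ h3, h4⟩

end Crest.Agent.R213.B
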