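import Crest.Agent.R213.B.Space
import Crest.Agent.R213.J0

/-!
# Row 213, part B3a (helper80): representation of elements of the graph space
-/

set_option autoImplicit false

open Set MeasureTheory Filter Topology
open scoped RealInnerProductSpace ENNReal

noncomputable section

namespace Crest.Agent.R213.B

variable {L : ℝ}

/-! ### functionals `U ↦ ∫ x in c..d, w x * U x` -/

theorem memLp_indicator {c d : ℝ} {f : ℝ → ℝ} (hf : ContinuousOn f (Icc c d)) :
    MemLp ((Icc c d).indicator f) 2 (mu L) := by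
  obtain ⟨C, hC⟩ := isCompact_Icc.exists_bound_of_continuousOn hf
  have h1 : AEStronglyMeasurable ((Icc c d).indicator f) (mu L) := by
    rw [aestronglyMeasurable_indicator_iff measurableSet_Icc]
    exact hf.aestronglyMeasurable measurableSet_Icc
  refine MemLp.of_bound h1 (max C 0) (Eventually.of_forall fun x => ?_)
  by_cases hx : x ∈ Icc c d
  · rw [indicator_of_mem hx]
    exact (hC x hx).trans (le_max_left _ _)
  · rw [indicator_of_notMem hx]
    simp

/-- the functional `U ↦ ∫ x in c..d, w x * U x` -/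
def fn (L c d : ℝ) (w : ℝ → ℝ) : HL L →L[ℝ] ℝ :=
  innerSL ℝ (toHL L ((Icc c d).indicator (fun x => w x / x ^ 9)))

theorem fn_apply {c d : ℝ} (hc : 0 < c) (hcd : c ≤ d) (hd : d < L) {w : ℝ → ℝ}
    (hw : ContinuousOn w (Icc c d)) (U : HL L) :
    fn L c d w U = ∫ x in c..d, w x * U x := by
  have hf : ContinuousOn (fun x => w x / x ^ 9) (Icc c d) := by
    refine hw.div (by fun_prop) fun x hx => ?_
    exact pow_ne_zero _ (lt_of_lt_of_le hc hx.1).ne'
  have hm := memLp_indicator (L := L) hf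
  unfold fn
  rw [innerSL_apply_apply, inner_HL, intervalIntegral.integral_of_le hcd,
    ← integral_Icc_eq_integral_Ioc]
  have e1 : ∀ᵐ x ∂(volume.restrict (Ioo 0 L)),
      x ^ 9 * ((toHL L ((Icc c d).indicator (fun x => w x / x ^ 9)) : HL L) x * U x) =
        (Icc c d).indicator (fun x => w x * U x) x := by
    filter_upwards [ae_mu_iff.1 (coe_toHL hm), ae_restrict_mem measurableSet_Ioo] with x hx hx2
    rw [hx]
    by_cases h : x ∈ Icc c d
    · rw [indicator_of_mem h, indicator_of_mem h]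
      have hx0 : x ≠ 0 := hx2.1.ne'
      field_simp
    · rw [indicator_of_notMem h, indicator_of_notMem h]
      ring
  rw [integral_congr_ae e1, setIntegral_indicator measurableSet_Icc]
  congr 2
  ext x
  constructor
  · rintro ⟨_, h⟩; exact h
  · intro h
    exact ⟨⟨lt_of_lt_of_le hc h.1, lt_of_le_of_lt h.2 hd⟩, h⟩


/-! ### smooth functions: Green's formula and Taylor's formula -/

section smooth

variable {u : ℝ → ℝ}

theorem hasDerivAt_int (_hL : 0 < L) (hu : ContDiffOn ℝ (⊤ : ℕ∞) u (Icc 0 L)) {x : ℝ}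
    (hx : x ∈ Ioo 0 L) : HasDerivAt u (derivWithin u (Icc 0 L) x) x := by
  have h := (hu.differentiableOn (by simp)) x (Ioo_subset_Icc_self hx)
  exact h.hasDerivWithinAt.hasDerivAt (Icc_mem_nhds hx.1 hx.2)

theorem contDiffOn_derivWithin_Icc (hL : 0 < L) (hu : ContDiffOn ℝ (⊤ : ℕ∞) u (Icc 0 L)) :
    ContDiffOn ℝ (⊤ : ℕ∞) (derivWithin u (Icc 0 L)) (Icc 0 L) :=
  hu.derivWithin (uniqueDiffOn_Icc hL) (by simp)

theorem contDiffOn_dd (hL : 0 < L) (hu : ContDiffOn ℝ (⊤ : ℕ∞) u (Icc 0 L)) :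
    ContDiffOn ℝ (⊤ : ℕ∞) (dd L u) (Icc 0 L) :=
  contDiffOn_derivWithin_Icc hL (contDiffOn_derivWithin_Icc hL hu)

theorem hasDerivAt_int2 (hL : 0 < L) (hu : ContDiffOn ℝ (⊤ : ℕ∞) u (Icc 0 L)) {x : ℝ}
    (hx : x ∈ Ioo 0 L) : HasDerivAt (derivWithin u (Icc 0 L)) (dd L u x) x :=
  hasDerivAt_int hL (contDiffOn_derivWithin_Icc hL hu) hx

/-- Green's formula on `[c,d] ⊆ (0,L)` -/
theorem green (hL : 0 < L) (hu : ContDiffOn ℝ (⊤ : ℕ∞) u (Icc 0 L)) {c d : ℝ} (hc : 0 < c)
    (hcd : c ≤ d) (hd : d < L) {k k1 k2 : ℝ → ℝ} (hk : ∀ x, HasDerivAt k (k1 x) x)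
    (hk1 : ∀ x, HasDerivAt k1 (k2 x) x) (hk2 : Continuous k2) :
    ∫ x in c..d, (k x * dd L u x - k2 x * u x) =
      (k d * derivWithin u (Icc 0 L) d - k1 d * u d) -
        (k c * derivWithin u (Icc 0 L) c - k1 c * u c) := by
  have hsub : uIcc c d ⊆ Ioo 0 L := by
    rw [uIcc_of_le hcd]
    intro x hx
    exact ⟨lt_of_lt_of_le hc hx.1, lt_of_le_of_lt hx.2 hd⟩
  have h := intervalIntegral.integral_eq_sub_of_hasDerivAt
    (f := fun x => k x * derivWithin u (Icc 0 L) x - k1 x * u x)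
    (f' := fun x => k x * dd L u x - k2 x * u x) (a := c) (b := d) (fun x hx => ?_) ?_
  · exact h
  · have h1 := (hk x).mul (hasDerivAt_int2 hL hu (hsub hx))
    have h2 := (hk1 x).mul (hasDerivAt_int hL hu (hsub hx))
    refine (h1.sub h2).congr_deriv ?_
    ring
  · refine ContinuousOn.intervalIntegrable ?_
    have hs2 : uIcc c d ⊆ Icc 0 L := hsub.trans Ioo_subset_Icc_self
    have c1 : Continuous k := continuous_iff_continuousAt.2 fun x => (hk x).continuousAt
    exact ((c1.continuousOn.mul ((contDiffOn_dd hL hu).continuousOn.mono hs2)).sub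
      (hk2.continuousOn.mul (hu.continuousOn.mono hs2)))

theorem taylor2_80 (hL : 0 < L) (hu : ContDiffOn ℝ (⊤ : ℕ∞) u (Icc 0 L)) {x0 x : ℝ}
    (hx0 : x0 ∈ Ioo 0 L) (hx : x ∈ Ioo 0 L) :
    u x = u x0 + derivWithin u (Icc 0 L) x0 * (x - x0) + ∫ ξ in x0..x, (x - ξ) * dd L u ξ := by
  have hsub : uIcc x0 x ⊆ Ioo 0 L := ordConnected_Ioo.uIcc_subset hx0 hx
  have h := intervalIntegral.integral_eq_sub_of_hasDerivAt
    (f := fun ξ => (x - ξ) * derivWithin u (Icc 0 L) ξ + u ξ)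
    (f' := fun ξ => (x - ξ) * dd L u ξ) (a := x0) (b := x) (fun ξ hξ => ?_) ?_
  · rw [h]; ring
  · have h0 : HasDerivAt (fun ξ : ℝ => x - ξ) (-1) ξ := (hasDerivAt_id ξ).const_sub x
    have h1 := h0.mul (hasDerivAt_int2 hL hu (hsub hξ))
    have h2 := hasDerivAt_int hL hu (hsub hξ)
    refine (h1.add h2).congr_deriv ?_
    ring
  · refine ContinuousOn.intervalIntegrable ?_
    have hs2 : uIcc x0 x ⊆ Icc 0 L := hsub.trans Ioo_subset_Icc_self
    exact (ContinuousOn.mul (by fun_prop) ((contDiffOn_dd hL hu).continuousOn.mono hs2))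

end smooth

/-! ### the two coefficient functionals -/

def kap0 (L x : ℝ) : ℝ := (L / 2 - x) * (4 * x / L - 1) ^ 2
def kap0' (L x : ℝ) : ℝ := -(4 * x / L - 1) ^ 2 + (L / 2 - x) * (2 * (4 * x / L - 1) * (4 / L))
def kap0'' (L x : ℝ) : ℝ := -(4 * (4 * x / L - 1) * (4 / L)) + (L / 2 - x) * (2 * (4 / L) * (4 / L))
def kap1 (L x : ℝ) : ℝ := 3 * (4 * x / L - 1) ^ 2 - 2 * (4 * x / L - 1) ^ 3
def kap1' (L x : ℝ) : ℝ := (6 * (4 * x / L - 1) - 6 * (4 * x / L - 1) ^ 2) * (4 / L)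
def kap1'' (L x : ℝ) : ℝ := (6 - 12 * (4 * x / L - 1)) * (4 / L) * (4 / L)

theorem hs1 (L x : ℝ) : HasDerivAt (fun x : ℝ => 4 * x / L - 1) (4 / L) x := by
  have h := (((hasDerivAt_id x).const_mul (4 / L)).sub_const 1)
  refine (h.congr_deriv (by simp)).congr_of_eventuallyEq (Eventually.of_forall fun y => ?_)
  simp only [id]
  ring

theorem hk0 (L x : ℝ) : HasDerivAt (kap0 L) (kap0' L x) x := by
  have h0 : HasDerivAt (fun ξ : ℝ => L / 2 - ξ) (-1) x := (hasDerivAt_id x).const_sub (L / 2)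
  have h := h0.mul ((hs1 L x).pow 2)
  refine h.congr_deriv ?_
  simp only [kap0', Nat.cast_ofNat, Pi.pow_apply]
  ring

theorem hk0' (L x : ℝ) : HasDerivAt (kap0' L) (kap0'' L x) x := by
  have h0 : HasDerivAt (fun ξ : ℝ => L / 2 - ξ) (-1) x := (hasDerivAt_id x).const_sub (L / 2)
  have h := (((hs1 L x).pow 2).neg).add
    (h0.mul (((hs1 L x).const_mul 2).mul_const (4 / L)))
  refine h.congr_deriv ?_
  simp only [kap0'', Nat.cast_ofNat]
  ring

theorem hk1 (L x : ℝ) : HasDerivAt (kap1 L) (kap1' L x) x := by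
  have h := (((hs1 L x).pow 2).const_mul 3).sub (((hs1 L x).pow 3).const_mul 2)
  refine h.congr_deriv ?_
  simp only [kap1', Nat.cast_ofNat]
  ring

theorem hk1' (L x : ℝ) : HasDerivAt (kap1' L) (kap1'' L x) x := by
  have h := (((hs1 L x).const_mul 6).sub (((hs1 L x).pow 2).const_mul 6)).mul_const (4 / L)
  refine h.congr_deriv ?_
  simp only [kap1'', Nat.cast_ofNat]
  ring

theorem val0 (hL : 0 < L) {u : ℝ → ℝ} (hu : ContDiffOn ℝ (⊤ : ℕ∞) u (Icc 0 L)) :
    ∫ x in (L / 4)..(L / 2), (kap0 L x * dd L u x - kap0'' L x * u x) = u (L / 2) := by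
  rw [green hL hu (by linarith) (by linarith) (by linarith) (hk0 L) (hk0' L)
    (by unfold kap0''; fun_prop)]
  have e1 : 4 * (L / 2) / L - 1 = 1 := by field_simp; norm_num
  have e2 : 4 * (L / 4) / L - 1 = 0 := by field_simp; norm_num
  simp only [kap0, kap0', e1, e2]
  ring

theorem val1 (hL : 0 < L) {u : ℝ → ℝ} (hu : ContDiffOn ℝ (⊤ : ℕ∞) u (Icc 0 L)) :
    ∫ x in (L / 4)..(L / 2), (kap1 L x * dd L u x - kap1'' L x * u x) =
      derivWithin u (Icc 0 L) (L / 2) := by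
  rw [green hL hu (by linarith) (by linarith) (by linarith) (hk1 L) (hk1' L)
    (by unfold kap1''; fun_prop)]
  have e1 : 4 * (L / 2) / L - 1 = 1 := by field_simp; norm_num
  have e2 : 4 * (L / 4) / L - 1 = 0 := by field_simp; norm_num
  simp only [kap1, kap1', e1, e2]
  ring

/-- value at `L/2` -/
def al (L : ℝ) (U Z : HL L) : ℝ :=
  fn L (L / 4) (L / 2) (fun x => kap0 L x / phi0 L x) Z - fn L (L / 4) (L / 2) (kap0'' L) U

/-- derivative at `L/2` -/
def be (L : ℝ) (U Z : HL L) : ℝ :=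
  fn L (L / 4) (L / 2) (fun x => kap1 L x / phi0 L x) Z - fn L (L / 4) (L / 2) (kap1'' L) U

/-- the double primitive from `L/2` -/
def Ph (L x : ℝ) : HL L →L[ℝ] ℝ :=
  open Classical in
  if L / 2 ≤ x then fn L (L / 2) x (fun ξ => (x - ξ) / phi0 L ξ)
  else - fn L x (L / 2) (fun ξ => (x - ξ) / phi0 L ξ)

theorem phi0_pos {x : ℝ} (hx : x ∈ Ioo 0 L) : 0 < phi0 L x := by
  have hL : 0 < L := hx.1.trans hx.2
  have h : x / L < 1 := (div_lt_one hL).2 hx.2
  exact mul_pos hx.1 (by linarith)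

theorem cont_div_phi0 {c d : ℝ} (hc : 0 < c) (hd : d < L) {w : ℝ → ℝ}
    (hw : ContinuousOn w (Icc c d)) : ContinuousOn (fun x => w x / phi0 L x) (Icc c d) := by
  refine hw.div (continuous_phi0 L).continuousOn fun x hx => ?_
  exact (phi0_pos ⟨lt_of_lt_of_le hc hx.1, lt_of_le_of_lt hx.2 hd⟩).ne'

theorem Ph_apply {x : ℝ} (hx : x ∈ Ioo 0 L) (Z : HL L) :
    Ph L x Z = ∫ ξ in (L / 2)..x, (x - ξ) * (Z ξ / phi0 L ξ) := by
  have hL : 0 < L := hx.1.trans hx.2
  unfold Ph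
  split_ifs with h
  · rw [fn_apply (by linarith) h hx.2 (cont_div_phi0 (by linarith) hx.2 (by fun_prop))]
    refine intervalIntegral.integral_congr fun ξ _ => ?_
    ring
  · push Not at h
    rw [neg_apply, fn_apply hx.1 h.le (by linarith)
      (cont_div_phi0 hx.1 (by linarith) (by fun_prop)), ← intervalIntegral.integral_symm]
    refine intervalIntegral.integral_congr fun ξ _ => ?_
    ring

theorem integral_congr_toHL {c d : ℝ} (hc : 0 < c) (hcd : c ≤ d) (hd : d < L) {f : ℝ → ℝ}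
    (hf : MemLp f 2 (mu L)) (w : ℝ → ℝ) :
    ∫ x in c..d, w x * (toHL L f : HL L) x = ∫ x in c..d, w x * f x := by
  refine intervalIntegral.integral_congr_ae ?_
  have h := (ae_restrict_iff' measurableSet_Ioo).1 (ae_mu_iff.1 (coe_toHL hf))
  filter_upwards [h] with x hx hx2
  rw [uIoc_of_le hcd] at hx2
  rw [hx ⟨lt_trans hc hx2.1, lt_of_le_of_lt hx2.2 hd⟩]

theorem memLp_phi0_dd (hL : 0 < L) {u : ℝ → ℝ} (hu : ContDiffOn ℝ (⊤ : ℕ∞) u (Icc 0 L)) :
    MemLp (fun x => phi0 L x * dd L u x) 2 (mu L) :=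
  memLp_of_continuousOn hL ((continuous_phi0 L).continuousOn.mul (contDiffOn_dd hL hu).continuousOn)

theorem coef_smooth (hL : 0 < L) {u : ℝ → ℝ} (hu : ContDiffOn ℝ (⊤ : ℕ∞) u (Icc 0 L))
    {k k2 : ℝ → ℝ} (hk : Continuous k) (hk2 : Continuous k2) :
    fn L (L / 4) (L / 2) (fun x => k x / phi0 L x) (toHL L (fun x => phi0 L x * dd L u x)) -
      fn L (L / 4) (L / 2) k2 (toHL L u) =
    ∫ x in (L / 4)..(L / 2), (k x * dd L u x - k2 x * u x) := by
  have h4 : 0 < L / 4 := by linarith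
  have h42 : L / 4 ≤ L / 2 := by linarith
  have h2 : L / 2 < L := by linarith
  have hs2 : uIcc (L / 4) (L / 2) ⊆ Icc 0 L := by
    rw [uIcc_of_le h42]; exact Icc_subset_Icc (by linarith) (by linarith)
  rw [fn_apply h4 h42 h2 (cont_div_phi0 h4 h2 hk.continuousOn), fn_apply h4 h42 h2 hk2.continuousOn,
    integral_congr_toHL h4 h42 h2 (memLp_phi0_dd hL hu),
    integral_congr_toHL h4 h42 h2 (memLp_of_continuousOn hL hu.continuousOn),
    intervalIntegral.integral_sub]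
  · congr 1
    refine intervalIntegral.integral_congr fun x hx => ?_
    rw [uIcc_of_le h42] at hx
    have := (phi0_pos (L := L) ⟨lt_of_lt_of_le h4 hx.1, lt_of_le_of_lt hx.2 h2⟩).ne'
    field_simp
  · exact (hk.continuousOn.mul ((contDiffOn_dd hL hu).continuousOn.mono hs2)).intervalIntegrable
  · exact (hk2.continuousOn.mul (hu.continuousOn.mono hs2)).intervalIntegrable

/-- representation for smooth functions in terms of functionals on `HL` -/
theorem rep_smooth (hL : 0 < L) {u : ℝ → ℝ} (hu : ContDiffOn ℝ (⊤ : ℕ∞) u (Icc 0 L)) {x : ℝ}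
    (hx : x ∈ Ioo 0 L) :
    u x = al L (toHL L u) (toHL L (fun x => phi0 L x * dd L u x)) +
      be L (toHL L u) (toHL L (fun x => phi0 L x * dd L u x)) * (x - L / 2) +
      Ph L x (toHL L (fun x => phi0 L x * dd L u x)) := by
  have h0 : L / 2 ∈ Ioo 0 L := ⟨by linarith, by linarith⟩
  have e1 : al L (toHL L u) (toHL L (fun x => phi0 L x * dd L u x)) = u (L / 2) := by
    unfold al
    rw [coef_smooth hL hu (k := kap0 L) (k2 := kap0'' L) (by unfold kap0; fun_prop)
      (by unfold kap0''; fun_prop), val0 hL hu]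
  have e2 : be L (toHL L u) (toHL L (fun x => phi0 L x * dd L u x)) =
      derivWithin u (Icc 0 L) (L / 2) := by
    unfold be
    rw [coef_smooth hL hu (k := kap1 L) (k2 := kap1'' L) (by unfold kap1; fun_prop)
      (by unfold kap1''; fun_prop), val1 hL hu]
  rw [e1, e2, taylor2_80 hL hu h0 hx, Ph_apply hx]
  congr 1
  refine intervalIntegral.integral_congr_ae ?_
  have h := (ae_restrict_iff' measurableSet_Ioo).1 (ae_mu_iff.1 (coe_toHL (memLp_phi0_dd hL hu)))
  have hsub : uIcc (L / 2) x ⊆ Ioo 0 L := ordConnected_Ioo.uIcc_subset h0 hx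
  filter_upwards [h] with y hy hy2
  have hy3 : y ∈ Ioo 0 L := hsub (uIoc_subset_uIcc hy2)
  rw [hy hy3]
  have := (phi0_pos hy3).ne'
  field_simp

/-! ### passage to the limit -/

theorem tendsto_toHL80 {u : ℕ → ℝ → ℝ} (hu : ∀ k, MemLp (u k) 2 (mu L)) (U : HL L)
    (h : Tendsto (fun k => ∫⁻ x, ENNReal.ofReal ((u k x - U x) ^ 2) ∂(mu L)) atTop (𝓝 0)) :
    Tendsto (fun k => toHL L (u k)) atTop (𝓝 U) := by
  rw [tendsto_iff_edist_tendsto_0]
  have e : ∀ k, edist (toHL L (u k)) U =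
      (∫⁻ x, ENNReal.ofReal ((u k x - U x) ^ 2) ∂(mu L)) ^ (1 / (2 : ℝ)) := by
    intro k
    rw [Lp.edist_def, eLpNorm_congr_ae (g := fun x => u k x - U x) (by
      filter_upwards [coe_toHL (hu k)] with x hx
      simp only [Pi.sub_apply, hx]),
      eLpNorm_eq_lintegral_rpow_enorm_toReal (by norm_num) (by norm_num)]
    simp only [ENNReal.toReal_ofNat]
    congr 1
    refine lintegral_congr fun x => ?_
    rw [Real.enorm_eq_ofReal_abs, ENNReal.ofReal_rpow_of_nonneg (abs_nonneg _) (by norm_num)]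
    congr 1
    rw [Real.rpow_ofNat, sq_abs]
  simp_rw [e]
  have h2 := (ENNReal.continuous_rpow_const (y := 1 / (2 : ℝ))).tendsto 0
  rw [ENNReal.zero_rpow_of_pos (by norm_num)] at h2
  exact h2.comp h

/-- **representation**: an element of the graph space is a double primitive. -/
theorem rep_inV (hL : 0 < L) {U Z : HL L} (h : InV L U Z) :
    ∀ᵐ x ∂(volume.restrict (Ioo 0 L)),
      U x = al L U Z + be L U Z * (x - L / 2) +
        ∫ ξ in (L / 2)..x, (x - ξ) * (Z ξ / phi0 L ξ) := by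
  obtain ⟨u, hu, h1, h2⟩ := h
  have t1 : Tendsto (fun k => toHL L (u k)) atTop (𝓝 U) :=
    tendsto_toHL80 (fun k => memLp_of_continuousOn hL (hu k).continuousOn) U h1
  have t2 : Tendsto (fun k => toHL L (fun x => phi0 L x * dd L (u k) x)) atTop (𝓝 Z) :=
    tendsto_toHL80 (fun k => memLp_phi0_dd hL (hu k)) Z h2
  have ta : Tendsto (fun k => al L (toHL L (u k)) (toHL L (fun x => phi0 L x * dd L (u k) x)))
      atTop (𝓝 (al L U Z)) := by
    unfold al
    exact (((fn L (L / 4) (L / 2) _).continuous.tendsto _).comp t2).sub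
      (((fn L (L / 4) (L / 2) _).continuous.tendsto _).comp t1)
  have tb : Tendsto (fun k => be L (toHL L (u k)) (toHL L (fun x => phi0 L x * dd L (u k) x)))
      atTop (𝓝 (be L U Z)) := by
    unfold be
    exact (((fn L (L / 4) (L / 2) _).continuous.tendsto _).comp t2).sub
      (((fn L (L / 4) (L / 2) _).continuous.tendsto _).comp t1)
  have tm : TendstoInMeasure (mu L) (fun k => ((toHL L (u k) : HL L) : ℝ → ℝ)) atTop
      (U : ℝ → ℝ) :=
    tendstoInMeasure_of_tendsto_Lp t1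
  obtain ⟨ns, hns, hae⟩ := tm.exists_seq_tendsto_ae
  have hall : ∀ᵐ x ∂(mu L), ∀ k, (toHL L (u k) : HL L) x = u k x :=
    ae_all_iff.2 fun k => coe_toHL (memLp_of_continuousOn hL (hu k).continuousOn)
  have h3 := ae_mu_iff.1 hae
  have h4 := ae_mu_iff.1 hall
  filter_upwards [h3, h4, ae_restrict_mem measurableSet_Ioo] with x hx hx2 hx3
  have l1 : Tendsto (fun k => u (ns k) x) atTop (𝓝 (U x)) := by
    refine hx.congr fun k => ?_
    exact hx2 (ns k)
  have l2 : Tendsto (fun k => al L (toHL L (u k)) (toHL L (fun x => phi0 L x * dd L (u k) x)) +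
      be L (toHL L (u k)) (toHL L (fun x => phi0 L x * dd L (u k) x)) * (x - L / 2) +
      Ph L x (toHL L (fun x => phi0 L x * dd L (u k) x))) atTop
      (𝓝 (al L U Z + be L U Z * (x - L / 2) + Ph L x Z)) :=
    (ta.add (tb.mul_const _)).add (((Ph L x).continuous.tendsto _).comp t2)
  rw [← Ph_apply hx3]
  refine tendsto_nhds_unique l1 ?_
  have := l2.comp hns.tendsto_atTop
  refine this.congr fun k => ?_
  exact (rep_smooth hL (hu (ns k)) hx3).symm

theorem contDiffOn_al {s : Set ℝ} {U Z : ℝ → HL L} (hU : ContDiffOn ℝ (⊤ : ℕ∞) U s)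
    (hZ : ContDiffOn ℝ (⊤ : ℕ∞) Z s) : ContDiffOn ℝ (⊤ : ℕ∞) (fun τ => al L (U τ) (Z τ)) s := by
  unfold al
  exact ((fn L (L / 4) (L / 2) _).contDiff.comp_contDiffOn hZ).sub
    ((fn L (L / 4) (L / 2) _).contDiff.comp_contDiffOn hU)

theorem contDiffOn_be {s : Set ℝ} {U Z : ℝ → HL L} (hU : ContDiffOn ℝ (⊤ : ℕ∞) U s)
    (hZ : ContDiffOn ℝ (⊤ : ℕ∞) Z s) : ContDiffOn ℝ (⊤ : ℕ∞) (fun τ => be L (U τ) (Z τ)) s := by
  unfold be
  exact ((fn L (L / 4) (L / 2) _).contDiff.comp_contDiffOn hZ).sub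
    ((fn L (L / 4) (L / 2) _).contDiff.comp_contDiffOn hU)

end Crest.Agent.R213.B
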