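import Crest.Agent.R213.B.TRep_Mg
import Crest.Agent.R213.B.Rep
import Crest.Agent.R213.J310
import Crest.Agent.R213.J0
import Crest.Agent.R213.J1
import Crest.Agent.R213.B.RegOf
import Crest.Agent.R213.Defs
import Crest.Agent.R213.B.Asm

-- ▼ part R213/B/TimeReg
section

/-!
Row 213, part B1: the abstract time regularity theorem (helper418; TRep by helper182).
-/

set_option autoImplicit false

open Set MeasureTheory Filter Topology
open scoped RealInnerProductSpace ContDiff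

noncomputable section

namespace Crest.Agent.R213.B

theorem time_reg {V H K : Type} [NormedAddCommGroup V] [InnerProductSpace ℝ V] [CompleteSpace V]
    [NormedAddCommGroup H] [InnerProductSpace ℝ H] [CompleteSpace H]
    [NormedAddCommGroup K] [InnerProductSpace ℝ K] [CompleteSpace K]
    (J : V →L[ℝ] H) (B : V →L[ℝ] K) {C : ℝ} (hJB : ∀ v, ‖v‖ ^ 2 ≤ C * (‖J v‖ ^ 2 + ‖B v‖ ^ 2))
    {N : ℝ → K →L[ℝ] K} (hN : ContDiffOn ℝ ∞ N (Ioo 0 1))
    (hNs : ∀ τ ∈ Ioo (0 : ℝ) 1, ∀ x y, ⟪N τ x, y⟫ = ⟪x, N τ y⟫)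
    {c : ℝ} (hc : 0 < c) (hNc : ∀ τ ∈ Ioo (0 : ℝ) 1, ∀ x, c * ‖x‖ ^ 2 ≤ ⟪N τ x, x⟫)
    {E : ℝ → H} (hE : ContDiffOn ℝ ∞ E (Ioo 0 1)) {R : ℝ → K} (hR : ContDiffOn ℝ ∞ R (Ioo 0 1))
    {w : ℝ → V} (hw : ∀ a b : ℝ, 0 < a → b < 1 → MemLp w 2 (volume.restrict (Icc a b)))
    (hweak : ∀ χ : ℝ → ℝ, ContDiff ℝ ∞ χ → HasCompactSupport χ → tsupport χ ⊆ Ioo 0 1 → ∀ v : V,
      ∫ τ, (deriv χ τ * ⟪J v, J (w τ)⟫ + χ τ * ⟪B v, N τ (B (w τ))⟫) =
        ∫ τ, χ τ * (⟪E τ, J v⟫ + ⟪R τ, B v⟫)) :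
    ∃ w' : ℝ → V, ContDiffOn ℝ ∞ w' (Ioo 0 1) ∧ (∀ᵐ τ, τ ∈ Ioo (0 : ℝ) 1 → w' τ = w τ) ∧
      ∀ τ ∈ Ioo (0 : ℝ) 1, ∀ v : V,
        -⟪J v, J (deriv w' τ)⟫ + ⟪B v, N τ (B (w' τ))⟫ = ⟪E τ, J v⟫ + ⟪R τ, B v⟫ := by
  have hrep : ∀ χ : ℝ → ℝ, ContDiff ℝ ∞ χ → HasCompactSupport χ → tsupport χ ⊆ Ioo 0 1 →
      ∃ x : ℝ → V, ContDiff ℝ ∞ x ∧ x =ᵐ[volume] fun τ => χ τ • w τ := by
    intro χ hχ hχc hχs
    obtain ⟨s, hs0, hs⟩ := chain_of_weak J B hJB hN hNs hc hNc hE hR hw hweak hχ hχc hχs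
    obtain ⟨x', hx', hx''⟩ := smooth_rep (fun n => (s n : ℝ → V)) (fun n => locInt (s n))
      (fun n θ hθ hθc => weak_of_gen (hs n) hθ hθc)
    exact ⟨x', hx', hx''.trans hs0⟩
  obtain ⟨w', hw', hww'⟩ := glue hrep
  refine ⟨w', hw', hww', ?_⟩
  apply strong_of_weak J B hN hE hR hw'
  intro χ hχ hχc hχs v
  rw [← hweak χ hχ hχc hχs v]
  apply integral_congr_ae
  filter_upwards [hww'] with τ h
  by_cases hτ : τ ∈ Ioo (0 : ℝ) 1
  · rw [h hτ]
  · have h1 : τ ∉ tsupport χ := fun h' => hτ (hχs h')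
    have h2 : χ τ = 0 := image_eq_zero_of_notMem_tsupport h1
    have h3 : deriv χ τ = 0 :=
      image_eq_zero_of_notMem_tsupport fun h' => h1 (tsupport_deriv_subset (𝕜 := ℝ) h')
    rw [h2, h3]
    simp

end Crest.Agent.R213.B
end
end

-- ▼ part R213/B/RepData
section

/-!
# Row 213, part B3a (helper80): the tested equation gives `x⁹ φ² (δ'' - ht) = Kint (E + δ_τ)` and the
representation of `U` with smooth coefficients.
-/

set_option autoImplicit false

open Set MeasureTheory Filter Topology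
open scoped RealInnerProductSpace ENNReal

noncomputable section

namespace Crest.Agent.R213.B

variable {L : ℝ}

theorem dd_const (_hL : 0 < L) (c : ℝ) {x : ℝ} (hx : x ∈ Icc 0 L) : dd L (fun _ => c) x = 0 := by
  unfold dd
  have h : ∀ y ∈ Icc 0 L, derivWithin (fun _ : ℝ => c) (Icc 0 L) y = 0 := fun y _ => by simp
  rw [derivWithin_congr h (h x hx)]
  simp

theorem derivWithin_of_hasDerivAt (hL : 0 < L) {f : ℝ → ℝ} {a x : ℝ} (hx : x ∈ Icc 0 L)
    (h : HasDerivAt f a x) : derivWithin f (Icc 0 L) x = a :=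
  h.hasDerivWithinAt.derivWithin (uniqueDiffOn_Icc hL x hx)

theorem dd_of_hasDerivAt (hL : 0 < L) {f f1 f2 : ℝ → ℝ} (h1 : ∀ x, HasDerivAt f (f1 x) x)
    (h2 : ∀ x, HasDerivAt f1 (f2 x) x) {x : ℝ} (hx : x ∈ Icc 0 L) : dd L f x = f2 x := by
  unfold dd
  have h : ∀ y ∈ Icc 0 L, derivWithin f (Icc 0 L) y = f1 y := fun y hy =>
    derivWithin_of_hasDerivAt hL hy (h1 y)
  rw [derivWithin_congr h (h x hx)]
  exact derivWithin_of_hasDerivAt hL hx (h2 x)

/-- positive part kernel -/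
def pk (x s : ℝ) : ℝ := max (x - s) 0

theorem continuous_pk : Continuous (fun p : ℝ × ℝ => pk p.1 p.2) := by
  unfold pk; fun_prop

theorem pk_sub (x s : ℝ) : pk x s = (x - s) + pk s x := by
  unfold pk
  rcases le_total x s with h | h
  · rw [max_eq_right (by linarith), max_eq_left (by linarith)]; ring
  · rw [max_eq_left (by linarith), max_eq_right (by linarith)]; ring

theorem pk_nonneg (x s : ℝ) : 0 ≤ pk x s := le_max_right _ _

theorem pk_le {x s : ℝ} (hx : x ∈ Ioo 0 L) (hs : s ∈ Ioo 0 L) : ‖pk x s‖ ≤ L := by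
  rw [Real.norm_of_nonneg (pk_nonneg x s)]
  exact max_le (by linarith [hx.2, hs.1]) (hx.1.trans hx.2).le

/-- `∫_{(0,L)} (s-x)⁺ w(x) dx = ∫_0^s (s-x) w(x) dx` -/
theorem integral_pk {w : ℝ → ℝ} {s : ℝ} (hs : s ∈ Ioo 0 L) :
    ∫ x in Ioo 0 L, pk s x * w x = ∫ x in (0 : ℝ)..s, (s - x) * w x := by
  rw [intervalIntegral.integral_of_le hs.1.le, integral_Ioc_eq_integral_Ioo]
  have e1 : ∫ x in Ioo 0 L, pk s x * w x = ∫ x in Ioo 0 L, (Ioo 0 s).indicator
      (fun x => (s - x) * w x) x := by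
    refine setIntegral_congr_fun measurableSet_Ioo fun x hx => ?_
    by_cases h : x ∈ Ioo 0 s
    · rw [indicator_of_mem h]
      simp only [pk]
      rw [max_eq_left (by linarith [h.2])]
    · rw [indicator_of_notMem h]
      have h2 : s ≤ x := by
        by_contra h3
        push Not at h3
        exact h ⟨hx.1, h3⟩
      simp only [pk]
      rw [max_eq_right (by linarith)]
      ring
  rw [e1, setIntegral_indicator measurableSet_Ioo]
  congr 2
  ext x
  constructor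
  · rintro ⟨_, h⟩; exact h
  · intro h
    exact ⟨⟨h.1, h.2.trans hs.2⟩, h⟩

/-- `w` integrable on `(0,L)` with vanishing moments: pairing with a double primitive. -/
theorem pairing_Kint {w : ℝ → ℝ} (hw : IntegrableOn w (Ioo 0 L))
    (h0 : ∫ x in Ioo 0 L, w x = 0) (h1 : ∫ x in Ioo 0 L, x * w x = 0)
    {χ : ℝ → ℝ} (hχ : Continuous χ) :
    ∫ x in Ioo 0 L, (∫ s in (0 : ℝ)..x, (x - s) * χ s) * w x =
      ∫ s in Ioo 0 L, χ s * ∫ x in (0 : ℝ)..s, (s - x) * w x := by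
  have hχi : IntegrableOn χ (Ioo 0 L) := by
    by_cases hL : 0 ≤ L
    · exact (hχ.integrableOn_Icc (a := 0) (b := L)).mono_set Ioo_subset_Icc_self
    · rw [Ioo_eq_empty (by linarith)]; simp
  have hprod : Integrable (fun p : ℝ × ℝ => pk p.1 p.2 * (w p.1 * χ p.2))
      ((volume.restrict (Ioo 0 L)).prod (volume.restrict (Ioo 0 L))) := by
    refine Integrable.bdd_mul (c := L) (Integrable.mul_prod hw hχi) ?_ ?_
    · exact continuous_pk.aestronglyMeasurable
    · rw [Measure.prod_restrict]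
      filter_upwards [ae_restrict_mem (measurableSet_Ioo.prod measurableSet_Ioo)] with p hp
      exact pk_le hp.1 hp.2
  have e1 : ∫ x in Ioo 0 L, (∫ s in (0 : ℝ)..x, (x - s) * χ s) * w x =
      ∫ x in Ioo 0 L, ∫ s in Ioo 0 L, pk x s * (w x * χ s) := by
    refine setIntegral_congr_fun measurableSet_Ioo fun x hx => ?_
    show (∫ s in (0 : ℝ)..x, (x - s) * χ s) * w x = ∫ s in Ioo 0 L, pk x s * (w x * χ s)
    rw [← integral_pk hx, mul_comm, ← integral_const_mul]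
    refine integral_congr_ae (Eventually.of_forall fun s => ?_)
    show w x * (pk x s * χ s) = pk x s * (w x * χ s)
    ring
  rw [e1, integral_integral_swap (f := fun x s => pk x s * (w x * χ s)) hprod]
  refine setIntegral_congr_fun measurableSet_Ioo fun s hs => ?_
  show ∫ x in Ioo 0 L, pk x s * (w x * χ s) = χ s * ∫ x in (0 : ℝ)..s, (s - x) * w x
  rw [← integral_pk hs]
  have hxw : IntegrableOn (fun x => x * w x) (Ioo 0 L) := by
    refine Integrable.bdd_mul (c := L) hw continuous_id.aestronglyMeasurable ?_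
    filter_upwards [ae_restrict_mem measurableSet_Ioo] with x hx
    show ‖x‖ ≤ L
    rw [Real.norm_of_nonneg hx.1.le]
    exact hx.2.le
  have hpw : IntegrableOn (fun x => pk s x * w x) (Ioo 0 L) := by
    refine Integrable.bdd_mul (c := L) hw ?_ ?_
    · exact (continuous_pk.comp (by fun_prop : Continuous (fun x : ℝ => (s, x)))).aestronglyMeasurable
    · filter_upwards [ae_restrict_mem measurableSet_Ioo] with x hx
      exact pk_le hs hx
  have e2 : ∀ x, pk x s * (w x * χ s) = χ s * (x * w x - s * w x + pk s x * w x) := by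
    intro x
    rw [pk_sub x s]; ring
  simp_rw [e2]
  rw [integral_const_mul, integral_add (f := fun x => x * w x - s * w x)
    (hxw.sub (hw.const_mul s)) hpw, integral_sub hxw (hw.const_mul s), integral_const_mul, h0, h1]
  ring

/-- continuity of `Kint` for integrable data -/
theorem continuousOn_K {w : ℝ → ℝ} (hw : IntegrableOn w (Ioo 0 L)) :
    ContinuousOn (fun s => ∫ x in (0 : ℝ)..s, (s - x) * w x) (Ioo 0 L) := by
  have h : Continuous (fun s => ∫ x in Ioo 0 L, max (min (s - x) L) 0 * w x) := by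
    refine continuous_of_dominated (bound := fun x => |L| * |w x|) (fun s => ?_) (fun s => ?_) ?_ ?_
    · exact AEStronglyMeasurable.mul (by
        have : Continuous (fun x : ℝ => max (min (s - x) L) 0) := by fun_prop
        exact this.aestronglyMeasurable) hw.aestronglyMeasurable
    · refine Eventually.of_forall fun x => ?_
      rw [norm_mul, Real.norm_eq_abs, Real.norm_eq_abs]
      refine mul_le_mul_of_nonneg_right ?_ (abs_nonneg _)
      rw [abs_of_nonneg (le_max_right _ _)]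
      exact max_le ((min_le_right _ _).trans (le_abs_self L)) (abs_nonneg L)
    · exact (hw.norm.const_mul |L|)
    · refine Eventually.of_forall fun x => ?_
      fun_prop
  refine h.continuousOn.congr fun s hs => ?_
  simp only
  rw [← integral_pk hs]
  refine setIntegral_congr_fun measurableSet_Ioo fun x hx => ?_
  simp only [pk]
  rw [min_eq_left (by linarith [hs.2, hx.1])]

/-- the tested equation gives the integrated equation -/
theorem eq_of_tested (hL : 0 < L) {F G : ℝ → ℝ} (hF : Integrable F (mu L))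
    (hG : Integrable (fun x => phi0 L x * G x) (mu L))
    (heq : ∀ ζ : ℝ → ℝ, ContDiffOn ℝ (⊤ : ℕ∞) ζ (Icc 0 L) →
      ∫ x, ζ x * F x ∂(mu L) = ∫ x, (phi0 L x * dd L ζ x) * G x ∂(mu L)) :
    (∫ x in (0 : ℝ)..L, x ^ 9 * F x = 0) ∧ (∫ x in (0 : ℝ)..L, x ^ 10 * F x = 0) ∧
      ∀ᵐ x ∂(volume.restrict (Ioo 0 L)), x ^ 9 * phi0 L x * G x = Kint F x := by
  have hFi : IntegrableOn (fun x => x ^ 9 * F x) (Ioo 0 L) := by
    have h := hF
    unfold mu at h
    rw [integrable_withDensity_iff_integrable_smul' measurable_w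
      (Eventually.of_forall fun _ => ENNReal.ofReal_lt_top)] at h
    refine IntegrableOn.congr_fun h (fun x hx => ?_) measurableSet_Ioo
    simp only [smul_eq_mul]
    rw [ENNReal.toReal_ofReal (pow_nonneg hx.1.le 9)]
  have hGi : IntegrableOn (fun x => x ^ 9 * (phi0 L x * G x)) (Ioo 0 L) := by
    have h := hG
    unfold mu at h
    rw [integrable_withDensity_iff_integrable_smul' measurable_w
      (Eventually.of_forall fun _ => ENNReal.ofReal_lt_top)] at h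
    refine IntegrableOn.congr_fun h (fun x hx => ?_) measurableSet_Ioo
    simp only [smul_eq_mul]
    rw [ENNReal.toReal_ofReal (pow_nonneg hx.1.le 9)]
  have m0 : ∫ x in Ioo 0 L, x ^ 9 * F x = 0 := by
    have h := heq (fun _ => 1) contDiffOn_const
    rw [integral_mu, integral_mu] at h
    have e : ∫ x in Ioo 0 L, x ^ 9 * ((phi0 L x * dd L (fun _ => (1 : ℝ)) x) * G x) = 0 := by
      rw [setIntegral_congr_fun (g := fun _ => (0 : ℝ)) measurableSet_Ioo fun x hx => ?_]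
      · simp
      · simp only
        rw [dd_const hL 1 (Ioo_subset_Icc_self hx)]; ring
    rw [e] at h
    simpa using h
  have m1 : ∫ x in Ioo 0 L, x * (x ^ 9 * F x) = 0 := by
    have h := heq (fun x => x) contDiff_id.contDiffOn
    rw [integral_mu, integral_mu] at h
    have e : ∫ x in Ioo 0 L, x ^ 9 * ((phi0 L x * dd L (fun x => x) x) * G x) = 0 := by
      rw [setIntegral_congr_fun (g := fun _ => (0 : ℝ)) measurableSet_Ioo fun x hx => ?_]
      · simp
      · simp only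
        rw [dd_of_hasDerivAt (f := fun x => x) hL (f1 := fun _ => 1) (f2 := fun _ => 0)
          (fun y => hasDerivAt_id' y) (fun y => hasDerivAt_const y 1) (Ioo_subset_Icc_self hx)]
        ring
    rw [e] at h
    refine Eq.trans ?_ h
    refine setIntegral_congr_fun measurableSet_Ioo fun x hx => ?_
    show x * (x ^ 9 * F x) = x ^ 9 * (x * F x)
    ring
  refine ⟨?_, ?_, ?_⟩
  · rw [intervalIntegral.integral_of_le hL.le, integral_Ioc_eq_integral_Ioo, m0]
  · rw [intervalIntegral.integral_of_le hL.le, integral_Ioc_eq_integral_Ioo]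
    refine Eq.trans ?_ m1
    refine setIntegral_congr_fun measurableSet_Ioo fun x hx => ?_
    show x ^ 10 * F x = x * (x ^ 9 * F x)
    ring
  · have hKc : ContinuousOn (Kint F) (Ioo 0 L) := by
      have := continuousOn_K hFi
      refine this.congr fun s hs => ?_
      unfold Kint
      refine intervalIntegral.integral_congr fun x _ => ?_
      show (s - x) * x ^ 9 * F x = (s - x) * (x ^ 9 * F x)
      ring
    have hloc : LocallyIntegrableOn (fun x => x ^ 9 * (phi0 L x * G x) - Kint F x) (Ioo 0 L) := by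
      refine hGi.locallyIntegrableOn.sub ?_
      exact hKc.locallyIntegrableOn measurableSet_Ioo
    have key := isOpen_Ioo.ae_eq_zero_of_integral_contDiff_smul_eq_zero hloc (fun χ hχ hχc hχs => ?_)
    · rw [ae_restrict_iff' measurableSet_Ioo]
      filter_upwards [key] with x hx hx2
      have := hx hx2
      linarith
    · -- the test function
      have hc : Continuous χ := hχ.continuous
      set P1 : ℝ → ℝ := fun x => ∫ s in (0 : ℝ)..x, χ s with hP1
      set P2 : ℝ → ℝ := fun x => ∫ s in (0 : ℝ)..x, (x - s) * χ s with hP2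
      have d1 : ∀ x, HasDerivAt P1 (χ x) x := fun x =>
        intervalIntegral.integral_hasDerivAt_right (hc.intervalIntegrable _ _)
          hc.stronglyMeasurable.stronglyMeasurableAtFilter hc.continuousAt
      have e2 : P2 = fun x => x * P1 x - ∫ s in (0 : ℝ)..x, s * χ s := by
        funext x
        simp only [hP2, hP1]
        rw [← intervalIntegral.integral_const_mul, ← intervalIntegral.integral_sub]
        · refine intervalIntegral.integral_congr fun s _ => ?_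
          show (x - s) * χ s = x * χ s - s * χ s
          ring
        · exact (hc.const_smul x).intervalIntegrable _ _
        · exact (continuous_id.mul hc).intervalIntegrable _ _
      have d2 : ∀ x, HasDerivAt P2 (P1 x) x := by
        intro x
        have hc2 : Continuous (fun s => s * χ s) := by fun_prop
        have h3 : HasDerivAt (fun x => ∫ s in (0 : ℝ)..x, s * χ s) (x * χ x) x :=
          intervalIntegral.integral_hasDerivAt_right (hc2.intervalIntegrable _ _)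
            hc2.stronglyMeasurable.stronglyMeasurableAtFilter hc2.continuousAt
        rw [e2]
        refine (((hasDerivAt_id x).mul (d1 x)).sub h3).congr_deriv ?_
        simp
      have s1 : ContDiff ℝ (⊤ : ℕ∞) P1 := by
        rw [contDiff_infty_iff_deriv]
        refine ⟨fun x => (d1 x).differentiableAt, ?_⟩
        have : deriv P1 = χ := funext fun x => (d1 x).deriv
        rw [this]; exact hχ
      have s2 : ContDiff ℝ (⊤ : ℕ∞) P2 := by
        rw [contDiff_infty_iff_deriv]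
        refine ⟨fun x => (d2 x).differentiableAt, ?_⟩
        have : deriv P2 = P1 := funext fun x => (d2 x).deriv
        rw [this]; exact s1
      have h := heq P2 s2.contDiffOn
      rw [integral_mu, integral_mu] at h
      have e3 : ∫ x in Ioo 0 L, x ^ 9 * (P2 x * F x) =
          ∫ s in Ioo 0 L, χ s * Kint F s := by
        have hp := pairing_Kint hFi m0 m1 hc
        rw [show (∫ x in Ioo 0 L, x ^ 9 * (P2 x * F x)) = ∫ x in Ioo 0 L,
          (∫ s in (0 : ℝ)..x, (x - s) * χ s) * (x ^ 9 * F x) from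
            setIntegral_congr_fun measurableSet_Ioo fun x _ => by simp only [hP2]; ring, hp]
        refine setIntegral_congr_fun measurableSet_Ioo fun s _ => ?_
        show χ s * _ = χ s * _
        congr 1
        unfold Kint
        refine intervalIntegral.integral_congr fun x _ => ?_
        show (s - x) * (x ^ 9 * F x) = (s - x) * x ^ 9 * F x
        ring
      have e4 : ∫ x in Ioo 0 L, x ^ 9 * ((phi0 L x * dd L P2 x) * G x) =
          ∫ x in Ioo 0 L, χ x * (x ^ 9 * (phi0 L x * G x)) := by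
        refine setIntegral_congr_fun measurableSet_Ioo fun x hx => ?_
        show x ^ 9 * ((phi0 L x * dd L P2 x) * G x) = χ x * (x ^ 9 * (phi0 L x * G x))
        rw [dd_of_hasDerivAt hL d2 d1 (Ioo_subset_Icc_self hx)]
        ring
      rw [e3, e4] at h
      have hsup : ∀ x, x ∉ Ioo 0 L → χ x = 0 := fun x hx =>
        image_eq_zero_of_notMem_tsupport fun h => hx (hχs h)
      have e5 : ∫ x, χ x • (x ^ 9 * (phi0 L x * G x) - Kint F x) =
          ∫ x in Ioo 0 L, χ x • (x ^ 9 * (phi0 L x * G x) - Kint F x) := by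
        symm
        refine setIntegral_eq_integral_of_forall_compl_eq_zero fun x hx => ?_
        rw [hsup x hx, zero_smul]
      rw [e5]
      simp only [smul_eq_mul, mul_sub]
      obtain ⟨C, hC⟩ := hc.bounded_above_of_compact_support hχc
      rw [integral_sub, ← h, sub_self]
      · refine Integrable.bdd_mul (c := C) hGi hc.aestronglyMeasurable
          (Eventually.of_forall hC)
      · have hcs : IsCompact (tsupport χ) := hχc
        have : IntegrableOn (fun x => χ x * Kint F x) (tsupport χ) :=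
          ((hc.continuousOn).mul (hKc.mono hχs)).integrableOn_compact hcs
        have h2 : Integrable (fun x => χ x * Kint F x) volume := by
          rw [← integrableOn_univ]
          refine (integrableOn_iff_integrable_of_support_subset ?_).1 this |>.integrableOn
          intro x hx
          refine subset_tsupport _ ?_
          intro h0
          apply hx
          simp only [h0, zero_mul]
        exact h2.integrableOn

/-- **B3a**: data for the bootstrap theorem. -/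
theorem rep_data {c0 C0 : ℝ} {g : ℝ → ℝ} {φ m : ℝ → ℝ → ℝ} (hB : Bg c0 C0 g L φ m)
    (hc0 : 0 < c0) {E ht : ℝ → ℝ → ℝ} (hE : Sm (Ioo 0 1) L E) (hh : Sm (Ioo 0 1) L ht)
    {U Z : ℝ → HL L} (hU : ContDiffOn ℝ (⊤ : ℕ∞) U (Ioo 0 1))
    (hZ : ContDiffOn ℝ (⊤ : ℕ∞) Z (Ioo 0 1))
    (hV : ∀ τ ∈ Ioo (0 : ℝ) 1, InV L (U τ) (Z τ))
    (heq : ∀ τ ∈ Ioo (0 : ℝ) 1, ∀ ζ : ℝ → ℝ, ContDiffOn ℝ (⊤ : ℕ∞) ζ (Icc 0 L) →
        ∫ x, ζ x * (E τ x + (deriv U τ : HL L) x) ∂(mu L) =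
          ∫ x, (x * (1 - x / L) * dd L ζ x) *
            (m τ x ^ 2 * ((Z τ) x - x * (1 - x / L) * ht τ x)) ∂(mu L)) :
    ∃ a b : ℝ → ℝ, ContDiffOn ℝ (⊤ : ℕ∞) a (Ioo 0 1) ∧ ContDiffOn ℝ (⊤ : ℕ∞) b (Ioo 0 1) ∧
      (∀ τ ∈ Ioo (0 : ℝ) 1, ∀ᵐ x ∂(volume.restrict (Ioo 0 L)),
        (U τ) x = a τ + b τ * (x - L / 2) + ∫ ξ in (L / 2)..x, (x - ξ) *
          (ht τ ξ + Kint (fun z => E τ z + (deriv U τ : HL L) z) ξ / (ξ ^ 9 * φ τ ξ ^ 2))) ∧
      (∀ τ ∈ Ioo (0 : ℝ) 1, ∫ x in (0 : ℝ)..L, x ^ 9 * (E τ x + (deriv U τ : HL L) x) = 0) ∧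
      (∀ τ ∈ Ioo (0 : ℝ) 1, ∫ x in (0 : ℝ)..L, x ^ 10 * (E τ x + (deriv U τ : HL L) x) = 0) ∧
      (∀ τ ∈ Ioo (0 : ℝ) 1, ∀ᵐ x ∂(volume.restrict (Ioo 0 L)),
        (Z τ) x = x * (1 - x / L) *
          (ht τ x + Kint (fun z => E τ z + (deriv U τ : HL L) z) x / (x ^ 9 * φ τ x ^ 2))) := by
  have hL : 0 < L := lt_of_lt_of_le (by norm_num) hB.L_ge
  have hall : ∀ τ ∈ Ioo (0 : ℝ) 1,
      (∫ x in (0 : ℝ)..L, x ^ 9 * (E τ x + (deriv U τ : HL L) x) = 0) ∧
      (∫ x in (0 : ℝ)..L, x ^ 10 * (E τ x + (deriv U τ : HL L) x) = 0) ∧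
      ∀ᵐ x ∂(volume.restrict (Ioo 0 L)), x ^ 9 * phi0 L x *
        (m τ x ^ 2 * ((Z τ) x - x * (1 - x / L) * ht τ x)) =
          Kint (fun z => E τ z + (deriv U τ : HL L) z) x := by
    intro τ hτ
    refine eq_of_tested hL (F := fun x => E τ x + (deriv U τ : HL L) x)
      (G := fun x => m τ x ^ 2 * ((Z τ) x - x * (1 - x / L) * ht τ x)) ?_ ?_ (heq τ hτ)
    · have h1 : MemLp (E τ) 2 (mu L) := memLp_of_continuousOn hL (hE.continuousOn_right hτ)
      have h2 : MemLp (fun x => (deriv U τ : HL L) x) 2 (mu L) := Lp.memLp _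
      exact (h1.add h2).integrable (by norm_num)
    · have hmc : ContinuousOn (m τ) (Icc 0 L) := hB.sm.continuousOn_right hτ
      have hhc : ContinuousOn (ht τ) (Icc 0 L) := hh.continuousOn_right hτ
      have h1 : MemLp (fun x => phi0 L x * m τ x ^ 2) 2 (mu L) :=
        memLp_of_continuousOn hL ((continuous_phi0 L).continuousOn.mul (hmc.pow 2))
      have h2 : MemLp (fun x => (Z τ) x) 2 (mu L) := Lp.memLp _
      have h3 : MemLp (fun x => phi0 L x * m τ x ^ 2 * (x * (1 - x / L) * ht τ x)) 2 (mu L) := by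
        refine memLp_of_continuousOn hL ?_
        refine ((continuous_phi0 L).continuousOn.mul (hmc.pow 2)).mul
          (ContinuousOn.mul (by fun_prop) hhc)
      have h4 : Integrable (fun x => phi0 L x * m τ x ^ 2 * (Z τ) x) (mu L) :=
        h1.integrable_mul h2
      have h5 := h4.sub (h3.integrable (by norm_num))
      refine h5.congr (Eventually.of_forall fun x => ?_)
      simp only [Pi.sub_apply]
      ring
  have hZae : ∀ τ ∈ Ioo (0 : ℝ) 1, ∀ᵐ x ∂(volume.restrict (Ioo 0 L)),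
        (Z τ) x = x * (1 - x / L) *
          (ht τ x + Kint (fun z => E τ z + (deriv U τ : HL L) z) x / (x ^ 9 * φ τ x ^ 2)) := by
    intro τ hτ
    filter_upwards [(hall τ hτ).2.2, ae_restrict_mem measurableSet_Ioo] with x hx hx2
    rw [← hx, hB.phi_eq τ hτ x (Ioo_subset_Icc_self hx2)]
    have hp := (phi0_pos hx2).ne'
    unfold phi0 at hp ⊢
    have hm : m τ x ≠ 0 := (lt_of_lt_of_le hc0 (hB.lower τ hτ x (Ioo_subset_Icc_self hx2))).ne'
    have hx0 : x ≠ 0 := hx2.1.ne'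
    have h1 : (1 - x / L) ≠ 0 := fun h => hp (by rw [h, mul_zero])
    generalize (1 - x / L) = t at h1
    field_simp
    ring
  refine ⟨fun τ => al L (U τ) (Z τ), fun τ => be L (U τ) (Z τ), contDiffOn_al hU hZ,
    contDiffOn_be hU hZ, fun τ hτ => ?_, fun τ hτ => (hall τ hτ).1, fun τ hτ => (hall τ hτ).2.1,
    hZae⟩
  filter_upwards [rep_inV hL (hV τ hτ), ae_restrict_mem measurableSet_Ioo] with x hx hx2
  rw [hx]
  congr 1
  refine intervalIntegral.integral_congr_ae ?_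
  have h := (ae_restrict_iff' measurableSet_Ioo).1 (hZae τ hτ)
  have h0 : L / 2 ∈ Ioo 0 L := ⟨by linarith, by linarith⟩
  have hsub : uIcc (L / 2) x ⊆ Ioo 0 L := ordConnected_Ioo.uIcc_subset h0 hx2
  filter_upwards [h] with y hy hy2
  have hy3 : y ∈ Ioo 0 L := hsub (uIoc_subset_uIcc hy2)
  rw [hy hy3]
  have hp := (phi0_pos hy3).ne'
  unfold phi0 at hp ⊢
  rw [mul_div_cancel_left₀ _ hp]

end Crest.Agent.R213.B
end
end

-- ▼ part R213/B/Init
section

/-!
# Row 213, part B (helper80): from curves in `HL L` to curves in `C([0,L])`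

`opOf κ : HL L →L C([0,L])`, `f ↦ (x ↦ ⟪κ x, f⟫)`.  `T0 f x = x⁻⁵ Kint f x`,
`T1 f x = (L-x)⁻¹ ∫_x^L (ξ-x) ξ⁹ f ξ`, `inc : C([0,L]) →L HL L`.
-/

set_option autoImplicit false

open Set MeasureTheory Filter Topology
open scoped RealInnerProductSpace ENNReal BoundedContinuousFunction

noncomputable section

namespace Crest.Agent.R213.B

variable {L : ℝ}

























/-- extension by clamping as a linear map into bounded continuous functions -/
def extB (hL : 0 ≤ L) (w : C(Icc (0 : ℝ) L, ℝ)) : ℝ →ᵇ ℝ :=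
  (BoundedContinuousFunction.mkOfCompact w).compContinuous ⟨projIcc 0 L hL, continuous_projIcc⟩

theorem extB_apply (hL : 0 ≤ L) (w : C(Icc (0 : ℝ) L, ℝ)) {x : ℝ} (hx : x ∈ Icc 0 L) :
    extB hL w x = w ⟨x, hx⟩ := by
  simp [extB, projIcc_of_mem hL hx]

/-- inclusion of `C([0,L])` in `HL L` -/
def inc (hL : 0 < L) : C(Icc (0 : ℝ) L, ℝ) →L[ℝ] HL L :=
  (BoundedContinuousFunction.toLp 2 (mu L) ℝ) ∘L
    LinearMap.mkContinuous
      { toFun := fun w => extB hL.le w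
        map_add' := fun f g => by ext x; simp [extB]
        map_smul' := fun c f => by ext x; simp [extB] } 1 (by
      intro f
      rw [one_mul]
      refine (BoundedContinuousFunction.norm_le (norm_nonneg f)).2 fun x => ?_
      exact f.norm_coe_le_norm _)

theorem inc_apply (hL : 0 < L) (w : C(Icc (0 : ℝ) L, ℝ)) :
    ∀ᵐ x ∂(volume.restrict (Ioo 0 L)), ∀ hx : x ∈ Icc 0 L, (inc hL w : HL L) x = w ⟨x, hx⟩ := by
  have h := BoundedContinuousFunction.coeFn_toLp (p := 2) (mu L) ℝ (extB hL.le w)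
  filter_upwards [ae_mu_iff.1 h] with x hx hx2
  rw [← extB_apply hL.le w hx2, ← hx]
  rfl

/-- if a smooth curve in `HL L` is a.e. equal to a smooth curve in `C([0,L])` (possibly after
multiplication by a fixed bounded function `p`), so are the derivatives. -/
theorem deriv_identify (hL : 0 < L) {D : ℝ → HL L} {V : ℝ → C(Icc (0 : ℝ) L, ℝ)} {s : Set ℝ}
    (hs : IsOpen s) (hD : ContDiffOn ℝ (⊤ : ℕ∞) D s) (hV : ContDiffOn ℝ (⊤ : ℕ∞) V s)
    {p : ℝ → ℝ} (hp : ContinuousOn p (Icc 0 L))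
    (e : ∀ τ ∈ s, ∀ᵐ x ∂(volume.restrict (Ioo 0 L)), ∀ hx : x ∈ Icc 0 L,
      p x * (D τ) x = V τ ⟨x, hx⟩) :
    ∀ τ ∈ s, ∀ᵐ x ∂(volume.restrict (Ioo 0 L)), ∀ hx : x ∈ Icc 0 L,
      p x * (deriv D τ : HL L) x = deriv V τ ⟨x, hx⟩ := by
  intro τ hτ
  have hd1 : HasDerivAt D (deriv D τ) τ :=
    ((hD.differentiableOn (by simp)).differentiableAt (hs.mem_nhds hτ)).hasDerivAt
  have hd2 : HasDerivAt V (deriv V τ) τ :=
    ((hV.differentiableOn (by simp)).differentiableAt (hs.mem_nhds hτ)).hasDerivAt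
  have k1 : HasDerivAt (fun r => mulL L (ex L p) (D r)) (mulL L (ex L p) (deriv D τ)) τ :=
    (mulL L (ex L p)).hasFDerivAt.comp_hasDerivAt τ hd1
  have k2 : HasDerivAt (fun r => inc hL (V r)) (inc hL (deriv V τ)) τ :=
    (inc hL).hasFDerivAt.comp_hasDerivAt τ hd2
  have k3 : (fun r => mulL L (ex L p) (D r)) =ᶠ[𝓝 τ] (fun r => inc hL (V r)) := by
    filter_upwards [hs.mem_nhds hτ] with r hr
    apply Lp.ext
    rw [Filter.EventuallyEq, ae_mu_iff]
    filter_upwards [ae_mu_iff.1 (coe_mulL (ex L p) (D r)), inc_apply hL (V r), e r hr,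
      ae_restrict_mem measurableSet_Ioo] with x h1 h2 h3 h4
    have h5 := Ioo_subset_Icc_self h4
    rw [h1, h2 h5, ← h3 h5, ex_apply_mem hL.le hp h5]
  have k4 : mulL L (ex L p) (deriv D τ) = inc hL (deriv V τ) :=
    (k1.congr_of_eventuallyEq k3.symm).unique k2
  filter_upwards [ae_mu_iff.1 (coe_mulL (ex L p) (deriv D τ)), inc_apply hL (deriv V τ)]
    with x h1 h2 hx
  rw [← h2 hx, ← k4, h1, ex_apply_mem hL.le hp hx]

end Crest.Agent.R213.B
end
end

-- ▼ part R213/B/XDefs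
section

/-!
# Row 213, Part B, x-regularity: curves in `C([0,L])`

`Co L u`: for `τ ∈ (0,1)` the function `u τ` on the OPEN interval `(0,L)` extends continuously to `[0,L]`,
and the extension is a `C^∞` curve `(0,1) → C([0,L])` (sup norm).
`Cv L u`: the same, with equality on the closed interval.
-/

set_option autoImplicit false

open Set MeasureTheory Filter Topology

noncomputable section

namespace Crest.Agent.R213.B

/-- the extension to `[0,L]` of `u τ` (`x ∈ (0,L)`) is a `C^∞` curve in `C([0,L])`. -/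
def Co (L : ℝ) (u : ℝ → ℝ → ℝ) : Prop :=
  ∃ U : ℝ → C(Icc (0 : ℝ) L, ℝ), ContDiffOn ℝ (⊤ : ℕ∞) U (Ioo 0 1) ∧
    ∀ τ ∈ Ioo (0 : ℝ) 1, ∀ x : Icc (0 : ℝ) L, (x : ℝ) ∈ Ioo 0 L → U τ x = u τ x

/-- `u τ` is a `C^∞` curve in `C([0,L])`. -/
def Cv (L : ℝ) (u : ℝ → ℝ → ℝ) : Prop :=
  ∃ U : ℝ → C(Icc (0 : ℝ) L, ℝ), ContDiffOn ℝ (⊤ : ℕ∞) U (Ioo 0 1) ∧
    ∀ τ ∈ Ioo (0 : ℝ) 1, ∀ x : Icc (0 : ℝ) L, U τ x = u τ x


end Crest.Agent.R213.B
end
end

-- ▼ part R213/B/CvBasic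
section

/-!
# Row 213, part B3: closure properties of the classes `Co`, `Cv`, `CvK`
-/

set_option autoImplicit false

open Set MeasureTheory Filter Topology

noncomputable section

namespace Crest.Agent.R213.B

variable {L : ℝ} {u v : ℝ → ℝ → ℝ}


theorem Co.congr (h : Co L u) (e : ∀ τ ∈ Ioo (0 : ℝ) 1, ∀ x ∈ Ioo 0 L, v τ x = u τ x) :
    Co L v := by
  obtain ⟨U, hU, e'⟩ := h
  exact ⟨U, hU, fun τ hτ x hx => by rw [e τ hτ x hx]; exact e' τ hτ x hx⟩

theorem Cv.congr (h : Cv L u) (e : ∀ τ ∈ Ioo (0 : ℝ) 1, ∀ x ∈ Icc 0 L, v τ x = u τ x) :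
    Cv L v := by
  obtain ⟨U, hU, e'⟩ := h
  exact ⟨U, hU, fun τ hτ x => by rw [e τ hτ x x.2]; exact e' τ hτ x⟩

theorem Co.add (h : Co L u) (h' : Co L v) : Co L (fun τ x => u τ x + v τ x) := by
  obtain ⟨U, hU, e⟩ := h
  obtain ⟨V, hV, e'⟩ := h'
  refine ⟨fun τ => U τ + V τ, hU.add hV, fun τ hτ x hx => ?_⟩
  simp only [ContinuousMap.add_apply]
  rw [e τ hτ x hx, e' τ hτ x hx]

theorem Cv.add (h : Cv L u) (h' : Cv L v) : Cv L (fun τ x => u τ x + v τ x) := by
  obtain ⟨U, hU, e⟩ := h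
  obtain ⟨V, hV, e'⟩ := h'
  refine ⟨fun τ => U τ + V τ, hU.add hV, fun τ hτ x => ?_⟩
  simp only [ContinuousMap.add_apply]
  rw [e τ hτ x, e' τ hτ x]

theorem Co.sub (h : Co L u) (h' : Co L v) : Co L (fun τ x => u τ x - v τ x) := by
  obtain ⟨U, hU, e⟩ := h
  obtain ⟨V, hV, e'⟩ := h'
  refine ⟨fun τ => U τ - V τ, hU.sub hV, fun τ hτ x hx => ?_⟩
  simp only [ContinuousMap.sub_apply]
  rw [e τ hτ x hx, e' τ hτ x hx]

theorem Cv.sub (h : Cv L u) (h' : Cv L v) : Cv L (fun τ x => u τ x - v τ x) := by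
  obtain ⟨U, hU, e⟩ := h
  obtain ⟨V, hV, e'⟩ := h'
  refine ⟨fun τ => U τ - V τ, hU.sub hV, fun τ hτ x => ?_⟩
  simp only [ContinuousMap.sub_apply]
  rw [e τ hτ x, e' τ hτ x]

theorem Co.mul (h : Co L u) (h' : Co L v) : Co L (fun τ x => u τ x * v τ x) := by
  obtain ⟨U, hU, e⟩ := h
  obtain ⟨V, hV, e'⟩ := h'
  refine ⟨fun τ => U τ * V τ, hU.mul hV, fun τ hτ x hx => ?_⟩
  simp only [ContinuousMap.mul_apply]
  rw [e τ hτ x hx, e' τ hτ x hx]

theorem Cv.mul (h : Cv L u) (h' : Cv L v) : Cv L (fun τ x => u τ x * v τ x) := by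
  obtain ⟨U, hU, e⟩ := h
  obtain ⟨V, hV, e'⟩ := h'
  refine ⟨fun τ => U τ * V τ, hU.mul hV, fun τ hτ x => ?_⟩
  simp only [ContinuousMap.mul_apply]
  rw [e τ hτ x, e' τ hτ x]



/-- evaluation -/
def ev (L : ℝ) (x : Icc (0 : ℝ) L) : C(Icc (0 : ℝ) L, ℝ) →L[ℝ] ℝ :=
  ContinuousMap.evalCLM ℝ x

@[simp] theorem ev_apply (x : Icc (0 : ℝ) L) (w : C(Icc (0 : ℝ) L, ℝ)) : ev L x w = w x := rfl

theorem hasDerivAt_curve {U : ℝ → C(Icc (0 : ℝ) L, ℝ)}
    (hU : ContDiffOn ℝ (⊤ : ℕ∞) U (Ioo 0 1)) {τ : ℝ} (hτ : τ ∈ Ioo (0 : ℝ) 1) :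
    HasDerivAt U (deriv U τ) τ :=
  ((hU.differentiableOn (by simp)).differentiableAt (isOpen_Ioo.mem_nhds hτ)).hasDerivAt

theorem hasDerivAt_curve_apply {U : ℝ → C(Icc (0 : ℝ) L, ℝ)}
    (hU : ContDiffOn ℝ (⊤ : ℕ∞) U (Ioo 0 1)) {τ : ℝ} (hτ : τ ∈ Ioo (0 : ℝ) 1)
    (x : Icc (0 : ℝ) L) : HasDerivAt (fun r => U r x) (deriv U τ x) τ := by
  exact (ev L x).hasFDerivAt.comp_hasDerivAt τ (hasDerivAt_curve hU hτ)

theorem contDiffOn_deriv_curve {X : Type*} [NormedAddCommGroup X] [NormedSpace ℝ X] {U : ℝ → X}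
    (hU : ContDiffOn ℝ (⊤ : ℕ∞) U (Ioo 0 1)) :
    ContDiffOn ℝ (⊤ : ℕ∞) (deriv U) (Ioo 0 1) :=
  hU.deriv_of_isOpen isOpen_Ioo (by simp)

theorem Co.dt (h : Co L u) : Co L (R213.dt u) := by
  obtain ⟨U, hU, e⟩ := h
  refine ⟨deriv U, contDiffOn_deriv_curve hU, fun τ hτ x hx => ?_⟩
  have h1 := hasDerivAt_curve_apply hU hτ x
  have h2 : (fun r => u r x) =ᶠ[𝓝 τ] (fun r => U r x) := by
    filter_upwards [isOpen_Ioo.mem_nhds hτ] with r hr
    exact (e r hr x hx).symm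
  exact ((h1.congr_of_eventuallyEq h2).deriv).symm

theorem Cv.dt (h : Cv L u) : Cv L (R213.dt u) := by
  obtain ⟨U, hU, e⟩ := h
  refine ⟨deriv U, contDiffOn_deriv_curve hU, fun τ hτ x => ?_⟩
  have h1 := hasDerivAt_curve_apply hU hτ x
  have h2 : (fun r => u r x) =ᶠ[𝓝 τ] (fun r => U r x) := by
    filter_upwards [isOpen_Ioo.mem_nhds hτ] with r hr
    exact (e r hr x).symm
  exact ((h1.congr_of_eventuallyEq h2).deriv).symm



/-- joint continuity -/
theorem Cv.continuousOn (h : Cv L u) :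
    ContinuousOn (fun p : ℝ × ℝ => u p.1 p.2) (Ioo (0 : ℝ) 1 ×ˢ Icc 0 L) := by
  obtain ⟨U, hU, e⟩ := h
  rw [continuousOn_iff_continuous_domRestrict]
  have h1 : Continuous (fun p : (Ioo (0 : ℝ) 1 ×ˢ Icc (0 : ℝ) L : Set (ℝ × ℝ)) =>
      U p.1.1) := by
    have := (continuousOn_iff_continuous_domRestrict.1 hU.continuousOn)
    exact this.comp (f := fun p : (Ioo (0 : ℝ) 1 ×ˢ Icc (0 : ℝ) L : Set (ℝ × ℝ)) =>
      (⟨p.1.1, p.2.1⟩ : Ioo (0 : ℝ) 1)) (by fun_prop)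
  have h2 : Continuous (fun p : (Ioo (0 : ℝ) 1 ×ˢ Icc (0 : ℝ) L : Set (ℝ × ℝ)) =>
      (⟨p.1.2, p.2.2⟩ : Icc (0 : ℝ) L)) := by fun_prop
  have h3 := h1.eval h2
  refine h3.congr fun p => ?_
  exact e p.1.1 p.2.1 ⟨p.1.2, p.2.2⟩


/-! ### smooth functions give curves -/

/-- the curve of a function -/
def cu (L : ℝ) (u : ℝ → ℝ → ℝ) (τ : ℝ) : C(Icc (0 : ℝ) L, ℝ) :=
  open Classical in
  if h : ContinuousOn (u τ) (Icc 0 L) then
    ⟨(Icc (0 : ℝ) L).domRestrict (u τ), continuousOn_iff_continuous_domRestrict.1 h⟩ else 0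

theorem cu_apply (h : ContinuousOn (fun p : ℝ × ℝ => u p.1 p.2) (Ioo (0 : ℝ) 1 ×ˢ Icc 0 L))
    {τ : ℝ} (hτ : τ ∈ Ioo (0 : ℝ) 1) (x : Icc (0 : ℝ) L) : cu L u τ x = u τ x := by
  have h1 : ContinuousOn (u τ) (Icc 0 L) :=
    h.comp (f := fun x => (τ, x)) (by fun_prop) (fun x hx => ⟨hτ, hx⟩)
  simp [cu, h1, Set.domRestrict]

theorem continuousOn_cu (h : ContinuousOn (fun p : ℝ × ℝ => u p.1 p.2) (Ioo (0 : ℝ) 1 ×ˢ Icc 0 L)) :
    ContinuousOn (cu L u) (Ioo (0 : ℝ) 1) := by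
  rw [continuousOn_iff_continuous_domRestrict]
  have h1 : Continuous (fun p : Ioo (0 : ℝ) 1 × Icc (0 : ℝ) L => u p.1 p.2) := by
    have := continuousOn_iff_continuous_domRestrict.1 h
    exact this.comp (f := fun p : Ioo (0 : ℝ) 1 × Icc (0 : ℝ) L =>
      (⟨(p.1.1, p.2.1), p.1.2, p.2.2⟩ : (Ioo (0 : ℝ) 1 ×ˢ Icc (0 : ℝ) L : Set (ℝ × ℝ))))
      (by fun_prop)
  have h2 := (ContinuousMap.curry ⟨_, h1⟩).continuous
  refine h2.congr fun τ => ?_
  ext x
  simp only [ContinuousMap.curry_apply, ContinuousMap.coe_mk, Set.domRestrict_apply]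
  exact (cu_apply h τ.2 x).symm

theorem hasDerivAt_cu (hL : 0 < L) (h : Sm (Ioo 0 1) L u) {τ : ℝ} (hτ : τ ∈ Ioo (0 : ℝ) 1) :
    HasDerivAt (cu L u) (cu L (dt u) τ) τ := by
  have hd := Sm.dt isOpen_Ioo hL h
  have hc : ContinuousOn (fun p : ℝ × ℝ => u p.1 p.2) (Ioo (0 : ℝ) 1 ×ˢ Icc 0 L) :=
    ContDiffOn.continuousOn h
  have hdc : ContinuousOn (fun p : ℝ × ℝ => R213.dt u p.1 p.2) (Ioo (0 : ℝ) 1 ×ˢ Icc 0 L) :=
    ContDiffOn.continuousOn hd
  have hcd := continuousOn_cu hdc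
  have hII : ∀ r ∈ Ioo (0 : ℝ) 1, uIcc τ r ⊆ Ioo 0 1 := fun r hr =>
    (ordConnected_Ioo.uIcc_subset hτ hr)
  have key : ∀ r ∈ Ioo (0 : ℝ) 1, cu L u r = cu L u τ + ∫ s in τ..r, cu L (R213.dt u) s := by
    intro r hr
    have hint : IntervalIntegrable (cu L (R213.dt u)) volume τ r :=
      (hcd.mono (hII r hr)).intervalIntegrable
    ext x
    rw [ContinuousMap.add_apply, cu_apply hc hr, cu_apply hc hτ]
    have e1 : (∫ s in τ..r, cu L (R213.dt u) s) x = ∫ s in τ..r, cu L (R213.dt u) s x := by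
      have := (ev L x).intervalIntegral_comp_comm hint
      simpa using this.symm
    rw [e1]
    have e2 : ∫ s in τ..r, cu L (R213.dt u) s x = ∫ s in τ..r, R213.dt u s x :=
      intervalIntegral.integral_congr fun s hs => cu_apply hdc (hII r hr hs) x
    rw [e2]
    have e3 : ∫ s in τ..r, R213.dt u s x = u r x - u τ x := by
      refine intervalIntegral.integral_eq_sub_of_hasDerivAt (f := fun s => u s x) (fun s hs => ?_) ?_
      · exact Sm.hasDt h isOpen_Ioo (hII r hr hs) x.2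
      · refine ContinuousOn.intervalIntegrable ?_
        exact hdc.comp (f := fun s => (s, (x : ℝ))) (by fun_prop)
          (fun s hs => ⟨hII r hr hs, x.2⟩)
    rw [e3]; ring
  have h1 : HasDerivAt (fun r => cu L u τ + ∫ s in τ..r, cu L (R213.dt u) s)
      (cu L (R213.dt u) τ) τ := by
    refine HasDerivAt.const_add _ ?_
    refine intervalIntegral.integral_hasDerivAt_right ?_ ?_ ?_
    · simp
    · exact hcd.stronglyMeasurableAtFilter isOpen_Ioo _ hτ
    · exact hcd.continuousAt (isOpen_Ioo.mem_nhds hτ)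
  refine h1.congr_of_eventuallyEq ?_
  filter_upwards [isOpen_Ioo.mem_nhds hτ] with r hr
  exact key r hr

theorem contDiffOn_cu (hL : 0 < L) (n : ℕ) : ∀ {u : ℝ → ℝ → ℝ}, Sm (Ioo 0 1) L u →
    ContDiffOn ℝ n (cu L u) (Ioo 0 1) := by
  induction n with
  | zero =>
    intro u h
    rw [Nat.cast_zero, contDiffOn_zero]
    exact continuousOn_cu (ContDiffOn.continuousOn h)
  | succ n ih =>
    intro u h
    rw [Nat.cast_add, Nat.cast_one, contDiffOn_succ_iff_deriv_of_isOpen isOpen_Ioo]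
    refine ⟨fun τ hτ => (hasDerivAt_cu hL h hτ).differentiableAt.differentiableWithinAt,
      by simp, ?_⟩
    exact (ih (Sm.dt isOpen_Ioo hL h)).congr fun τ hτ => (hasDerivAt_cu hL h hτ).deriv


end Crest.Agent.R213.B
end
namespace Crest.Agent.R213.B.Sm
end Crest.Agent.R213.B.Sm
end

-- ▼ part R213/B/SpaceBootOf
section

/-!
# Row 213, part B (helper80): `space_boot` from the bootstrap theorem of helper962
-/

set_option autoImplicit false

open Set MeasureTheory Filter Topology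
open scoped RealInnerProductSpace ContDiff

noncomputable section

namespace Crest.Agent.R213.B

/-- the statement of helper962's `boot` -/
def BootStmt : Prop :=
  ∀ {c0 C0 : ℝ} {g : ℝ → ℝ} {L : ℝ} {φ m : ℝ → ℝ → ℝ} (_ : Bg c0 C0 g L φ m) (_ : 0 < c0)
    {E ht : ℝ → ℝ → ℝ} (_ : Sm (Ioo 0 1) L E) (_ : Sm (Ioo 0 1) L ht)
    {D : ℝ → HL L} (_ : ContDiffOn ℝ (⊤ : ℕ∞) D (Ioo 0 1))
    {a b : ℝ → ℝ} (_ : ContDiffOn ℝ (⊤ : ℕ∞) a (Ioo 0 1)) (_ : ContDiffOn ℝ (⊤ : ℕ∞) b (Ioo 0 1))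
    (_ : ∀ τ ∈ Ioo (0 : ℝ) 1, ∀ᵐ x ∂(volume.restrict (Ioo 0 L)),
        (D τ) x = a τ + b τ * (x - L / 2) + ∫ ξ in (L / 2)..x, (x - ξ) *
          (ht τ ξ + Kint (fun z => E τ z + (deriv D τ : HL L) z) ξ / (ξ ^ 9 * φ τ ξ ^ 2)))
    (_ : ∀ τ ∈ Ioo (0 : ℝ) 1, ∫ x in (0 : ℝ)..L, x ^ 9 * (E τ x + (deriv D τ : HL L) x) = 0)
    (_ : ∀ τ ∈ Ioo (0 : ℝ) 1, ∫ x in (0 : ℝ)..L, x ^ 10 * (E τ x + (deriv D τ : HL L) x) = 0),
    ∃ d' : ℝ → ℝ → ℝ, Sm (Ioo 0 1) L d' ∧ ∀ τ ∈ Ioo (0 : ℝ) 1,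
      (∀ᵐ x ∂(volume.restrict (Ioo 0 L)), (D τ) x = d' τ x) ∧
      ∀ x ∈ Icc 0 L, x ^ 9 * (φ τ x ^ 2 * dx L (dx L d') τ x - φ τ x ^ 2 * ht τ x) =
          Kint (fun ξ => E τ ξ + dt d' τ ξ) x

/-- time derivatives of a smooth function and of the corresponding curve in `HL L` -/
theorem dt_ae_eq {L : ℝ} (hL : 0 < L) {D : ℝ → HL L} (hD : ContDiffOn ℝ (⊤ : ℕ∞) D (Ioo 0 1))
    {d : ℝ → ℝ → ℝ} (hd : Sm (Ioo 0 1) L d)
    (h : ∀ τ ∈ Ioo (0 : ℝ) 1, ∀ᵐ x ∂(volume.restrict (Ioo 0 L)), (D τ) x = d τ x) :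
    ∀ τ ∈ Ioo (0 : ℝ) 1, ∀ᵐ x ∂(volume.restrict (Ioo 0 L)), (deriv D τ : HL L) x = dt d τ x := by
  have hV : ContDiffOn ℝ (⊤ : ℕ∞) (cu L d) (Ioo 0 1) :=
    contDiffOn_infty.2 fun n => contDiffOn_cu hL n hd
  have hc : ContinuousOn (fun p : ℝ × ℝ => d p.1 p.2) (Ioo (0 : ℝ) 1 ×ˢ Icc 0 L) :=
    ContDiffOn.continuousOn hd
  have hdc : ContinuousOn (fun p : ℝ × ℝ => R213.dt d p.1 p.2) (Ioo (0 : ℝ) 1 ×ˢ Icc 0 L) :=
    ContDiffOn.continuousOn (Sm.dt isOpen_Ioo hL hd)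
  intro τ hτ
  have h1 := deriv_identify hL isOpen_Ioo hD hV (p := fun _ => 1) continuousOn_const
    (fun r hr => by
      filter_upwards [h r hr] with x hx hx2
      rw [hx, cu_apply hc hr ⟨x, hx2⟩, one_mul]) τ hτ
  filter_upwards [h1, ae_restrict_mem measurableSet_Ioo] with x hx hx2
  have h2 := hx (Ioo_subset_Icc_self hx2)
  rw [one_mul, (hasDerivAt_cu hL hd hτ).deriv, cu_apply hdc hτ ⟨x, _⟩] at h2
  exact h2

theorem space_boot_of (hbt : BootStmt) : SpaceBootStmt := by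
  intro c0 C0 g L φ m hB hc0 E ht hE hh U Z hU hZ hV heq
  have hL : 0 < L := bg_L_pos hB
  obtain ⟨a, b, ha, hb, hrep, hm0, hm1, hZae⟩ := rep_data hB hc0 hE hh hU hZ hV heq
  obtain ⟨d', hd', hfin⟩ := hbt hB hc0 hE hh hU ha hb hrep hm0 hm1
  refine ⟨d', hd', fun τ hτ => ?_, fun τ hτ => (hfin τ hτ).2⟩
  have hdt := dt_ae_eq hL hU hd' (fun τ hτ => (hfin τ hτ).1) τ hτ
  have hK : ∀ x ∈ Icc 0 L, Kint (fun z => E τ z + (deriv U τ : HL L) z) x =
      Kint (fun ξ => E τ ξ + dt d' τ ξ) x := by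
    intro x hx
    unfold Kint
    refine intervalIntegral.integral_congr_ae ?_
    have h1 := (ae_restrict_iff' measurableSet_Ioo).1 hdt
    have h2 : ∀ᵐ z : ℝ, z ≠ L := by
      have : volume ({L} : Set ℝ) = 0 := by simp
      exact compl_mem_ae_iff.2 this
    filter_upwards [h1, h2] with z hz hz2 hz3
    rw [uIoc_of_le hx.1] at hz3
    rw [hz ⟨hz3.1, lt_of_le_of_ne (hz3.2.trans hx.2) hz2⟩]
  filter_upwards [(hfin τ hτ).1, hZae τ hτ, ae_restrict_mem measurableSet_Ioo] with x h1 h2 h3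
  have h3' := Ioo_subset_Icc_self h3
  refine ⟨h1.symm, ?_⟩
  rw [h2, hK x h3', ← (hfin τ hτ).2 x h3', hB.phi_eq τ hτ x h3']
  have hp := (phi0_pos h3).ne'
  unfold phi0 at hp
  have hm : m τ x ≠ 0 := (lt_of_lt_of_le hc0 (hB.lower τ hτ x h3')).ne'
  have hx0 : x ≠ 0 := h3.1.ne'
  have h4 : (1 - x / L) ≠ 0 := fun h => hp (by rw [h, mul_zero])
  generalize (1 - x / L) = t at h4
  field_simp
  ring

end Crest.Agent.R213.B
end
end

-- ▼ part R213/B/RegOfBoot
section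

/-!
# Row 213, part B: `reg` (final assembly)
-/

set_option autoImplicit false

open Set MeasureTheory Filter Topology
open scoped RealInnerProductSpace ContDiff

noncomputable section

namespace Crest.Agent.R213

theorem B.timeRegStmt : B.TimeRegStmt := by
  intro V H K _ _ _ _ _ _ _ _ _ J B' C h1 N h2 h3 c h4 h5 E h6 R h7 w h8 h9
  exact B.time_reg J B' h1 h2 h3 h4 h5 h6 h7 h8 h9

theorem reg_of_boot (hbt : B.BootStmt) {c0 C0 : ℝ} {g : ℝ → ℝ} {L : ℝ} {φ m : ℝ → ℝ → ℝ} (hc0 : 0 < c0) (hB : Bg c0 C0 g L φ m)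
    {κ : ℝ} {E ht b δ : ℝ → ℝ → ℝ} (hE : Sm (Ioo 0 1) L E) (hh : Sm (Ioo 0 1) L ht)
    (hbm : Measurable (fun p : ℝ × ℝ => b p.1 p.2))
    (hdm : Measurable (fun p : ℝ × ℝ => δ p.1 p.2))
    (hb : N2 L (Wt κ) b < ⊤) (hd : N2 L (Wt' κ) δ < ⊤)
    (h1 : ∃ u : ℕ → ℝ → ℝ → ℝ, (∀ k, Tst L (u k)) ∧
          Tendsto (fun k => N2 L (Wt κ) (fun τ x => φ τ x * dx L (dx L (u k)) τ x - b τ x))
            atTop (𝓝 0) ∧
          Tendsto (fun k => N2 L (Wt' κ) (fun τ x => u k τ x - δ τ x)) atTop (𝓝 0))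
    (h2 : ∀ ψ, Tst L ψ →
          II L (fun τ x => x ^ 9 * (dt ψ τ x * δ τ x + φ τ x * dx L (dx L ψ) τ x * b τ x)) =
            II L (fun τ x => x ^ 9 * (E τ x * ψ τ x +
              (φ τ x * ht τ x) * φ τ x * dx L (dx L ψ) τ x))) :
    ∃ δ' : ℝ → ℝ → ℝ, Sm (Ioo 0 1) L δ' ∧
      (∀ᵐ p : ℝ × ℝ, p ∈ (Ioo (0 : ℝ) 1 ×ˢ Ioo (0 : ℝ) L) →
        δ' p.1 p.2 = δ p.1 p.2 ∧ φ p.1 p.2 * dx L (dx L δ') p.1 p.2 = b p.1 p.2) ∧
      ∀ τ ∈ Ioo (0 : ℝ) 1, ∀ x ∈ Icc 0 L,
        x ^ 9 * (φ τ x ^ 2 * dx L (dx L δ') τ x - φ τ x ^ 2 * ht τ x) =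
          Kint (fun ξ => E τ ξ + dt δ' τ ξ) x :=
  B.reg_of B.timeRegStmt (B.space_boot_of hbt) hc0 hB hE hh hbm hdm hb hd h1 h2

end Crest.Agent.R213
end
end

-- ▼ part R213/CK
section

/-!
# Row 213: class calculus `CK`

`CK s y0 k f`: all `τ`-derivatives of all `x`-derivatives of order `≤ k` of `f` exist and are
continuous up to the boundary of `s × [0,y0]`.  Realised by smooth curves `s → C([0,y0],ℝ)`.
-/

set_option autoImplicit false

open Set MeasureTheory Filter Topology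
open scoped ContDiff BoundedContinuousFunction

noncomputable section

namespace Crest.Agent.R213

/-- a tower of derivatives gives smoothness -/
theorem contDiffOn_of_tower {F : Type*} [NormedAddCommGroup F] [NormedSpace ℝ F] {s : Set ℝ}
    (hs : IsOpen s) {g : ℕ → ℝ → F} (hg : ∀ j, ∀ τ ∈ s, HasDerivAt (g j) (g (j + 1) τ) τ) (j : ℕ) :
    ContDiffOn ℝ ∞ (g j) s := by
  refine contDiffOn_infty.2 fun n => ?_
  induction n generalizing j with
  | zero =>
    rw [Nat.cast_zero, contDiffOn_zero]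
    exact fun τ hτ => (hg j τ hτ).continuousAt.continuousWithinAt
  | succ n ih =>
    rw [Nat.cast_add, Nat.cast_one, contDiffOn_succ_iff_deriv_of_isOpen hs]
    refine ⟨fun τ hτ => (hg j τ hτ).differentiableAt.differentiableWithinAt, by simp, ?_⟩
    exact (ih (j + 1)).congr fun τ hτ => (hg j τ hτ).deriv

/-- smooth curves: derivative is a smooth curve -/
theorem smoothCurve_deriv {F : Type*} [NormedAddCommGroup F] [NormedSpace ℝ F] {s : Set ℝ}
    (hs : IsOpen s) {g : ℝ → F} (hg : ContDiffOn ℝ ∞ g s) : ContDiffOn ℝ ∞ (deriv g) s :=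
  ((contDiffOn_infty_iff_deriv_of_isOpen hs).1 hg).2

theorem smoothCurve_hasDerivAt {F : Type*} [NormedAddCommGroup F] [NormedSpace ℝ F] {s : Set ℝ}
    (hs : IsOpen s) {g : ℝ → F} (hg : ContDiffOn ℝ ∞ g s) {τ : ℝ} (hτ : τ ∈ s) :
    HasDerivAt g (deriv g τ) τ :=
  (((contDiffOn_infty_iff_deriv_of_isOpen hs).1 hg).1 τ hτ).differentiableAt
    (hs.mem_nhds hτ) |>.hasDerivAt

/-! ### the class `C0` -/

/-- smooth curves with values in `C([0,y0],ℝ)` -/
def C0 (s : Set ℝ) (y0 : ℝ) (f : ℝ → ℝ → ℝ) : Prop :=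
  ∃ g : ℝ → C(Icc (0 : ℝ) y0, ℝ), ContDiffOn ℝ ∞ g s ∧
    ∀ τ ∈ s, ∀ y : Icc (0 : ℝ) y0, f τ y = g τ y

variable {s : Set ℝ} {y0 : ℝ} {f g : ℝ → ℝ → ℝ}

theorem C0.congr (hf : C0 s y0 f) (h : ∀ τ ∈ s, ∀ y ∈ Icc 0 y0, g τ y = f τ y) : C0 s y0 g := by
  obtain ⟨G, hG, hfG⟩ := hf
  exact ⟨G, hG, fun τ hτ y => by rw [h τ hτ y y.2, hfG τ hτ y]⟩

/-- construction from a family of `τ`-derivatives -/
theorem C0.of_family (hs : IsOpen s) {U : ℕ → ℝ → ℝ → ℝ}
    (hc : ∀ j, ContinuousOn (fun p : ℝ × ℝ => U j p.1 p.2) (s ×ˢ Icc 0 y0))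
    (ht : ∀ j, ∀ τ ∈ s, ∀ y ∈ Icc 0 y0, HasDerivAt (fun r => U j r y) (U (j + 1) τ y) τ) :
    C0 s y0 (U 0) := by
  classical
  have hcx : ∀ j, ∀ τ ∈ s, Continuous (fun y : Icc (0 : ℝ) y0 => U j τ y) := by
    intro j τ hτ
    have := (hc j).comp (f := fun y : ℝ => (τ, y)) (s := Icc 0 y0)
      (by fun_prop) (fun y hy => ⟨hτ, hy⟩)
    exact this.domRestrict
  let G : ℕ → ℝ → C(Icc (0 : ℝ) y0, ℝ) := fun j τ =>
    if h : τ ∈ s then ⟨fun y => U j τ y, hcx j τ h⟩ else 0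
  have hG : ∀ j, ∀ τ ∈ s, ∀ y : Icc (0 : ℝ) y0, G j τ y = U j τ y := by
    intro j τ hτ y
    simp [G, hτ]
  have hGc : ∀ j, ContinuousOn (G j) s := by
    intro j
    rw [continuousOn_iff_continuous_domRestrict]
    have h1 : Continuous (fun p : s × Icc (0 : ℝ) y0 => U j p.1 p.2) := by
      have := (hc j).comp_continuous (f := fun p : s × Icc (0 : ℝ) y0 => ((p.1 : ℝ), (p.2 : ℝ)))
        (by fun_prop) (fun p => ⟨p.1.2, p.2.2⟩)
      exact this
    have h2 : s.domRestrict (G j) = fun τ => ContinuousMap.curry ⟨_, h1⟩ τ := by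
      funext τ
      ext y
      simp only [Set.domRestrict_apply]
      rw [hG j τ τ.2 y]
      rfl
    rw [h2]
    exact (ContinuousMap.curry ⟨_, h1⟩).continuous
  have hD : ∀ j, ∀ τ ∈ s, HasDerivAt (G j) (G (j + 1) τ) τ := by
    intro j τ hτ
    obtain ⟨ε, hε, hball⟩ := Metric.isOpen_iff.1 hs τ hτ
    have hsub : ∀ σ ∈ Metric.ball τ ε, uIcc τ σ ⊆ s := by
      intro σ hσ
      refine (Convex.ordConnected (convex_ball τ ε) |>.uIcc_subset
        (Metric.mem_ball_self hε) hσ).trans hball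
    have hint : ∀ σ ∈ Metric.ball τ ε, IntervalIntegrable (G (j + 1)) volume τ σ := fun σ hσ =>
      ((hGc (j + 1)).mono (hsub σ hσ)).intervalIntegrable
    have key : ∀ σ ∈ Metric.ball τ ε, G j σ = G j τ + ∫ r in τ..σ, G (j + 1) r := by
      intro σ hσ
      ext y
      have e1 : (∫ r in τ..σ, G (j + 1) r) y = ∫ r in τ..σ, (G (j + 1) r) y := by
        have := (ContinuousMap.evalCLM ℝ y).intervalIntegral_comp_comm (hint σ hσ)
        simpa using this.symm
      have e2 : ∫ r in τ..σ, (G (j + 1) r) y = ∫ r in τ..σ, U (j + 1) r y :=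
        intervalIntegral.integral_congr fun r hr => hG (j + 1) r (hsub σ hσ hr) y
      have e3 : ∫ r in τ..σ, U (j + 1) r y = U j σ y - U j τ y := by
        refine intervalIntegral.integral_eq_sub_of_hasDerivAt
          (fun r hr => ht j r (hsub σ hσ hr) y y.2) ?_
        refine ContinuousOn.intervalIntegrable ?_
        refine ((hc (j + 1)).comp (f := fun r : ℝ => (r, (y : ℝ))) (s := s)
          (by fun_prop) (fun r hr => ⟨hr, y.2⟩)).mono (hsub σ hσ)
      rw [ContinuousMap.add_apply, e1, e2, e3, hG j σ (hball hσ) y, hG j τ hτ y]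
      ring
    have h3 : HasDerivAt (fun σ => G j τ + ∫ r in τ..σ, G (j + 1) r) (G (j + 1) τ) τ := by
      refine HasDerivAt.const_add _ ?_
      refine intervalIntegral.integral_hasDerivAt_right (by simp) ?_
        ((hGc (j + 1)).continuousAt (hs.mem_nhds hτ))
      exact (hGc (j + 1)).stronglyMeasurableAtFilter hs τ hτ
    exact h3.congr_of_eventuallyEq
      (Filter.eventually_of_mem (Metric.ball_mem_nhds τ hε) key)
  exact ⟨G 0, contDiffOn_of_tower hs hD 0, fun τ hτ y => (hG 0 τ hτ y).symm⟩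

theorem C0.hasDerivAt (hs : IsOpen s) (hf : C0 s y0 f) {τ : ℝ} (hτ : τ ∈ s) {y : ℝ}
    (hy : y ∈ Icc 0 y0) : HasDerivAt (fun r => f r y) (dt f τ y) τ := by
  obtain ⟨G, hG, hfG⟩ := hf
  have h1 := (ContinuousMap.evalCLM ℝ (⟨y, hy⟩ : Icc (0 : ℝ) y0)).hasFDerivAt.comp_hasDerivAt τ
    (smoothCurve_hasDerivAt hs hG hτ)
  have h2 : HasDerivAt (fun r => f r y) (deriv G τ ⟨y, hy⟩) τ := by
    refine h1.congr_of_eventuallyEq ?_
    filter_upwards [hs.mem_nhds hτ] with r hr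
    rw [hfG r hr ⟨y, hy⟩]
    rfl
  have h3 : dt f τ y = deriv G τ ⟨y, hy⟩ := h2.deriv
  rwa [h3]

theorem C0.dt_eq (hs : IsOpen s) {G : ℝ → C(Icc (0 : ℝ) y0, ℝ)} (hG : ContDiffOn ℝ ∞ G s)
    (hfG : ∀ τ ∈ s, ∀ y : Icc (0 : ℝ) y0, f τ y = G τ y) {τ : ℝ} (hτ : τ ∈ s)
    (y : Icc (0 : ℝ) y0) : dt f τ y = deriv G τ y := by
  have h1 := (ContinuousMap.evalCLM ℝ y).hasFDerivAt.comp_hasDerivAt τ
    (smoothCurve_hasDerivAt hs hG hτ)
  have h2 : HasDerivAt (fun r => f r y) (deriv G τ y) τ := by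
    refine h1.congr_of_eventuallyEq ?_
    filter_upwards [hs.mem_nhds hτ] with r hr
    rw [hfG r hr y]
    rfl
  exact h2.deriv

theorem C0.dt (hs : IsOpen s) (hf : C0 s y0 f) : C0 s y0 (dt f) := by
  obtain ⟨G, hG, hfG⟩ := hf
  exact ⟨deriv G, smoothCurve_deriv hs hG, fun τ hτ y => C0.dt_eq hs hG hfG hτ y⟩

theorem C0.continuousOn (hf : C0 s y0 f) :
    ContinuousOn (fun p : ℝ × ℝ => f p.1 p.2) (s ×ˢ Icc 0 y0) := by
  obtain ⟨G, hG, hfG⟩ := hf
  rw [continuousOn_iff_continuous_domRestrict]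
  have h1 : Continuous (fun p : ↥(s ×ˢ Icc (0 : ℝ) y0) => G p.1.1 ⟨p.1.2, p.2.2⟩) := by
    have h2 : Continuous (fun p : ↥(s ×ˢ Icc (0 : ℝ) y0) => G p.1.1) := by
      have := continuousOn_iff_continuous_domRestrict.1 hG.continuousOn
      exact this.comp (f := fun p : ↥(s ×ˢ Icc (0 : ℝ) y0) => (⟨p.1.1, p.2.1⟩ : s)) (by fun_prop)
    have h3 : Continuous (fun p : ↥(s ×ˢ Icc (0 : ℝ) y0) =>
        (⟨p.1.2, p.2.2⟩ : Icc (0 : ℝ) y0)) := by fun_prop
    exact continuous_eval.comp (h2.prodMk h3)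
  refine h1.congr fun p => ?_
  exact (hfG p.1.1 p.2.1 ⟨p.1.2, p.2.2⟩).symm

theorem C0.continuousOn_right (hf : C0 s y0 f) {τ : ℝ} (hτ : τ ∈ s) :
    ContinuousOn (f τ) (Icc 0 y0) :=
  (hf.continuousOn.comp (f := fun y : ℝ => (τ, y)) (s := Icc 0 y0)
      (by fun_prop) (fun y hy => ⟨hτ, hy⟩))

theorem C0.add (hf : C0 s y0 f) (hg : C0 s y0 g) : C0 s y0 (fun τ y => f τ y + g τ y) := by
  obtain ⟨F, hF, hfF⟩ := hf
  obtain ⟨G, hG, hgG⟩ := hg
  exact ⟨fun τ => F τ + G τ, hF.add hG, fun τ hτ y => by simp [hfF τ hτ y, hgG τ hτ y]⟩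

theorem C0.mul (hf : C0 s y0 f) (hg : C0 s y0 g) : C0 s y0 (fun τ y => f τ y * g τ y) := by
  obtain ⟨F, hF, hfF⟩ := hf
  obtain ⟨G, hG, hgG⟩ := hg
  exact ⟨fun τ => F τ * G τ, hF.mul hG, fun τ hτ y => by simp [hfF τ hτ y, hgG τ hτ y]⟩

theorem C0.of_left {c : ℝ → ℝ} (hc : ContDiffOn ℝ ∞ c s) : C0 s y0 (fun τ _ => c τ) := by
  refine ⟨fun τ => algebraMap ℝ C(Icc (0 : ℝ) y0, ℝ) (c τ), ?_, fun τ _ y => by simp⟩
  exact (Algebra.linearMap ℝ C(Icc (0 : ℝ) y0, ℝ)).toContinuousLinearMap.contDiff.comp_contDiffOn hc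

theorem C0.of_right {c : ℝ → ℝ} (hc : ContinuousOn c (Icc 0 y0)) : C0 s y0 (fun _ y => c y) :=
  ⟨fun _ => ⟨fun y => c y, hc.domRestrict⟩, contDiffOn_const, fun _ _ _ => rfl⟩

theorem C0.const (c : ℝ) : C0 s y0 (fun _ _ => c) := C0.of_left contDiffOn_const

theorem C0.neg (hf : C0 s y0 f) : C0 s y0 (fun τ y => - f τ y) :=
  ((C0.const (-1)).mul hf).congr fun τ _ y _ => by ring

theorem C0.sub (hf : C0 s y0 f) (hg : C0 s y0 g) : C0 s y0 (fun τ y => f τ y - g τ y) :=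
  (hf.add hg.neg).congr fun τ _ y _ => by ring

theorem C0.inv (hf : C0 s y0 f) (h0 : ∀ τ ∈ s, ∀ y ∈ Icc 0 y0, f τ y ≠ 0) :
    C0 s y0 (fun τ y => (f τ y)⁻¹) := by
  obtain ⟨F, hF, hfF⟩ := hf
  have hu : ∀ τ ∈ s, IsUnit (F τ) := by
    intro τ hτ
    rw [ContinuousMap.isUnit_iff_forall_ne_zero]
    intro y
    rw [← hfF τ hτ y]
    exact h0 τ hτ y y.2
  refine ⟨fun τ => Ring.inverse (F τ), ?_, fun τ hτ y => ?_⟩
  · intro τ hτ
    obtain ⟨u, hu'⟩ := hu τ hτ
    have h1 : ContDiffAt ℝ ∞ Ring.inverse (F τ) := by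
      rw [← hu']
      exact contDiffAt_ringInverse ℝ u
    exact h1.comp_contDiffWithinAt τ (hF τ hτ)
  · have h1 : Ring.inverse (F τ) * F τ = 1 := Ring.inverse_mul_cancel _ (hu τ hτ)
    have h2 : Ring.inverse (F τ) y * F τ y = 1 := by
      have := congrArg (fun k : C(Icc (0 : ℝ) y0, ℝ) => k y) h1
      simpa using this
    change (f τ y)⁻¹ = Ring.inverse (F τ) y
    rw [hfF τ hτ y]
    exact (eq_inv_of_mul_eq_one_left h2).symm

/-! ### extension of elements of `C([0,y0],ℝ)` and integral operators -/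

/-- continuous extension to `ℝ` -/
def extC (h0 : 0 ≤ y0) (g : C(Icc (0 : ℝ) y0, ℝ)) : ℝ → ℝ := IccExtend h0 g

theorem continuous_extC (h0 : 0 ≤ y0) (g : C(Icc (0 : ℝ) y0, ℝ)) : Continuous (extC h0 g) :=
  g.continuous.Icc_extend'

theorem extC_of_mem (h0 : 0 ≤ y0) (g : C(Icc (0 : ℝ) y0, ℝ)) {y : ℝ} (hy : y ∈ Icc 0 y0) :
    extC h0 g y = g ⟨y, hy⟩ := IccExtend_of_mem h0 g hy


theorem abs_extC_le (h0 : 0 ≤ y0) (g : C(Icc (0 : ℝ) y0, ℝ)) (y : ℝ) : |extC h0 g y| ≤ ‖g‖ :=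
  g.norm_coe_le_norm _



/-- operators on `C([0,y0],ℝ)` -/
def mkOp (h0 : 0 ≤ y0) (T : (ℝ → ℝ) → ℝ → ℝ) (C : ℝ)
    (hcont : ∀ g, Continuous g → Continuous (T g))
    (hadd : ∀ g k, Continuous g → Continuous k → ∀ y, T (fun t => g t + k t) y = T g y + T k y)
    (hsmul : ∀ (c : ℝ) g, Continuous g → ∀ y, T (fun t => c * g t) y = c * T g y)
    (hbd : ∀ g, Continuous g → ∀ B : ℝ, 0 ≤ B → (∀ t, |g t| ≤ B) →
      ∀ y ∈ Icc 0 y0, |T g y| ≤ C * B) (hC : 0 ≤ C) :
    C(Icc (0 : ℝ) y0, ℝ) →L[ℝ] C(Icc (0 : ℝ) y0, ℝ) :=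
  LinearMap.mkContinuous
    { toFun := fun g => ⟨fun y => T (extC h0 g) y, (hcont _ (continuous_extC h0 g)).comp
        continuous_subtype_val⟩
      map_add' := fun g k => by
        ext y
        exact hadd _ _ (continuous_extC h0 g) (continuous_extC h0 k) y
      map_smul' := fun c g => by
        ext y
        exact hsmul c _ (continuous_extC h0 g) y } C
    (fun g => by
      rw [ContinuousMap.norm_le _ (mul_nonneg hC (norm_nonneg g))]
      intro y
      exact hbd _ (continuous_extC h0 g) ‖g‖ (norm_nonneg g) (abs_extC_le h0 g) y y.2)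

theorem C0.of_op (h0 : 0 ≤ y0) (T : (ℝ → ℝ) → ℝ → ℝ) (C : ℝ)
    (hcont : ∀ g, Continuous g → Continuous (T g))
    (hadd : ∀ g k, Continuous g → Continuous k → ∀ y, T (fun t => g t + k t) y = T g y + T k y)
    (hsmul : ∀ (c : ℝ) g, Continuous g → ∀ y, T (fun t => c * g t) y = c * T g y)
    (hbd : ∀ g, Continuous g → ∀ B : ℝ, 0 ≤ B → (∀ t, |g t| ≤ B) →
      ∀ y ∈ Icc 0 y0, |T g y| ≤ C * B) (hC : 0 ≤ C)
    (hT : ∀ g k : ℝ → ℝ, (∀ y ∈ Icc 0 y0, g y = k y) → ∀ y ∈ Icc 0 y0, T g y = T k y)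
    (hf : C0 s y0 f) : C0 s y0 (fun τ y => T (f τ) y) := by
  obtain ⟨F, hF, hfF⟩ := hf
  refine ⟨fun τ => mkOp h0 T C hcont hadd hsmul hbd hC (F τ),
    (mkOp h0 T C hcont hadd hsmul hbd hC).contDiff.comp_contDiffOn hF, fun τ hτ y => ?_⟩
  refine hT _ _ (fun z hz => ?_) y y.2
  rw [extC_of_mem h0 _ hz, ← hfF τ hτ ⟨z, hz⟩]

/-- primitive from `y1` -/
theorem C0.prim (h0 : 0 ≤ y0) {y1 : ℝ} (hy1 : y1 ∈ Icc 0 y0) (hf : C0 s y0 f) :
    C0 s y0 (fun τ y => ∫ t in y1..y, f τ t) := by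
  refine C0.of_op h0 (fun g y => ∫ t in y1..y, g t) y0 ?_ ?_ ?_ ?_ h0 ?_ hf
  · intro g hg
    exact intervalIntegral.continuous_primitive (fun a b => hg.intervalIntegrable a b) y1
  · intro g k hg hk y
    exact intervalIntegral.integral_add (hg.intervalIntegrable _ _) (hk.intervalIntegrable _ _)
  · intro c g hg y
    exact intervalIntegral.integral_const_mul c g
  · intro g hg B hB hgB y hy
    have := intervalIntegral.norm_integral_le_of_norm_le_const (a := y1) (b := y) (f := g) (C := B)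
      (fun t _ => hgB t)
    have h2 : |y - y1| ≤ y0 := by
      rw [abs_le]; constructor <;> linarith [hy.1, hy.2, hy1.1, hy1.2]
    calc |∫ t in y1..y, g t| ≤ B * |y - y1| := this
      _ ≤ B * y0 := mul_le_mul_of_nonneg_left h2 hB
      _ = y0 * B := mul_comm _ _
  · intro g k hgk y hy
    refine intervalIntegral.integral_congr fun t ht => hgk t ?_
    exact (Set.uIcc_subset_Icc hy1 hy) ht

/-- `M_N f (y) = ∫₀¹ (1-r) r^N f(r y) dr` -/
def MN (N : ℕ) (f : ℝ → ℝ) (y : ℝ) : ℝ := ∫ r in (0 : ℝ)..1, (1 - r) * r ^ N * f (r * y)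

theorem C0.MN (h0 : 0 ≤ y0) (N : ℕ) (hf : C0 s y0 f) :
    C0 s y0 (fun τ y => MN N (f τ) y) := by
  refine C0.of_op h0 (fun g y => R213.MN N g y) 1 ?_ ?_ ?_ ?_ zero_le_one ?_ hf
  · intro g hg
    unfold R213.MN
    refine intervalIntegral.continuous_parametric_intervalIntegral_of_continuous' ?_ 0 1
    fun_prop
  · intro g k hg hk y
    unfold R213.MN
    rw [← intervalIntegral.integral_add]
    · refine intervalIntegral.integral_congr fun r _ => ?_
      ring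
    · exact Continuous.intervalIntegrable (by fun_prop) _ _
    · exact Continuous.intervalIntegrable (by fun_prop) _ _
  · intro c g hg y
    unfold R213.MN
    rw [← intervalIntegral.integral_const_mul]
    refine intervalIntegral.integral_congr fun r _ => ?_
    ring
  · intro g hg B hB hgB y hy
    unfold R213.MN
    have := intervalIntegral.norm_integral_le_of_norm_le_const (a := (0 : ℝ)) (b := 1)
      (f := fun r => (1 - r) * r ^ N * g (r * y)) (C := B) (fun r hr => ?_)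
    · simpa using this
    · rw [uIoc_of_le zero_le_one] at hr
      rw [Real.norm_eq_abs, abs_mul, abs_mul, abs_of_nonneg (by linarith [hr.2] : 0 ≤ 1 - r),
        abs_of_nonneg (pow_nonneg hr.1.le N)]
      have h1 : (1 - r) * r ^ N ≤ 1 := by
        have := pow_le_one₀ (n := N) hr.1.le hr.2
        nlinarith [pow_nonneg hr.1.le N, hr.1, hr.2]
      have h2 : 0 ≤ (1 - r) * r ^ N := mul_nonneg (by linarith [hr.2]) (pow_nonneg hr.1.le N)
      calc (1 - r) * r ^ N * |g (r * y)| ≤ 1 * B := mul_le_mul h1 (hgB _) (abs_nonneg _) zero_le_one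
        _ = B := one_mul B
  · intro g k hgk y hy
    unfold R213.MN
    refine intervalIntegral.integral_congr fun r hr => ?_
    rw [uIcc_of_le zero_le_one] at hr
    rw [hgk (r * y) ⟨mul_nonneg hr.1 hy.1, ?_⟩]
    nlinarith [hr.1, hr.2, hy.1, hy.2]

/-! ### fundamental theorem on `[0,y0]` -/

theorem hasDerivWithinAt_prim {h : ℝ → ℝ} {y1 y : ℝ} (hh : ContinuousOn h (Icc 0 y0))
    (hy1 : y1 ∈ Icc 0 y0) (hy : y ∈ Icc 0 y0) :
    HasDerivWithinAt (fun z => ∫ t in y1..z, h t) (h y) (Icc 0 y0) y := by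
  have : Fact (y ∈ Icc 0 y0) := ⟨hy⟩
  refine intervalIntegral.integral_hasDerivWithinAt_right ?_ ?_ (hh y hy)
  · exact (hh.mono (Set.uIcc_subset_Icc hy1 hy)).intervalIntegrable
  · exact hh.stronglyMeasurableAtFilter_nhdsWithin measurableSet_Icc y

theorem eq_add_prim {h h1 : ℝ → ℝ} {y1 y : ℝ} (hh1 : ContinuousOn h1 (Icc 0 y0))
    (hd : ∀ z ∈ Icc 0 y0, HasDerivWithinAt h (h1 z) (Icc 0 y0) z)
    (hy1 : y1 ∈ Icc 0 y0) (hy : y ∈ Icc 0 y0) : h y = h y1 + ∫ t in y1..y, h1 t := by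
  have hsub := Set.uIcc_subset_Icc hy1 hy
  have h2 : ∫ t in y1..y, h1 t = h y - h y1 := by
    refine intervalIntegral.integral_eq_sub_of_hasDeriv_right ?_ ?_ ?_
    · exact fun z hz => ((hd z (hsub hz)).continuousWithinAt).mono hsub
    · intro z hz
      have hz' : z ∈ Ioo (min y1 y) (max y1 y) := hz
      have hz2 : z ∈ Ioo (0 : ℝ) y0 := by
        constructor
        · exact lt_of_le_of_lt (le_min hy1.1 hy.1) hz'.1
        · exact lt_of_lt_of_le hz'.2 (max_le hy1.2 hy.2)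
      have := (hd z (Ioo_subset_Icc_self hz2)).hasDerivAt (Icc_mem_nhds hz2.1 hz2.2)
      exact this.hasDerivWithinAt
    · exact (hh1.mono hsub).intervalIntegrable
  rw [h2]; ring

/-! ### pairs (function, `x`-derivative) -/

/-- `g1` is the `x`-derivative of `g`, both of class `C0` -/
structure CPair (s : Set ℝ) (y0 : ℝ) (g g1 : ℝ → ℝ → ℝ) : Prop where
  c0 : C0 s y0 g
  c1 : C0 s y0 g1
  d : ∀ τ ∈ s, ∀ y ∈ Icc 0 y0, HasDerivWithinAt (g τ) (g1 τ y) (Icc 0 y0) y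

/-- the primitive operator on `C([0,y0],ℝ)` -/
def primOp (h0 : 0 ≤ y0) : C(Icc (0 : ℝ) y0, ℝ) →L[ℝ] C(Icc (0 : ℝ) y0, ℝ) :=
  mkOp h0 (fun g y => ∫ t in (0 : ℝ)..y, g t) y0
    (fun _ hg => intervalIntegral.continuous_primitive (fun a b => hg.intervalIntegrable a b) 0)
    (fun _ _ hg hk _ =>
      intervalIntegral.integral_add (hg.intervalIntegrable _ _) (hk.intervalIntegrable _ _))
    (fun c g _ _ => intervalIntegral.integral_const_mul c g)
    (fun g _ B hB hgB y hy => by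
      have := intervalIntegral.norm_integral_le_of_norm_le_const (a := (0 : ℝ)) (b := y) (f := g)
        (C := B) (fun t _ => hgB t)
      have h2 : |y - 0| ≤ y0 := by
        rw [sub_zero, abs_of_nonneg hy.1]; exact hy.2
      calc |∫ t in (0 : ℝ)..y, g t| ≤ B * |y - 0| := this
        _ ≤ B * y0 := mul_le_mul_of_nonneg_left h2 hB
        _ = y0 * B := mul_comm _ _) h0

theorem primOp_apply (h0 : 0 ≤ y0) (g : C(Icc (0 : ℝ) y0, ℝ)) (y : Icc (0 : ℝ) y0) :
    primOp h0 g y = ∫ t in (0 : ℝ)..y, extC h0 g t := rfl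

theorem CPair.dt (hs : IsOpen s) (h0 : 0 ≤ y0) {g g1 : ℝ → ℝ → ℝ} (h : CPair s y0 g g1) :
    CPair s y0 (dt g) (dt g1) := by
  refine ⟨h.c0.dt hs, h.c1.dt hs, fun τ hτ y hy => ?_⟩
  obtain ⟨G, hG, hgG⟩ := h.c0
  obtain ⟨G1, hG1, hgG1⟩ := h.c1
  have m0 : (0 : ℝ) ∈ Icc 0 y0 := ⟨le_rfl, h0⟩
  have rel : ∀ r ∈ s, G r = algebraMap ℝ C(Icc (0 : ℝ) y0, ℝ) (G r ⟨0, m0⟩) + primOp h0 (G1 r) := by
    intro r hr
    ext z
    rw [ContinuousMap.add_apply, primOp_apply, ← hgG r hr z]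
    have h2 := eq_add_prim (h.c1.continuousOn_right hr) (h.d r hr) m0 z.2
    have h3 : ∫ t in (0 : ℝ)..z, g1 r t = ∫ t in (0 : ℝ)..z, extC h0 (G1 r) t := by
      refine intervalIntegral.integral_congr fun t ht => ?_
      have ht' := Set.uIcc_subset_Icc m0 z.2 ht
      rw [extC_of_mem h0 _ ht', ← hgG1 r hr ⟨t, ht'⟩]
    rw [h2, h3, ← hgG r hr ⟨0, m0⟩]
    simp
  have d1 := smoothCurve_hasDerivAt hs hG hτ
  have d2 := smoothCurve_hasDerivAt hs hG1 hτ
  have d3 : HasDerivAt (fun r => algebraMap ℝ C(Icc (0 : ℝ) y0, ℝ) (G r ⟨0, m0⟩) +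
      primOp h0 (G1 r))
      (algebraMap ℝ C(Icc (0 : ℝ) y0, ℝ) (deriv G τ ⟨0, m0⟩) + primOp h0 (deriv G1 τ)) τ := by
    refine HasDerivAt.add ?_ ?_
    · have e1 := (ContinuousMap.evalCLM ℝ (⟨0, m0⟩ : Icc (0 : ℝ) y0)).hasFDerivAt.comp_hasDerivAt τ d1
      exact (Algebra.linearMap ℝ C(Icc (0 : ℝ) y0, ℝ)).toContinuousLinearMap.hasFDerivAt.comp_hasDerivAt
        τ e1
    · exact (primOp h0).hasFDerivAt.comp_hasDerivAt τ d2
  have rel' : deriv G τ = algebraMap ℝ C(Icc (0 : ℝ) y0, ℝ) (deriv G τ ⟨0, m0⟩) +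
      primOp h0 (deriv G1 τ) := by
    have h4 : HasDerivAt G (algebraMap ℝ C(Icc (0 : ℝ) y0, ℝ) (deriv G τ ⟨0, m0⟩) +
      primOp h0 (deriv G1 τ)) τ := by
      refine d3.congr_of_eventuallyEq ?_
      filter_upwards [hs.mem_nhds hτ] with r hr using rel r hr
    exact h4.deriv
  have e0 : ∀ z ∈ Icc 0 y0, R213.dt g τ z = deriv G τ ⟨0, m0⟩ +
      ∫ t in (0 : ℝ)..z, extC h0 (deriv G1 τ) t := by
    intro z hz
    have h5 := C0.dt_eq hs hG hgG hτ ⟨z, hz⟩
    have h6 := congrArg (fun k : C(Icc (0 : ℝ) y0, ℝ) => k ⟨z, hz⟩) rel'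
    simp only [ContinuousMap.add_apply, primOp_apply] at h6
    rw [show R213.dt g τ z = deriv G τ ⟨z, hz⟩ from h5, h6]
    simp
  have e1 : R213.dt g1 τ y = extC h0 (deriv G1 τ) y := by
    rw [extC_of_mem h0 _ hy]
    exact C0.dt_eq hs hG1 hgG1 hτ ⟨y, hy⟩
  rw [e1]
  have h7 := (hasDerivWithinAt_prim (continuous_extC h0 (deriv G1 τ)).continuousOn m0 hy).const_add
    (deriv G τ ⟨0, m0⟩)
  exact h7.congr e0 (e0 y hy)

/-! ### the classes `CK` -/

/-- all `τ`-derivatives of all `x`-derivatives of order `≤ k` are continuous up to the boundary -/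
def CK (s : Set ℝ) (y0 : ℝ) : ℕ → (ℝ → ℝ → ℝ) → Prop
  | 0, f => C0 s y0 f
  | (k + 1), f => C0 s y0 f ∧ ∃ f1, CK s y0 k f1 ∧
      ∀ τ ∈ s, ∀ y ∈ Icc 0 y0, HasDerivWithinAt (f τ) (f1 τ y) (Icc 0 y0) y

theorem CK.c0 {k : ℕ} (h : CK s y0 k f) : C0 s y0 f := by
  cases k with
  | zero => exact h
  | succ k => exact h.1

theorem CK.congr {k : ℕ} (hf : CK s y0 k f) (h : ∀ τ ∈ s, ∀ y ∈ Icc 0 y0, g τ y = f τ y) :
    CK s y0 k g := by
  cases k with
  | zero => exact C0.congr hf h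
  | succ k =>
    obtain ⟨h1, f1, h2, h3⟩ := hf
    exact ⟨h1.congr h, f1, h2, fun τ hτ y hy => (h3 τ hτ y hy).congr (h τ hτ) (h τ hτ y hy)⟩

theorem CK.pred {k : ℕ} (hf : CK s y0 (k + 1) f) : CK s y0 k f := by
  induction k generalizing f with
  | zero => exact hf.1
  | succ k ih =>
    obtain ⟨h1, f1, h2, h3⟩ := hf
    exact ⟨h1, f1, ih h2, h3⟩

theorem CK.mono {k l : ℕ} (hkl : l ≤ k) (hf : CK s y0 k f) : CK s y0 l f := by
  induction k, hkl using Nat.le_induction with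
  | base => exact hf
  | succ k _ ih => exact ih hf.pred

theorem CK.add {k : ℕ} (hf : CK s y0 k f) (hg : CK s y0 k g) :
    CK s y0 k (fun τ y => f τ y + g τ y) := by
  induction k generalizing f g with
  | zero => exact C0.add hf hg
  | succ k ih =>
    obtain ⟨a1, f1, a2, a3⟩ := hf
    obtain ⟨b1, g1, b2, b3⟩ := hg
    exact ⟨a1.add b1, _, ih a2 b2, fun τ hτ y hy => (a3 τ hτ y hy).add (b3 τ hτ y hy)⟩

theorem CK.mul {k : ℕ} (hf : CK s y0 k f) (hg : CK s y0 k g) :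
    CK s y0 k (fun τ y => f τ y * g τ y) := by
  induction k generalizing f g with
  | zero => exact C0.mul hf hg
  | succ k ih =>
    have hf' := hf.pred
    have hg' := hg.pred
    obtain ⟨a1, f1, a2, a3⟩ := hf
    obtain ⟨b1, g1, b2, b3⟩ := hg
    exact ⟨a1.mul b1, _, (ih a2 hg').add (ih hf' b2),
      fun τ hτ y hy => (a3 τ hτ y hy).mul (b3 τ hτ y hy)⟩

theorem CK.of_left {c : ℝ → ℝ} (hc : ContDiffOn ℝ ∞ c s) (k : ℕ) :
    CK s y0 k (fun τ _ => c τ) := by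
  induction k generalizing c with
  | zero => exact C0.of_left hc
  | succ k ih =>
    exact ⟨C0.of_left hc, fun _ _ => 0, ih contDiffOn_const,
      fun _ _ _ _ => hasDerivWithinAt_const _ _ _⟩

theorem CK.const (c : ℝ) (k : ℕ) : CK s y0 k (fun _ _ => c) := CK.of_left contDiffOn_const k

theorem CK.neg {k : ℕ} (hf : CK s y0 k f) : CK s y0 k (fun τ y => - f τ y) :=
  ((CK.const (-1) k).mul hf).congr fun τ _ y _ => by ring

theorem CK.sub {k : ℕ} (hf : CK s y0 k f) (hg : CK s y0 k g) :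
    CK s y0 k (fun τ y => f τ y - g τ y) :=
  (hf.add hg.neg).congr fun τ _ y _ => by ring

theorem CK.inv {k : ℕ} (hf : CK s y0 k f) (h0 : ∀ τ ∈ s, ∀ y ∈ Icc 0 y0, f τ y ≠ 0) :
    CK s y0 k (fun τ y => (f τ y)⁻¹) := by
  induction k generalizing f with
  | zero => exact C0.inv hf h0
  | succ k ih =>
    have hf' := ih hf.pred h0
    obtain ⟨a1, f1, a2, a3⟩ := hf
    refine ⟨a1.inv h0, _, a2.neg.mul (hf'.mul hf'), fun τ hτ y hy => ?_⟩
    have := (a3 τ hτ y hy).fun_inv (h0 τ hτ y hy)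
    have e : -f1 τ y / f τ y ^ 2 = -f1 τ y * ((f τ y)⁻¹ * (f τ y)⁻¹) := by
      rw [div_eq_mul_inv, sq, mul_inv]
    rw [e] at this
    exact this

theorem CK.of_sm (hs : IsOpen s) (h0 : 0 < y0) (hf : Sm s y0 f) (k : ℕ) : CK s y0 k f := by
  have key : ∀ f, Sm s y0 f → C0 s y0 f := by
    intro f hf
    have h1 := C0.of_family hs (U := fun j => R213.dt^[j] f)
      (fun j => (hf.dt_iter hs h0 j).continuousOn) (fun j τ hτ y hy => ?_)
    · exact h1
    · rw [Function.iterate_succ_apply']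
      exact (hf.dt_iter hs h0 j).hasDt hs hτ hy
  induction k generalizing f with
  | zero => exact key f hf
  | succ k ih =>
    exact ⟨key f hf, R213.dx y0 f, ih (hf.dx hs h0), fun τ hτ y hy => hf.hasDx h0 hτ hy⟩

theorem CK.dt {k : ℕ} (hs : IsOpen s) (h0 : 0 ≤ y0) (hf : CK s y0 k f) : CK s y0 k (dt f) := by
  induction k generalizing f with
  | zero => exact C0.dt hs hf
  | succ k ih =>
    obtain ⟨a1, f1, a2, a3⟩ := hf
    have hp : CPair s y0 f f1 := ⟨a1, a2.c0, a3⟩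
    exact ⟨a1.dt hs, _, ih a2, (hp.dt hs h0).d⟩

theorem CK.dx {k : ℕ} (h0 : 0 < y0) (hf : CK s y0 (k + 1) f) : CK s y0 k (dx y0 f) := by
  obtain ⟨a1, f1, a2, a3⟩ := hf
  exact a2.congr fun τ hτ y hy => (a3 τ hτ y hy).derivWithin (uniqueDiffOn_Icc h0 y hy)

theorem CK.hasDx {k : ℕ} (h0 : 0 < y0) (hf : CK s y0 (k + 1) f) {τ y : ℝ} (hτ : τ ∈ s)
    (hy : y ∈ Icc 0 y0) : HasDerivWithinAt (f τ) (R213.dx y0 f τ y) (Icc 0 y0) y := by
  obtain ⟨a1, f1, a2, a3⟩ := hf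
  have := a3 τ hτ y hy
  rwa [← (a3 τ hτ y hy).derivWithin (uniqueDiffOn_Icc h0 y hy)] at this

theorem sm_of_CK {a b : ℝ} (h0 : 0 < y0) (hf : ∀ k, CK (Ioo a b) y0 k f) : Sm (Ioo a b) y0 f := by
  have hs : IsOpen (Ioo a b) := isOpen_Ioo
  have hj : ∀ j k, CK (Ioo a b) y0 k ((dx y0)^[j] f) := by
    intro j
    induction j with
    | zero => exact hf
    | succ j ih =>
      intro k
      rw [Function.iterate_succ_apply']
      exact CK.dx h0 (ih (k + 1))
  have hp : ∀ i j, CPair (Ioo a b) y0 (R213.dt^[i] ((dx y0)^[j] f))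
      (R213.dt^[i] ((dx y0)^[j + 1] f)) := by
    intro i j
    induction i with
    | zero =>
      refine ⟨(hj j 0).c0, (hj (j + 1) 0).c0, fun τ hτ y hy => ?_⟩
      simp only [Function.iterate_zero, id]
      rw [Function.iterate_succ_apply']
      exact CK.hasDx h0 (hj j 1) hτ hy
    | succ i ih =>
      rw [Function.iterate_succ_apply', Function.iterate_succ_apply']
      exact ih.dt hs h0.le
  refine J1.sm_of_mixed h0 (fun i j => R213.dt^[i] ((dx y0)^[j] f))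
    (fun i j => (hp i j).c0.continuousOn) (fun i j t ht x hx => ?_) (fun i j t ht x hx => ?_)
  · rw [Function.iterate_succ_apply']
    exact (hp i j).c0.hasDerivAt hs ht hx
  · exact (hp i j).d t ht x hx

theorem CK.prim {k : ℕ} (h0 : 0 ≤ y0) {y1 : ℝ} (hy1 : y1 ∈ Icc 0 y0) {c : ℝ → ℝ}
    (hc : ContDiffOn ℝ ∞ c s) (hf : CK s y0 k f) :
    CK s y0 (k + 1) (fun τ y => c τ + ∫ t in y1..y, f τ t) :=
  ⟨(C0.of_left hc).add (hf.c0.prim h0 hy1), f, hf, fun _ hτ _ hy =>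
    (hasDerivWithinAt_prim (hf.c0.continuousOn_right hτ) hy1 hy).const_add _⟩

theorem CK.of_right {c : ℝ → ℝ} (hc : ContDiff ℝ ∞ c) (k : ℕ) :
    CK s y0 k (fun _ y => c y) := by
  induction k generalizing c with
  | zero => exact C0.of_right hc.continuous.continuousOn
  | succ k ih =>
    refine ⟨C0.of_right hc.continuous.continuousOn, fun _ y => deriv c y,
      ih (contDiff_infty_iff_deriv.1 hc).2, fun _ _ y _ => ?_⟩
    exact ((contDiff_infty_iff_deriv.1 hc).1 y).hasDerivAt.hasDerivWithinAt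

/-! ### derivative of `M_N` -/

theorem MN_congr {h k : ℝ → ℝ} {N : ℕ} {y : ℝ} (hy : y ∈ Icc 0 y0)
    (e : ∀ z ∈ Icc 0 y0, h z = k z) : MN N h y = MN N k y := by
  unfold MN
  refine intervalIntegral.integral_congr fun r hr => ?_
  rw [uIcc_of_le zero_le_one] at hr
  rw [e (r * y) ⟨mul_nonneg hr.1 hy.1, ?_⟩]
  nlinarith [hr.1, hr.2, hy.1, hy.2]

theorem hasDerivWithinAt_MN {h h1 : ℝ → ℝ} (N : ℕ) (h0 : 0 ≤ y0)
    (hh1 : ContinuousOn h1 (Icc 0 y0))
    (hd : ∀ z ∈ Icc 0 y0, HasDerivWithinAt h (h1 z) (Icc 0 y0) z) {y : ℝ} (hy : y ∈ Icc 0 y0) :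
    HasDerivWithinAt (MN N h) (MN (N + 1) h1 y) (Icc 0 y0) y := by
  have m0 : (0 : ℝ) ∈ Icc 0 y0 := ⟨le_rfl, h0⟩
  set E1 : C(Icc (0 : ℝ) y0, ℝ) := ⟨fun z => h1 z, hh1.domRestrict⟩ with hE1
  set e1 : ℝ → ℝ := extC h0 E1 with he1
  have e1c : Continuous e1 := continuous_extC h0 E1
  have e1eq : ∀ z ∈ Icc 0 y0, h1 z = e1 z := fun z hz => (extC_of_mem h0 E1 hz).symm
  have e1b : ∀ z, |e1 z| ≤ ‖E1‖ := abs_extC_le h0 E1
  set H : ℝ → ℝ := fun z => h 0 + ∫ t in (0 : ℝ)..z, e1 t with hH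
  have Hd : ∀ z, HasDerivAt H (e1 z) z := fun z =>
    (intervalIntegral.integral_hasDerivAt_right (e1c.intervalIntegrable _ _)
      (e1c.stronglyMeasurableAtFilter _ _) e1c.continuousAt).const_add (h 0)
  have Hc : Continuous H := continuous_iff_continuousAt.2 fun z => (Hd z).continuousAt
  have Heq : ∀ z ∈ Icc 0 y0, h z = H z := by
    intro z hz
    rw [eq_add_prim hh1 hd m0 hz, hH]
    simp only
    congr 1
    refine intervalIntegral.integral_congr fun t ht => ?_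
    exact e1eq t (Set.uIcc_subset_Icc m0 hz ht)
  have key : HasDerivAt (MN N H) (MN (N + 1) e1 y) y := by
    have := (intervalIntegral.hasDerivAt_integral_of_dominated_loc_of_deriv_le (μ := volume)
      (F := fun y r => (1 - r) * r ^ N * H (r * y))
      (F' := fun y r => (1 - r) * r ^ (N + 1) * e1 (r * y)) (x₀ := y) (s := univ)
      (a := (0 : ℝ)) (b := 1) (bound := fun _ => ‖E1‖) Filter.univ_mem
      (Filter.Eventually.of_forall fun z => ?_) ?_ ?_ ?_ ?_ ?_).2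
    · exact this
    · exact (Continuous.aestronglyMeasurable (by fun_prop)).restrict
    · exact Continuous.intervalIntegrable (by fun_prop) _ _
    · exact (Continuous.aestronglyMeasurable (by fun_prop)).restrict
    · refine Filter.Eventually.of_forall fun r hr z _ => ?_
      rw [uIoc_of_le zero_le_one] at hr
      rw [Real.norm_eq_abs, abs_mul, abs_mul, abs_of_nonneg (by linarith [hr.2] : 0 ≤ 1 - r),
        abs_of_nonneg (pow_nonneg hr.1.le _)]
      have h1 : (1 - r) * r ^ (N + 1) ≤ 1 := by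
        have := pow_le_one₀ (n := N + 1) hr.1.le hr.2
        nlinarith [pow_nonneg hr.1.le (N + 1), hr.1, hr.2]
      calc (1 - r) * r ^ (N + 1) * |e1 (r * z)| ≤ 1 * ‖E1‖ :=
            mul_le_mul h1 (e1b _) (abs_nonneg _) zero_le_one
        _ = ‖E1‖ := one_mul _
    · exact intervalIntegrable_const
    · refine Filter.Eventually.of_forall fun r _ z _ => ?_
      have h2 : HasDerivAt (fun z => H (r * z)) (e1 (r * z) * r) z := by
        have h3 : HasDerivAt (fun z : ℝ => r * z) r z := by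
          simpa using (hasDerivAt_id z).const_mul r
        exact (Hd (r * z)).comp z h3
      have h4 := h2.const_mul ((1 - r) * r ^ N)
      have h5 : (1 - r) * r ^ N * (e1 (r * z) * r) = (1 - r) * r ^ (N + 1) * e1 (r * z) := by
        ring
      rw [h5] at h4
      exact h4
  have e3 : MN (N + 1) h1 y = MN (N + 1) e1 y := MN_congr hy e1eq
  rw [e3]
  exact key.hasDerivWithinAt.congr (fun z hz => MN_congr hz Heq) (MN_congr hy Heq)

theorem CK.MN {k : ℕ} (h0 : 0 ≤ y0) (N : ℕ) (hf : CK s y0 k f) :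
    CK s y0 k (fun τ y => MN N (f τ) y) := by
  induction k generalizing f N with
  | zero => exact C0.MN h0 N hf
  | succ k ih =>
    obtain ⟨a1, f1, a2, a3⟩ := hf
    exact ⟨C0.MN h0 N a1, _, ih (N + 1) a2, fun τ hτ y hy =>
      hasDerivWithinAt_MN N h0 (a2.c0.continuousOn_right hτ) (a3 τ hτ) hy⟩

/-! ### double primitive -/

theorem double_prim_cont {h : ℝ → ℝ} (hh : Continuous h) (y1 y : ℝ) :
    ∫ t in y1..y, (y - t) * h t = ∫ t in y1..y, ∫ z in y1..t, h z := by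
  have hI : ∀ z, HasDerivAt (fun z => ∫ t in y1..z, h t) (h z) z := fun z =>
    intervalIntegral.integral_hasDerivAt_right (hh.intervalIntegrable _ _)
      (hh.stronglyMeasurableAtFilter _ _) hh.continuousAt
  have hh2 : Continuous (fun t => t * h t) := by fun_prop
  have hJ : ∀ z, HasDerivAt (fun z => ∫ t in y1..z, t * h t) (z * h z) z := fun z =>
    intervalIntegral.integral_hasDerivAt_right (hh2.intervalIntegrable _ _)
      (hh2.stronglyMeasurableAtFilter _ _) hh2.continuousAt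
  have hIc : Continuous (fun z => ∫ t in y1..z, h t) :=
    continuous_iff_continuousAt.2 fun z => (hI z).continuousAt
  have hK : ∀ z, HasDerivAt (fun z => ∫ t in y1..z, ∫ w in y1..t, h w) (∫ t in y1..z, h t) z :=
    fun z => intervalIntegral.integral_hasDerivAt_right (hIc.intervalIntegrable _ _)
      (hIc.stronglyMeasurableAtFilter _ _) hIc.continuousAt
  have e : ∀ z, ∫ t in y1..z, (z - t) * h t = z * (∫ t in y1..z, h t) - ∫ t in y1..z, t * h t := by
    intro z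
    rw [← intervalIntegral.integral_const_mul, ← intervalIntegral.integral_sub]
    · refine intervalIntegral.integral_congr fun t _ => ?_
      ring
    · exact Continuous.intervalIntegrable (by fun_prop) _ _
    · exact hh2.intervalIntegrable _ _
  have hd : ∀ z, HasDerivAt (fun z => z * (∫ t in y1..z, h t) - (∫ t in y1..z, t * h t)
      - ∫ t in y1..z, ∫ w in y1..t, h w) 0 z := by
    intro z
    have h1 := (((hasDerivAt_id' z).mul (hI z)).sub (hJ z)).sub (hK z)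
    have h2 : 1 * (∫ t in y1..z, h t) + z * h z - z * h z - (∫ t in y1..z, h t) = 0 := by ring
    rw [h2] at h1
    exact h1
  have hconst := is_const_of_deriv_eq_zero (fun z => (hd z).differentiableAt)
    (fun z => (hd z).deriv) y y1
  simp only [intervalIntegral.integral_same, mul_zero, sub_zero] at hconst
  rw [e y]
  linarith

theorem double_prim {h : ℝ → ℝ} (h0 : 0 ≤ y0) (hh : ContinuousOn h (Icc 0 y0)) {y1 y : ℝ}
    (hy1 : y1 ∈ Icc 0 y0) (hy : y ∈ Icc 0 y0) :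
    ∫ t in y1..y, (y - t) * h t = ∫ t in y1..y, ∫ z in y1..t, h z := by
  set E1 : C(Icc (0 : ℝ) y0, ℝ) := ⟨fun z => h z, hh.domRestrict⟩ with hE1
  set e1 : ℝ → ℝ := extC h0 E1 with he1
  have e1eq : ∀ z ∈ Icc 0 y0, h z = e1 z := fun z hz => (extC_of_mem h0 E1 hz).symm
  have e2 : ∫ t in y1..y, (y - t) * h t = ∫ t in y1..y, (y - t) * e1 t :=
    intervalIntegral.integral_congr fun t ht => by
      rw [e1eq t (Set.uIcc_subset_Icc hy1 hy ht)]
  have e3 : ∫ t in y1..y, ∫ z in y1..t, h z = ∫ t in y1..y, ∫ z in y1..t, e1 z :=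
    intervalIntegral.integral_congr fun t ht =>
      intervalIntegral.integral_congr fun z hz => e1eq z
        (Set.uIcc_subset_Icc hy1 (Set.uIcc_subset_Icc hy1 hy ht) hz)
  rw [e2, e3, double_prim_cont (continuous_extC h0 E1)]

/-- `δ = a + b (y-y1) + ∫_{y1}^y (y-t) r` -/
def dprim (y1 : ℝ) (a b : ℝ → ℝ) (r : ℝ → ℝ → ℝ) : ℝ → ℝ → ℝ := fun τ y =>
  a τ + b τ * (y - y1) + ∫ t in y1..y, (y - t) * r τ t

theorem CK.dprim_aux {k : ℕ} (h0 : 0 ≤ y0) {y1 : ℝ} (hy1 : y1 ∈ Icc 0 y0) {a b : ℝ → ℝ}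
    (ha : ContDiffOn ℝ ∞ a s) (hb : ContDiffOn ℝ ∞ b s) (hf : CK s y0 k f) :
    CK s y0 (k + 1) (fun τ y => b τ + ∫ t in y1..y, f τ t) ∧
    CK s y0 (k + 2) (fun τ y => a τ + ∫ t in y1..y, (b τ + ∫ z in y1..t, f τ z)) ∧
    ∀ τ ∈ s, ∀ y ∈ Icc 0 y0, dprim y1 a b f τ y =
      a τ + ∫ t in y1..y, (b τ + ∫ z in y1..t, f τ z) := by
  have h1 : CK s y0 (k + 1) (fun τ y => b τ + ∫ t in y1..y, f τ t) := hf.prim h0 hy1 hb
  refine ⟨h1, h1.prim h0 hy1 ha, fun τ hτ y hy => ?_⟩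
  have hc := hf.c0.continuousOn_right hτ
  have hc2 : ContinuousOn (fun t => ∫ z in y1..t, f τ z) (Icc 0 y0) := fun z hz =>
    (hasDerivWithinAt_prim hc hy1 hz).continuousWithinAt
  rw [intervalIntegral.integral_add intervalIntegrable_const
    ((hc2.mono (Set.uIcc_subset_Icc hy1 hy)).intervalIntegrable), dprim,
    double_prim h0 hc hy1 hy, intervalIntegral.integral_const, smul_eq_mul]
  ring

theorem CK.dprim {k : ℕ} (h0 : 0 ≤ y0) {y1 : ℝ} (hy1 : y1 ∈ Icc 0 y0) {a b : ℝ → ℝ}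
    (ha : ContDiffOn ℝ ∞ a s) (hb : ContDiffOn ℝ ∞ b s) (hf : CK s y0 k f) :
    CK s y0 (k + 2) (dprim y1 a b f) :=
  (CK.dprim_aux h0 hy1 ha hb hf).2.1.congr (CK.dprim_aux h0 hy1 ha hb hf).2.2



end Crest.Agent.R213
end
end

-- ▼ part R213/SCls
section

/-!
# Row 213: weighted classes `SC` and the half-interval bootstrap

`SC s y0 p f`: `y^p f` is a smooth curve of bounded continuous functions on `(0,y0]`.
-/

set_option autoImplicit false

open Set MeasureTheory Filter Topology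
open scoped ContDiff BoundedContinuousFunction

noncomputable section

namespace Crest.Agent.R213

/-- bounded continuous functions on `(0,y0]` -/
abbrev BX (y0 : ℝ) : Type := (Ioc (0 : ℝ) y0) →ᵇ ℝ

/-- `y^p f` is a smooth curve in `BX y0` -/
def SC (s : Set ℝ) (y0 : ℝ) (p : ℕ) (f : ℝ → ℝ → ℝ) : Prop :=
  ∃ g : ℝ → BX y0, ContDiffOn ℝ ∞ g s ∧ ∀ τ ∈ s, ∀ y : Ioc (0 : ℝ) y0, (y : ℝ) ^ p * f τ y = g τ y

variable {s : Set ℝ} {y0 : ℝ} {f g : ℝ → ℝ → ℝ} {p : ℕ}

theorem SC.congr (hf : SC s y0 p f) (h : ∀ τ ∈ s, ∀ y ∈ Ioc 0 y0, g τ y = f τ y) :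
    SC s y0 p g := by
  obtain ⟨G, hG, hfG⟩ := hf
  exact ⟨G, hG, fun τ hτ y => by rw [h τ hτ y y.2, hfG τ hτ y]⟩

theorem SC.add (hf : SC s y0 p f) (hg : SC s y0 p g) : SC s y0 p (fun τ y => f τ y + g τ y) := by
  obtain ⟨F, hF, hfF⟩ := hf
  obtain ⟨G, hG, hgG⟩ := hg
  exact ⟨fun τ => F τ + G τ, hF.add hG, fun τ hτ y => by
    rw [mul_add, hfF τ hτ y, hgG τ hτ y]; rfl⟩

/-- restriction `C([0,y0]) → BX y0` -/
def resOp (y0 : ℝ) : C(Icc (0 : ℝ) y0, ℝ) →L[ℝ] BX y0 :=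
  LinearMap.mkContinuous
    { toFun := fun g => BoundedContinuousFunction.ofNormedAddCommGroup
        (fun y : Ioc (0 : ℝ) y0 => g ⟨y, ⟨y.2.1.le, y.2.2⟩⟩)
        (g.continuous.comp (by fun_prop)) ‖g‖ (fun y => g.norm_coe_le_norm _)
      map_add' := fun g k => by ext y; rfl
      map_smul' := fun c g => by ext y; rfl } 1
    (fun g => by
      rw [one_mul]
      exact (BoundedContinuousFunction.norm_le (norm_nonneg g)).2 fun y => g.norm_coe_le_norm _)

theorem resOp_apply (g : C(Icc (0 : ℝ) y0, ℝ)) (y : Ioc (0 : ℝ) y0) :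
    resOp y0 g y = g ⟨y, ⟨y.2.1.le, y.2.2⟩⟩ := rfl

theorem SC.mul_c0 (hf : SC s y0 p f) (hg : C0 s y0 g) : SC s y0 p (fun τ y => g τ y * f τ y) := by
  obtain ⟨F, hF, hfF⟩ := hf
  obtain ⟨G, hG, hgG⟩ := hg
  refine ⟨fun τ => resOp y0 (G τ) * F τ, ((resOp y0).contDiff.comp_contDiffOn hG).mul hF,
    fun τ hτ y => ?_⟩
  have h1 : (resOp y0 (G τ) * F τ) y = resOp y0 (G τ) y * F τ y := rfl
  rw [h1, ← hfF τ hτ y, resOp_apply, ← hgG τ hτ ⟨y, ⟨y.2.1.le, y.2.2⟩⟩]
  ring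

theorem SC.of_c0_zero (hf : C0 s y0 f) : SC s y0 0 f := by
  obtain ⟨G, hG, hgG⟩ := hf
  refine ⟨fun τ => resOp y0 (G τ), (resOp y0).contDiff.comp_contDiffOn hG, fun τ hτ y => ?_⟩
  rw [resOp_apply, ← hgG τ hτ ⟨y, ⟨y.2.1.le, y.2.2⟩⟩]
  simp

theorem SC.mono {q : ℕ} (hpq : p ≤ q) (hf : SC s y0 p f) : SC s y0 q f := by
  obtain ⟨F, hF, hfF⟩ := hf
  have hy : C0 s y0 (fun _ y => y ^ (q - p)) := C0.of_right (by fun_prop)
  obtain ⟨Y, hY, hyY⟩ := hy
  refine ⟨fun τ => resOp y0 (Y τ) * F τ, ((resOp y0).contDiff.comp_contDiffOn hY).mul hF,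
    fun τ hτ y => ?_⟩
  have h1 : (resOp y0 (Y τ) * F τ) y = resOp y0 (Y τ) y * F τ y := rfl
  rw [h1, ← hfF τ hτ y, resOp_apply, ← hyY τ hτ ⟨y, ⟨y.2.1.le, y.2.2⟩⟩, ← mul_assoc, ← pow_add,
    Nat.sub_add_cancel hpq]

theorem SC.of_c0 (hf : C0 s y0 f) : SC s y0 p f := (SC.of_c0_zero hf).mono (Nat.zero_le p)

theorem SC.hasDerivAt (hs : IsOpen s) (hf : SC s y0 p f) {τ : ℝ} (hτ : τ ∈ s) {y : ℝ}
    (hy : y ∈ Ioc 0 y0) : HasDerivAt (fun r => f r y) (dt f τ y) τ := by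
  obtain ⟨G, hG, hfG⟩ := hf
  have h1 := (BoundedContinuousFunction.evalCLM ℝ (⟨y, hy⟩ : Ioc (0 : ℝ) y0)).hasFDerivAt.comp_hasDerivAt τ
    (smoothCurve_hasDerivAt hs hG hτ)
  have hyp : (0 : ℝ) < y ^ p := pow_pos hy.1 p
  have h2 : HasDerivAt (fun r => f r y) ((y ^ p)⁻¹ * deriv G τ ⟨y, hy⟩) τ := by
    have h3 := h1.const_mul ((y ^ p)⁻¹)
    refine h3.congr_of_eventuallyEq ?_
    filter_upwards [hs.mem_nhds hτ] with r hr
    have := hfG r hr ⟨y, hy⟩
    change f r y = (y ^ p)⁻¹ * G r ⟨y, hy⟩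
    rw [← this]
    field_simp
  have h4 : R213.dt f τ y = (y ^ p)⁻¹ * deriv G τ ⟨y, hy⟩ := h2.deriv
  rwa [h4]

theorem SC.dt (hs : IsOpen s) (hf : SC s y0 p f) : SC s y0 p (dt f) := by
  obtain ⟨G, hG, hfG⟩ := hf
  refine ⟨deriv G, smoothCurve_deriv hs hG, fun τ hτ y => ?_⟩
  have h1 := (BoundedContinuousFunction.evalCLM ℝ y).hasFDerivAt.comp_hasDerivAt τ
    (smoothCurve_hasDerivAt hs hG hτ)
  have hyp : (0 : ℝ) < (y : ℝ) ^ p := pow_pos y.2.1 p
  have h2 : HasDerivAt (fun r => f r y) (((y : ℝ) ^ p)⁻¹ * deriv G τ y) τ := by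
    have h3 := h1.const_mul (((y : ℝ) ^ p)⁻¹)
    refine h3.congr_of_eventuallyEq ?_
    filter_upwards [hs.mem_nhds hτ] with r hr
    have := hfG r hr y
    change f r y = ((y : ℝ) ^ p)⁻¹ * G r y
    rw [← this]
    field_simp
  have h4 : R213.dt f τ y = ((y : ℝ) ^ p)⁻¹ * deriv G τ y := h2.deriv
  rw [h4]
  field_simp

/-! ### extension of elements of `BX` by zero -/

open Classical in
/-- extension by zero -/
def exB (g : BX y0) : ℝ → ℝ := fun t => if h : t ∈ Ioc (0 : ℝ) y0 then g ⟨t, h⟩ else 0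

theorem exB_of_mem (g : BX y0) {t : ℝ} (ht : t ∈ Ioc (0 : ℝ) y0) : exB g t = g ⟨t, ht⟩ := by
  simp only [exB, dif_pos ht]

theorem abs_exB_le (g : BX y0) (t : ℝ) : |exB g t| ≤ ‖g‖ := by
  unfold exB
  split_ifs with h
  · exact g.norm_coe_le_norm _
  · simp

theorem exB_add (g k : BX y0) (t : ℝ) : exB (g + k) t = exB g t + exB k t := by
  unfold exB
  split_ifs with h
  · rfl
  · simp

theorem exB_smul (c : ℝ) (g : BX y0) (t : ℝ) : exB (c • g) t = c * exB g t := by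
  unfold exB
  split_ifs with h
  · rfl
  · simp

theorem continuousOn_exB (g : BX y0) : ContinuousOn (exB g) (Ioc 0 y0) := by
  rw [continuousOn_iff_continuous_domRestrict]
  refine g.continuous.congr fun y => ?_
  exact (exB_of_mem g y.2).symm

theorem measurable_exB (g : BX y0) : Measurable (exB g) := by
  unfold exB
  exact Measurable.dite (g.continuous.measurable) measurable_const measurableSet_Ioc

theorem intervalIntegrable_of_bdd {h : ℝ → ℝ} (hm : Measurable h) {B : ℝ} (hB : ∀ t, |h t| ≤ B)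
    (a b : ℝ) : IntervalIntegrable h volume a b := by
  rw [intervalIntegrable_iff]
  refine Measure.integrableOn_of_bounded (M := B) ?_ hm.aestronglyMeasurable
    (Filter.Eventually.of_forall fun t => hB t)
  simp

/-- operators on `BX y0` -/
def mkB (T : (ℝ → ℝ) → ℝ → ℝ) (C : ℝ)
    (hcont : ∀ g : BX y0, ContinuousOn (T (exB g)) (Ioc 0 y0))
    (hadd : ∀ g k : BX y0, ∀ y ∈ Ioc 0 y0,
      T (fun t => exB g t + exB k t) y = T (exB g) y + T (exB k) y)
    (hsmul : ∀ (c : ℝ) (g : BX y0), ∀ y ∈ Ioc 0 y0, T (fun t => c * exB g t) y = c * T (exB g) y)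
    (hbd : ∀ g : BX y0, ∀ y ∈ Ioc 0 y0, |T (exB g) y| ≤ C * ‖g‖) : BX y0 →L[ℝ] BX y0 :=
  LinearMap.mkContinuous
    { toFun := fun g => BoundedContinuousFunction.ofNormedAddCommGroup
        (fun y : Ioc (0 : ℝ) y0 => T (exB g) y)
        ((hcont g).domRestrict) (C * ‖g‖) (fun y => hbd g y y.2)
      map_add' := fun g k => by
        ext y
        have e : exB (g + k) = fun t => exB g t + exB k t := funext fun t => exB_add g k t
        change T (exB (g + k)) y = T (exB g) y + T (exB k) y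
        rw [e]
        exact hadd g k y y.2
      map_smul' := fun c g => by
        ext y
        have e : exB (c • g) = fun t => c * exB g t := funext fun t => exB_smul c g t
        change T (exB (c • g)) y = c * T (exB g) y
        rw [e]
        exact hsmul c g y y.2 } (max C 0)
    (fun g => by
      refine (BoundedContinuousFunction.norm_le (by positivity)).2 fun y => ?_
      exact (hbd g y y.2).trans (mul_le_mul_of_nonneg_right (le_max_left _ _) (norm_nonneg g)))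

theorem mkB_apply (T : (ℝ → ℝ) → ℝ → ℝ) (C : ℝ)
    (hcont : ∀ g : BX y0, ContinuousOn (T (exB g)) (Ioc 0 y0))
    (hadd : ∀ g k : BX y0, ∀ y ∈ Ioc 0 y0,
      T (fun t => exB g t + exB k t) y = T (exB g) y + T (exB k) y)
    (hsmul : ∀ (c : ℝ) (g : BX y0), ∀ y ∈ Ioc 0 y0, T (fun t => c * exB g t) y = c * T (exB g) y)
    (hbd : ∀ g : BX y0, ∀ y ∈ Ioc 0 y0, |T (exB g) y| ≤ C * ‖g‖) (g : BX y0)
    (y : Ioc (0 : ℝ) y0) : mkB T C hcont hadd hsmul hbd g y = T (exB g) y := rfl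

/-- build `SC` from an operator on bounded functions -/
theorem SC.of_mkB {q : ℕ} (T : (ℝ → ℝ) → ℝ → ℝ) (C : ℝ)
    (hcont : ∀ g : BX y0, ContinuousOn (T (exB g)) (Ioc 0 y0))
    (hadd : ∀ g k : BX y0, ∀ y ∈ Ioc 0 y0,
      T (fun t => exB g t + exB k t) y = T (exB g) y + T (exB k) y)
    (hsmul : ∀ (c : ℝ) (g : BX y0), ∀ y ∈ Ioc 0 y0, T (fun t => c * exB g t) y = c * T (exB g) y)
    (hbd : ∀ g : BX y0, ∀ y ∈ Ioc 0 y0, |T (exB g) y| ≤ C * ‖g‖)
    (hf : SC s y0 p f) {S : (ℝ → ℝ) → ℝ → ℝ}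
    (hT : ∀ (h : ℝ → ℝ) (g : BX y0), (∀ y ∈ Ioc 0 y0, y ^ p * h y = exB g y) →
      ∀ y ∈ Ioc 0 y0, y ^ q * S h y = T (exB g) y) :
    SC s y0 q (fun τ y => S (f τ) y) := by
  obtain ⟨F, hF, hfF⟩ := hf
  refine ⟨fun τ => mkB T C hcont hadd hsmul hbd (F τ),
    (mkB T C hcont hadd hsmul hbd).contDiff.comp_contDiffOn hF, fun τ hτ y => ?_⟩
  rw [mkB_apply]
  refine hT (f τ) (F τ) (fun z hz => ?_) y y.2
  rw [exB_of_mem _ hz, ← hfF τ hτ ⟨z, hz⟩]

theorem SC.MN {N : ℕ} (hpN : p ≤ N) (hf : SC s y0 p f) :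
    SC s y0 p (fun τ y => MN N (f τ) y) := by
  have hm : ∀ (g : BX y0) (y : ℝ), Measurable (fun r : ℝ => (1 - r) * r ^ (N - p) * exB g (r * y)) :=
    fun g y => by
      have := (measurable_exB g).comp (measurable_id.mul_const y)
      exact Measurable.mul (by fun_prop) this
  have hb : ∀ (g : BX y0) (y r : ℝ), r ∈ uIoc (0 : ℝ) 1 →
      |(1 - r) * r ^ (N - p) * exB g (r * y)| ≤ ‖g‖ := by
    intro g y r hr
    rw [uIoc_of_le zero_le_one] at hr
    rw [abs_mul, abs_mul, abs_of_nonneg (by linarith [hr.2] : 0 ≤ 1 - r),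
      abs_of_nonneg (pow_nonneg hr.1.le _)]
    have h1 : (1 - r) * r ^ (N - p) ≤ 1 := by
      have := pow_le_one₀ (n := N - p) hr.1.le hr.2
      nlinarith [pow_nonneg hr.1.le (N - p), hr.1, hr.2]
    calc (1 - r) * r ^ (N - p) * |exB g (r * y)| ≤ 1 * ‖g‖ :=
          mul_le_mul h1 (abs_exB_le g _) (abs_nonneg _) zero_le_one
      _ = ‖g‖ := one_mul _
  have hi : ∀ (g : BX y0) (y : ℝ),
      IntervalIntegrable (fun r : ℝ => (1 - r) * r ^ (N - p) * exB g (r * y)) volume 0 1 := by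
    intro g y
    rw [intervalIntegrable_iff]
    refine Measure.integrableOn_of_bounded (M := ‖g‖) (by simp) (hm g y).aestronglyMeasurable ?_
    rw [ae_restrict_iff' measurableSet_uIoc]
    exact Filter.Eventually.of_forall fun r hr => hb g y r hr
  refine SC.of_mkB (fun h y => R213.MN (N - p) h y) 1 ?_ ?_ ?_ ?_ hf ?_
  · intro g y hy
    unfold R213.MN
    refine intervalIntegral.continuousWithinAt_of_dominated_interval (bound := fun _ => ‖g‖)
      (Filter.Eventually.of_forall fun z => (hm g z).aestronglyMeasurable)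
      (Filter.Eventually.of_forall fun z => Filter.Eventually.of_forall fun r hr => hb g z r hr)
      intervalIntegrable_const (Filter.Eventually.of_forall fun r hr => ?_)
    rw [uIoc_of_le zero_le_one] at hr
    have hmap : MapsTo (fun z : ℝ => r * z) (Ioc 0 y0) (Ioc 0 y0) := by
      intro z hz
      exact ⟨mul_pos hr.1 hz.1, by nlinarith [hz.1, hz.2, hr.1, hr.2]⟩
    have h1 : ContinuousOn (fun z : ℝ => exB g (r * z)) (Ioc 0 y0) :=
      (continuousOn_exB g).comp (by fun_prop) hmap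
    exact continuousWithinAt_const.mul (h1 y hy)
  · intro g k y _
    unfold R213.MN
    rw [← intervalIntegral.integral_add (hi g y) (hi k y)]
    exact intervalIntegral.integral_congr fun r _ => by ring
  · intro c g y _
    unfold R213.MN
    rw [← intervalIntegral.integral_const_mul]
    exact intervalIntegral.integral_congr fun r _ => by ring
  · intro g y _
    unfold R213.MN
    have := intervalIntegral.norm_integral_le_of_norm_le_const (a := (0 : ℝ)) (b := 1)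
      (f := fun r => (1 - r) * r ^ (N - p) * exB g (r * y)) (C := ‖g‖) (fun r hr => hb g y r hr)
    simpa using this
  · intro h g hhg y hy
    unfold R213.MN
    rw [← intervalIntegral.integral_const_mul]
    refine intervalIntegral.integral_congr_ae (Filter.Eventually.of_forall fun r hr => ?_)
    rw [uIoc_of_le zero_le_one] at hr
    have hry : r * y ∈ Ioc 0 y0 := ⟨mul_pos hr.1 hy.1, by nlinarith [hy.1, hy.2, hr.1, hr.2]⟩
    rw [← hhg (r * y) hry, mul_pow]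
    have e : r ^ N = r ^ (N - p) * r ^ p := by rw [← pow_add, Nat.sub_add_cancel hpN]
    rw [e]
    ring

theorem continuousOn_prim_Ioc {k : ℝ → ℝ} {y1 : ℝ} (hk : ContinuousOn k (Ioc 0 y0))
    (hy1 : y1 ∈ Ioc 0 y0) : ContinuousOn (fun y => ∫ t in y1..y, k t) (Ioc 0 y0) := by
  intro y hy
  set ε : ℝ := min y y1 / 2 with hε
  have hε0 : 0 < ε := by
    have : 0 < min y y1 := lt_min hy.1 hy1.1
    linarith
  have hεy : ε < y := by
    have : min y y1 ≤ y := min_le_left _ _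
    have : 0 < min y y1 := lt_min hy.1 hy1.1
    linarith
  have hεy1 : ε < y1 := by
    have : min y y1 ≤ y1 := min_le_right _ _
    have : 0 < min y y1 := lt_min hy.1 hy1.1
    linarith
  have hsub : Icc ε y0 ⊆ Ioc 0 y0 := fun z hz => ⟨lt_of_lt_of_le hε0 hz.1, hz.2⟩
  have hle : ε ≤ y0 := hεy.le.trans hy.2
  have hint : IntervalIntegrable k volume ε y0 := by
    refine ContinuousOn.intervalIntegrable ?_
    rw [uIcc_of_le hle]
    exact hk.mono hsub
  have h1 := intervalIntegral.continuousOn_primitive_interval' hint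
    (a := y1) (by rw [uIcc_of_le hle]; exact ⟨hεy1.le, hy1.2⟩)
  rw [uIcc_of_le hle] at h1
  refine (h1 y ⟨hεy.le, hy.2⟩).mono_of_mem_nhdsWithin ?_
  have h2 : Ioi ε ∈ 𝓝 y := Ioi_mem_nhds hεy
  filter_upwards [mem_nhdsWithin_of_mem_nhds h2, self_mem_nhdsWithin] with z hz1 hz2
  exact ⟨hz1.le, hz2.2⟩

theorem intervalIntegrable_Ioc {k : ℝ → ℝ} {a b : ℝ} (hk : ContinuousOn k (Ioc 0 y0))
    (ha : a ∈ Ioc 0 y0) (hb : b ∈ Ioc 0 y0) : IntervalIntegrable k volume a b :=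
  (hk.mono (ordConnected_Ioc.uIcc_subset ha hb)).intervalIntegrable

theorem SC.dpr {y1 : ℝ} (hy1 : y1 ∈ Ioc 0 y0) (hf : SC s y0 (p + 1) f) :
    SC s y0 p (fun τ y => ∫ t in y1..y, (y - t) * f τ t) := by
  have hker : ∀ (g : BX y0) (y : ℝ), ContinuousOn
      (fun t => (y - t) * y ^ p * (t ^ (p + 1))⁻¹ * exB g t) (Ioc 0 y0) := by
    intro g y
    refine ContinuousOn.mul (ContinuousOn.mul (by fun_prop) ?_) (continuousOn_exB g)
    exact ContinuousOn.inv₀ (by fun_prop) fun t ht => (pow_pos ht.1 _).ne'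
  have hsub : ∀ y ∈ Ioc 0 y0, uIcc y1 y ⊆ Ioc 0 y0 := fun y hy =>
    ordConnected_Ioc.uIcc_subset hy1 hy
  refine SC.of_mkB (fun h y => ∫ t in y1..y, (y - t) * y ^ p * (t ^ (p + 1))⁻¹ * h t)
    ((y0 / y1) ^ (p + 1) * y0) ?_ ?_ ?_ ?_ hf (S := fun h y => ∫ t in y1..y, (y - t) * h t) ?_
  · intro g
    have hk1 : ContinuousOn (fun t => (t ^ (p + 1))⁻¹ * exB g t) (Ioc 0 y0) :=
      (ContinuousOn.inv₀ (by fun_prop) fun t ht => (pow_pos ht.1 _).ne').mul (continuousOn_exB g)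
    have hk2 : ContinuousOn (fun t => t * ((t ^ (p + 1))⁻¹ * exB g t)) (Ioc 0 y0) :=
      continuousOn_id.mul hk1
    have h1 := continuousOn_prim_Ioc hk1 hy1
    have h2 := continuousOn_prim_Ioc hk2 hy1
    have h3 : ContinuousOn (fun y => y ^ p * (y * (∫ t in y1..y, (t ^ (p + 1))⁻¹ * exB g t) -
        ∫ t in y1..y, t * ((t ^ (p + 1))⁻¹ * exB g t))) (Ioc 0 y0) :=
      ContinuousOn.mul (by fun_prop) ((continuousOn_id.mul h1).sub h2)
    refine h3.congr fun y hy => ?_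
    simp only
    rw [← intervalIntegral.integral_const_mul, ← intervalIntegral.integral_sub,
      ← intervalIntegral.integral_const_mul]
    · exact intervalIntegral.integral_congr fun t _ => by ring
    · exact (intervalIntegrable_Ioc hk1 hy1 hy).const_mul y
    · exact intervalIntegrable_Ioc hk2 hy1 hy
  · intro g k y hy
    rw [← intervalIntegral.integral_add (intervalIntegrable_Ioc (hker g y) hy1 hy)
      (intervalIntegrable_Ioc (hker k y) hy1 hy)]
    exact intervalIntegral.integral_congr fun t _ => by ring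
  · intro c g y hy
    rw [← intervalIntegral.integral_const_mul]
    exact intervalIntegral.integral_congr fun t _ => by ring
  · intro g y hy
    have h01 : y1 ≤ y0 := hy1.2
    have hy0 : 0 < y0 := lt_of_lt_of_le hy1.1 h01
    have hratio : 1 ≤ y0 / y1 := (one_le_div hy1.1).2 h01
    have hle : ∀ t ∈ uIoc y1 y, |(y - t) * y ^ p * (t ^ (p + 1))⁻¹ * exB g t| ≤
        (y0 / y1) ^ (p + 1) * ‖g‖ := by
      intro t ht
      have ht' : t ∈ Ioc 0 y0 := hsub y hy (uIoc_subset_uIcc ht)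
      have htp : 0 < t ^ (p + 1) := pow_pos ht'.1 _
      rw [abs_mul, abs_mul, abs_mul, abs_of_nonneg (pow_nonneg hy.1.le p),
        abs_of_nonneg (inv_nonneg.2 htp.le)]
      refine mul_le_mul ?_ (abs_exB_le g t) (abs_nonneg _) (by positivity)
      rcases le_total y y1 with hyy | hyy
      · rw [uIoc_of_ge hyy] at ht
        have h1 : |y - t| ≤ t := by
          rw [abs_le]; constructor <;> linarith [ht.1, hy.1]
        have h2 : y ^ p ≤ t ^ p := pow_le_pow_left₀ hy.1.le ht.1.le p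
        calc |y - t| * y ^ p * (t ^ (p + 1))⁻¹ ≤ t * t ^ p * (t ^ (p + 1))⁻¹ := by
              refine mul_le_mul_of_nonneg_right ?_ (inv_nonneg.2 htp.le)
              exact mul_le_mul h1 h2 (pow_nonneg hy.1.le p) ht'.1.le
          _ = 1 := by
              rw [← pow_succ']
              exact mul_inv_cancel₀ htp.ne'
          _ ≤ (y0 / y1) ^ (p + 1) := one_le_pow₀ hratio
      · rw [uIoc_of_le hyy] at ht
        have h1 : |y - t| ≤ y0 := by
          rw [abs_le]; constructor <;> linarith [ht.1, ht.2, hy1.1, hy.2]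
        have h2 : y ^ p ≤ y0 ^ p := pow_le_pow_left₀ hy.1.le hy.2 p
        have h3 : (t ^ (p + 1))⁻¹ ≤ (y1 ^ (p + 1))⁻¹ :=
          inv_anti₀ (pow_pos hy1.1 _) (pow_le_pow_left₀ hy1.1.le ht.1.le _)
        calc |y - t| * y ^ p * (t ^ (p + 1))⁻¹ ≤ y0 * y0 ^ p * (y1 ^ (p + 1))⁻¹ := by
              refine mul_le_mul ?_ h3 (inv_nonneg.2 htp.le) (by positivity)
              exact mul_le_mul h1 h2 (pow_nonneg hy.1.le p) hy0.le
          _ = (y0 / y1) ^ (p + 1) := by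
              rw [div_pow, ← pow_succ', div_eq_mul_inv]
    have h4 := intervalIntegral.norm_integral_le_of_norm_le_const (a := y1) (b := y)
      (f := fun t => (y - t) * y ^ p * (t ^ (p + 1))⁻¹ * exB g t)
      (C := (y0 / y1) ^ (p + 1) * ‖g‖) hle
    have h5 : |y - y1| ≤ y0 := by
      rw [abs_le]; constructor <;> linarith [hy.1, hy.2, hy1.1, hy1.2]
    calc |∫ t in y1..y, (y - t) * y ^ p * (t ^ (p + 1))⁻¹ * exB g t|
        ≤ (y0 / y1) ^ (p + 1) * ‖g‖ * |y - y1| := h4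
      _ ≤ (y0 / y1) ^ (p + 1) * ‖g‖ * y0 :=
          mul_le_mul_of_nonneg_left h5 (by positivity)
      _ = (y0 / y1) ^ (p + 1) * y0 * ‖g‖ := by ring
  · intro h g hhg y hy
    rw [← intervalIntegral.integral_const_mul]
    refine intervalIntegral.integral_congr fun t ht => ?_
    have ht' : t ∈ Ioc 0 y0 := hsub y hy ht
    have htp : 0 < t ^ (p + 1) := pow_pos ht'.1 _
    rw [← hhg t ht']
    field_simp

theorem SC.dprim {y1 : ℝ} (hy1 : y1 ∈ Ioc 0 y0) {α β : ℝ → ℝ} (hα : ContDiffOn ℝ ∞ α s)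
    (hβ : ContDiffOn ℝ ∞ β s) (hf : SC s y0 (p + 1) f) : SC s y0 p (dprim y1 α β f) := by
  have h1 : C0 s y0 (fun τ y => α τ + β τ * (y - y1)) :=
    (C0.of_left hα).add ((C0.of_left hβ).mul (C0.of_right (by fun_prop)))
  exact ((SC.of_c0 h1).add (SC.dpr hy1 hf)).congr fun τ _ y _ => rfl

/-- operator `BX y0 → C([0,y0])`: double primitive -/
def dpOp (y0 y1 : ℝ) (h0 : 0 ≤ y0) (hy1 : y1 ∈ Icc 0 y0) : BX y0 →L[ℝ] C(Icc (0 : ℝ) y0, ℝ) :=
  LinearMap.mkContinuous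
    { toFun := fun g => ⟨fun y => ∫ t in y1..(y : ℝ), ((y : ℝ) - t) * exB g t, by
        have hi : ∀ a b, IntervalIntegrable (exB g) volume a b := fun a b =>
          intervalIntegrable_of_bdd (measurable_exB g) (abs_exB_le g) a b
        have hi2 : ∀ a b, IntervalIntegrable (fun t => t * exB g t) volume a b := fun a b =>
          (hi a b).continuousOn_mul continuousOn_id
        have h1 := intervalIntegral.continuous_primitive hi y1
        have h2 := intervalIntegral.continuous_primitive hi2 y1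
        have h3 : Continuous (fun y : ℝ => y * (∫ t in y1..y, exB g t) -
            ∫ t in y1..y, t * exB g t) := (continuous_id.mul h1).sub h2
        refine (h3.comp continuous_subtype_val).congr fun y => ?_
        simp only [Function.comp]
        rw [← intervalIntegral.integral_const_mul, ← intervalIntegral.integral_sub]
        · exact intervalIntegral.integral_congr fun t _ => by ring
        · exact (hi _ _).const_mul _
        · exact hi2 _ _⟩
      map_add' := fun g k => by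
        ext y
        have e : exB (g + k) = fun t => exB g t + exB k t := funext fun t => exB_add g k t
        change ∫ t in y1..(y : ℝ), ((y : ℝ) - t) * exB (g + k) t =
          (∫ t in y1..(y : ℝ), ((y : ℝ) - t) * exB g t) + ∫ t in y1..(y : ℝ), ((y : ℝ) - t) * exB k t
        rw [e, ← intervalIntegral.integral_add]
        · exact intervalIntegral.integral_congr fun t _ => by ring
        · exact (intervalIntegrable_of_bdd (measurable_exB g) (abs_exB_le g) _ _).continuousOn_mul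
            (by fun_prop)
        · exact (intervalIntegrable_of_bdd (measurable_exB k) (abs_exB_le k) _ _).continuousOn_mul
            (by fun_prop)
      map_smul' := fun c g => by
        ext y
        have e : exB (c • g) = fun t => c * exB g t := funext fun t => exB_smul c g t
        change ∫ t in y1..(y : ℝ), ((y : ℝ) - t) * exB (c • g) t =
          c * ∫ t in y1..(y : ℝ), ((y : ℝ) - t) * exB g t
        rw [e, ← intervalIntegral.integral_const_mul]
        exact intervalIntegral.integral_congr fun t _ => by ring } (y0 * y0)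
    (fun g => by
      rw [ContinuousMap.norm_le _ (by positivity)]
      intro y
      have h5 : |(y : ℝ) - y1| ≤ y0 := by
        rw [abs_le]; constructor <;> linarith [y.2.1, y.2.2, hy1.1, hy1.2]
      have h4 := intervalIntegral.norm_integral_le_of_norm_le_const (a := y1) (b := (y : ℝ))
        (f := fun t => ((y : ℝ) - t) * exB g t) (C := y0 * ‖g‖) (fun t ht => by
          have ht' : t ∈ Icc 0 y0 := Set.uIcc_subset_Icc hy1 y.2 (uIoc_subset_uIcc ht)
          have h6 : |(y : ℝ) - t| ≤ y0 := by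
            rw [abs_le]; constructor <;> linarith [y.2.1, y.2.2, ht'.1, ht'.2]
          rw [Real.norm_eq_abs, abs_mul]
          exact mul_le_mul h6 (abs_exB_le g t) (abs_nonneg _) h0)
      calc ‖∫ t in y1..(y : ℝ), ((y : ℝ) - t) * exB g t‖ ≤ y0 * ‖g‖ * |(y : ℝ) - y1| := h4
        _ ≤ y0 * ‖g‖ * y0 := mul_le_mul_of_nonneg_left h5 (by positivity)
        _ = y0 * y0 * ‖g‖ := by ring)

theorem dpOp_apply {y1 : ℝ} (h0 : 0 ≤ y0) (hy1 : y1 ∈ Icc 0 y0) (g : BX y0)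
    (y : Icc (0 : ℝ) y0) :
    dpOp y0 y1 h0 hy1 g y = ∫ t in y1..(y : ℝ), ((y : ℝ) - t) * exB g t := rfl

theorem ae_ne_zero' : ∀ᵐ t : ℝ, t ≠ 0 := by
  have : volume ({0} : Set ℝ) = 0 := by simp
  exact compl_mem_ae_iff.2 this

theorem C0.dprim_of_SC (h0 : 0 ≤ y0) {y1 : ℝ} (hy1 : y1 ∈ Icc 0 y0) {α β : ℝ → ℝ}
    (hα : ContDiffOn ℝ ∞ α s) (hβ : ContDiffOn ℝ ∞ β s) (hf : SC s y0 0 f) :
    C0 s y0 (dprim y1 α β f) := by
  have h1 : C0 s y0 (fun τ y => α τ + β τ * (y - y1)) :=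
    (C0.of_left hα).add ((C0.of_left hβ).mul (C0.of_right (by fun_prop)))
  have h2 : C0 s y0 (fun τ y => ∫ t in y1..y, (y - t) * f τ t) := by
    obtain ⟨G, hG, hfG⟩ := hf
    refine ⟨fun τ => dpOp y0 y1 h0 hy1 (G τ), (dpOp y0 y1 h0 hy1).contDiff.comp_contDiffOn hG,
      fun τ hτ y => ?_⟩
    rw [dpOp_apply]
    refine intervalIntegral.integral_congr_ae ?_
    filter_upwards [ae_ne_zero'] with t ht htu
    have ht' : t ∈ Icc 0 y0 := Set.uIcc_subset_Icc hy1 y.2 (uIoc_subset_uIcc htu)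
    have ht2 : t ∈ Ioc 0 y0 := ⟨lt_of_le_of_ne ht'.1 (Ne.symm ht), ht'.2⟩
    rw [exB_of_mem _ ht2, ← hfG τ hτ ⟨t, ht2⟩]
    simp
  exact (h1.add h2).congr fun τ _ y _ => rfl

/-- changing `r` at `0` does not change `dprim` -/
theorem dprim_congr_Ioc {y1 : ℝ} (hy1 : y1 ∈ Icc 0 y0) {α β : ℝ → ℝ} {r r' : ℝ → ℝ → ℝ} {τ : ℝ}
    (h : ∀ y ∈ Ioc 0 y0, r τ y = r' τ y) {y : ℝ} (hy : y ∈ Icc 0 y0) :
    dprim y1 α β r τ y = dprim y1 α β r' τ y := by
  unfold R213.dprim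
  congr 1
  refine intervalIntegral.integral_congr_ae ?_
  filter_upwards [ae_ne_zero'] with t ht htu
  have ht' : t ∈ Icc 0 y0 := Set.uIcc_subset_Icc hy1 hy (uIoc_subset_uIcc htu)
  rw [h t ⟨lt_of_le_of_ne ht'.1 (Ne.symm ht), ht'.2⟩]

/-- the half-interval bootstrap -/
theorem half_boot (hs : IsOpen s) (h0 : 0 < y0) {y1 : ℝ} (hy1 : y1 ∈ Ioc 0 y0) {p N : ℕ}
    (hpN : p ≤ N) {h a e w r : ℝ → ℝ → ℝ} {α β : ℝ → ℝ}
    (hh : ∀ k, CK s y0 k h) (ha : ∀ k, CK s y0 k a) (he : ∀ k, CK s y0 k e)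
    (hw : ∀ k, CK s y0 k w) (hα : ContDiffOn ℝ ∞ α s) (hβ : ContDiffOn ℝ ∞ β s)
    (H1 : SC s y0 (p + 1) r)
    (H2 : ∀ τ ∈ s, ∀ y ∈ Ioc 0 y0, r τ y = h τ y + a τ y *
      MN N (fun z => e τ z + w τ z * dt (dprim y1 α β r) τ z) y) :
    (∀ k, CK s y0 k (dprim y1 α β r)) ∧
    (∀ k, CK s y0 k (fun τ y => h τ y + a τ y *
      MN N (fun z => e τ z + w τ z * dt (dprim y1 α β r) τ z) y)) := by
  have hy1' : y1 ∈ Icc 0 y0 := ⟨hy1.1.le, hy1.2⟩
  set δ : ℝ → ℝ → ℝ := dprim y1 α β r with hδ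
  have stepSC : ∀ q, q ≤ N → SC s y0 q δ → SC s y0 q r := by
    intro q hq hd
    have h1 : SC s y0 q (R213.dt δ) := hd.dt hs
    have h2 : SC s y0 q (fun τ z => e τ z + w τ z * R213.dt δ τ z) :=
      (SC.of_c0 (he 0).c0).add (h1.mul_c0 (hw 0).c0)
    have h3 := SC.MN hq h2
    exact ((SC.of_c0 (hh 0).c0).add (h3.mul_c0 (ha 0).c0)).congr H2
  have hall : ∀ q, q ≤ p → SC s y0 (p - q) δ := by
    intro q
    induction q with
    | zero => exact fun _ => SC.dprim hy1 hα hβ H1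
    | succ q ih =>
      intro hq
      have h1 := stepSC (p - q) (by omega) (ih (by omega))
      have h2 : p - q = (p - (q + 1)) + 1 := by omega
      rw [h2] at h1
      exact SC.dprim hy1 hα hβ h1
  have hr0 : SC s y0 0 r := by
    have h1 := hall p le_rfl
    rw [Nat.sub_self] at h1
    exact stepSC 0 (Nat.zero_le _) h1
  have hδ0 : C0 s y0 δ := C0.dprim_of_SC h0.le hy1' hα hβ hr0
  have stepCK : ∀ k, CK s y0 k δ → CK s y0 k (fun τ y => h τ y + a τ y *
      R213.MN N (fun z => e τ z + w τ z * R213.dt δ τ z) y) := by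
    intro k hk
    have h1 : CK s y0 k (R213.dt δ) := hk.dt hs h0.le
    exact (hh k).add ((ha k).mul (CK.MN h0.le N ((he k).add ((hw k).mul h1))))
  have hCK : ∀ k, CK s y0 k δ := by
    intro k
    induction k with
    | zero => exact hδ0
    | succ k ih =>
      have h1 := stepCK k ih
      have h2 := CK.dprim h0.le hy1' hα hβ h1
      refine (h2.congr fun τ hτ y hy => ?_).pred
      exact dprim_congr_Ioc hy1' (fun z hz => H2 τ hτ z hz) hy
  exact ⟨hCK, fun k => stepCK k (hCK k)⟩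

end Crest.Agent.R213
end
end

-- ▼ part R213/B/BootA
section

/-!
# Row 213, part B3b (helper962): operators `L² → SC`, identities for `MN`
-/

set_option autoImplicit false

open Set MeasureTheory Filter Topology
open scoped ContDiff BoundedContinuousFunction RealInnerProductSpace ENNReal

noncomputable section

namespace Crest.Agent.R213.B

variable {L y0 : ℝ} {s : Set ℝ}

/-! ### `MN` as an integral over `(0,y)` -/

theorem MN_eq (N : ℕ) (F : ℝ → ℝ) {y : ℝ} (hy : 0 < y) :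
    y ^ (N + 2) * MN N F y = ∫ x in (0 : ℝ)..y, (y - x) * (x ^ N * F x) := by
  have h1 := intervalIntegral.integral_comp_mul_right (a := (0 : ℝ)) (b := 1)
    (fun x => (y - x) * (x ^ N * F x)) hy.ne'
  rw [zero_mul, one_mul] at h1
  have h2 : ∫ x in (0 : ℝ)..y, (y - x) * (x ^ N * F x) =
      y * ∫ r in (0 : ℝ)..1, (y - r * y) * ((r * y) ^ N * F (r * y)) := by
    rw [h1, smul_eq_mul, ← mul_assoc, mul_inv_cancel₀ hy.ne', one_mul]
  rw [h2]
  unfold MN
  rw [← intervalIntegral.integral_const_mul, ← intervalIntegral.integral_const_mul]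
  refine intervalIntegral.integral_congr fun r _ => ?_
  rw [mul_pow]
  ring

theorem MN_add {N : ℕ} {F G : ℝ → ℝ} {y : ℝ} (hy : 0 < y)
    (hF : IntervalIntegrable (fun x => x ^ N * F x) volume 0 y)
    (hG : IntervalIntegrable (fun x => x ^ N * G x) volume 0 y) :
    MN N (fun x => F x + G x) y = MN N F y + MN N G y := by
  have hp : y ^ (N + 2) ≠ 0 := (pow_pos hy _).ne'
  apply mul_left_cancel₀ hp
  rw [mul_add, MN_eq N _ hy, MN_eq N _ hy, MN_eq N _ hy, ← intervalIntegral.integral_add]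
  · refine intervalIntegral.integral_congr fun x _ => ?_
    ring
  · exact hF.continuousOn_mul (by fun_prop)
  · exact hG.continuousOn_mul (by fun_prop)

theorem MN_congr_ae {N : ℕ} {F G : ℝ → ℝ} {y : ℝ} (hy : 0 < y) (hyL : y ≤ L)
    (h : ∀ᵐ x ∂(volume.restrict (Ioo 0 L)), F x = G x) : MN N F y = MN N G y := by
  have hp : y ^ (N + 2) ≠ 0 := (pow_pos hy _).ne'
  apply mul_left_cancel₀ hp
  rw [MN_eq N _ hy, MN_eq N _ hy]
  refine intervalIntegral.integral_congr_ae ?_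
  have h1 := (ae_restrict_iff' measurableSet_Ioo).1 h
  have h2 : ∀ᵐ x : ℝ, x ≠ y := by
    have : volume ({y} : Set ℝ) = 0 := by simp
    exact compl_mem_ae_iff.2 this
  filter_upwards [h1, h2] with x hx hxy hxu
  rw [uIoc_of_le hy.le] at hxu
  rw [hx ⟨hxu.1, lt_of_lt_of_le (lt_of_le_of_ne hxu.2 hxy) hyL⟩]

theorem Kint_eq_MN (F : ℝ → ℝ) {y : ℝ} (hy : 0 < y) : Kint F y = y ^ 11 * MN 9 F y := by
  rw [MN_eq 9 F hy]
  unfold Kint
  exact intervalIntegral.integral_congr fun x _ => by ring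

theorem Kint_congr_ae' {F G : ℝ → ℝ} {y : ℝ} (hy : 0 < y) (hyL : y ≤ L)
    (h : ∀ᵐ x ∂(volume.restrict (Ioo 0 L)), F x = G x) : Kint F y = Kint G y := by
  rw [Kint_eq_MN F hy, Kint_eq_MN G hy, MN_congr_ae hy hyL h]

/-! ### integrability -/

theorem integrableOn_wHL (U : HL L) : IntegrableOn (fun x => x ^ 9 * U x) (Ioo 0 L) := by
  have hU : Integrable (fun x => U x) (mu L) := (Lp.memLp U).integrable (by norm_num)
  unfold mu at hU
  rw [integrable_withDensity_iff_integrable_smul' measurable_w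
    (Eventually.of_forall fun _ => ENNReal.ofReal_lt_top)] at hU
  refine IntegrableOn.congr_fun (f := fun x => (ENNReal.ofReal (x ^ 9)).toReal • U x) hU
    (fun x hx => ?_) measurableSet_Ioo
  simp only [smul_eq_mul]
  rw [ENNReal.toReal_ofReal (pow_nonneg hx.1.le 9)]

theorem ii_of_Ioo (hL : 0 < L) {w : ℝ → ℝ} (hw : IntegrableOn w (Ioo 0 L)) :
    IntervalIntegrable w volume 0 L :=
  (intervalIntegrable_iff_integrableOn_Ioo_of_le hL.le).2 hw

theorem ii_sub {w : ℝ → ℝ} (hw : IntervalIntegrable w volume 0 L) {c d : ℝ} (hc : c ∈ Icc 0 L)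
    (hd : d ∈ Icc 0 L) (hL : 0 ≤ L) : IntervalIntegrable w volume c d :=
  hw.mono_set (by rw [uIcc_of_le hL]; exact Set.uIcc_subset_Icc hc hd)

theorem ii_reflect {w : ℝ → ℝ} (hw : IntervalIntegrable w volume 0 L) :
    IntervalIntegrable (fun x => w (L - x)) volume 0 L := by
  have h := (hw.comp_sub_left L).symm
  simpa using h

theorem integrableOn_Ioo_reflect (hL : 0 < L) {w : ℝ → ℝ} (hw : IntegrableOn w (Ioo 0 L)) :
    IntegrableOn (fun x => w (L - x)) (Ioo 0 L) :=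
  (intervalIntegrable_iff_integrableOn_Ioo_of_le hL.le).1 (ii_reflect (ii_of_Ioo hL hw))

theorem setIntegral_reflect (hL : 0 < L) (w : ℝ → ℝ) :
    ∫ x in Ioo 0 L, w (L - x) = ∫ x in Ioo 0 L, w x := by
  have h := intervalIntegral.integral_comp_sub_left (a := (0 : ℝ)) (b := L) w L
  rw [sub_self, sub_zero, intervalIntegral.integral_of_le hL.le,
    intervalIntegral.integral_of_le hL.le, integral_Ioc_eq_integral_Ioo,
    integral_Ioc_eq_integral_Ioo] at h
  exact h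

/-! ### kernels -/

theorem norm_toHL_le_sqrt {q : ℝ → ℝ} (hq : Continuous q)
    (hb : ∀ x ∈ Ioo 0 L, |q x| ≤ 1) (hL : 0 < L) :
    ‖toHL L q‖ ≤ √(∫ x in Ioo 0 L, x ^ 9) := by
  have hm : MemLp q 2 (mu L) := memLp_of_continuousOn hL hq.continuousOn
  refine Real.le_sqrt_of_sq_le ?_
  rw [← real_inner_self_eq_norm_sq, inner_toHL hm hm]
  have hi1 : IntegrableOn (fun x : ℝ => x ^ 9 * (q x * q x)) (Ioo 0 L) := by
    have : Continuous (fun x : ℝ => x ^ 9 * (q x * q x)) := by fun_prop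
    exact (this.continuousOn.integrableOn_Icc).mono_set Ioo_subset_Icc_self
  have hi2 : IntegrableOn (fun x : ℝ => x ^ 9) (Ioo 0 L) := by
    have : Continuous (fun x : ℝ => x ^ 9) := by fun_prop
    exact (this.continuousOn.integrableOn_Icc).mono_set Ioo_subset_Icc_self
  refine setIntegral_mono_on hi1 hi2 measurableSet_Ioo fun x hx => ?_
  have h1 := hb x hx
  have h2 : q x * q x ≤ 1 := by
    have := abs_le.1 h1
    nlinarith
  calc x ^ 9 * (q x * q x) ≤ x ^ 9 * 1 := mul_le_mul_of_nonneg_left h2 (pow_nonneg hx.1.le 9)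
    _ = x ^ 9 := mul_one _

/-- operator `L² → BX` given by a kernel -/
def kOp (hL : 0 < L) (q : ℝ → ℝ → ℝ) (hq : ∀ y ∈ Ioc 0 y0, Continuous (q y))
    (hb : ∀ y ∈ Ioc 0 y0, ∀ x ∈ Ioo 0 L, |q y x| ≤ 1)
    (hc : ∀ U : HL L, ContinuousOn (fun y => ⟪toHL L (q y), U⟫) (Ioc 0 y0)) : HL L →L[ℝ] BX y0 :=
  LinearMap.mkContinuous
    { toFun := fun U => BoundedContinuousFunction.ofNormedAddCommGroup
        (fun y : Ioc (0 : ℝ) y0 => ⟪toHL L (q y), U⟫)
        ((hc U).domRestrict) (√(∫ x in Ioo 0 L, x ^ 9) * ‖U‖) (fun y => by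
          rw [Real.norm_eq_abs]
          exact (abs_real_inner_le_norm _ _).trans (mul_le_mul_of_nonneg_right
            (norm_toHL_le_sqrt (hq y y.2) (hb y y.2) hL) (norm_nonneg U)))
      map_add' := fun U V => by
        ext y
        exact inner_add_right (𝕜 := ℝ) (toHL L (q y)) U V
      map_smul' := fun c U => by
        ext y
        exact real_inner_smul_right (toHL L (q y)) U c } (√(∫ x in Ioo 0 L, x ^ 9))
    (fun U => by
      refine (BoundedContinuousFunction.norm_le (by positivity)).2 fun y => ?_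
      change ‖(⟪toHL L (q y), U⟫ : ℝ)‖ ≤ _
      rw [Real.norm_eq_abs]
      exact (abs_real_inner_le_norm _ _).trans (mul_le_mul_of_nonneg_right
            (norm_toHL_le_sqrt (hq y y.2) (hb y y.2) hL) (norm_nonneg U)))

theorem SC.of_kernel (hL : 0 < L) (q : ℝ → ℝ → ℝ) (hq : ∀ y ∈ Ioc 0 y0, Continuous (q y))
    (hb : ∀ y ∈ Ioc 0 y0, ∀ x ∈ Ioo 0 L, |q y x| ≤ 1)
    {T : HL L → ℝ → ℝ} {p : ℕ}
    (hT : ∀ U : HL L, ∀ y ∈ Ioc 0 y0, y ^ p * T U y = ∫ x in Ioo 0 L, x ^ 9 * (q y x * U x))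
    (hc : ∀ U : HL L, ContinuousOn (fun y => y ^ p * T U y) (Ioc 0 y0))
    {U : ℝ → HL L} (hU : ContDiffOn ℝ ∞ U s) : SC s y0 p (fun τ y => T (U τ) y) := by
  have key : ∀ U : HL L, ∀ y ∈ Ioc 0 y0, ⟪toHL L (q y), U⟫ = y ^ p * T U y := by
    intro U y hy
    have hm : MemLp (q y) 2 (mu L) := memLp_of_continuousOn hL (hq y hy).continuousOn
    rw [inner_HL, hT U y hy]
    refine integral_congr_ae ?_
    filter_upwards [ae_mu_iff.1 (coe_toHL hm)] with x hx
    rw [hx]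
  have hc' : ∀ U : HL L, ContinuousOn (fun y => ⟪toHL L (q y), U⟫) (Ioc 0 y0) := fun U =>
    (hc U).congr (key U)
  refine ⟨fun τ => kOp hL q hq hb hc' (U τ), (kOp hL q hq hb hc').contDiff.comp_contDiffOn hU,
    fun τ _ y => ?_⟩
  change _ = (⟪toHL L (q y), U τ⟫ : ℝ)
  exact (key (U τ) y y.2).symm

theorem continuous_pk_right (y : ℝ) : Continuous (pk y) := by
  unfold pk; fun_prop

theorem abs_inv_mul_pk_le {y x : ℝ} (hy : 0 < y) (hx : 0 ≤ x) : |y⁻¹ * pk y x| ≤ 1 := by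
  rw [abs_mul, abs_of_pos (inv_pos.2 hy), abs_of_nonneg (pk_nonneg y x)]
  have h1 : pk y x ≤ y := max_le (by linarith) hy.le
  calc y⁻¹ * pk y x ≤ y⁻¹ * y := mul_le_mul_of_nonneg_left h1 (inv_nonneg.2 hy.le)
    _ = 1 := inv_mul_cancel₀ hy.ne'

/-- left end -/
theorem SC_MN_left (hL : 0 < L) (h0 : y0 < L) {U : ℝ → HL L} (hU : ContDiffOn ℝ ∞ U s) :
    SC s y0 10 (fun τ y => MN 9 (fun x => U τ x) y) := by
  have hval : ∀ U : HL L, ∀ y ∈ Ioc 0 y0, y ^ 10 * MN 9 (fun x => U x) y =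
      y⁻¹ * ∫ x in (0 : ℝ)..y, (y - x) * (x ^ 9 * U x) := by
    intro U y hy
    rw [← MN_eq 9 _ hy.1]
    have := hy.1.ne'
    field_simp
    ring
  refine SC.of_kernel hL (fun y x => y⁻¹ * pk y x) (fun y _ => (continuous_pk_right y).const_mul _)
    (fun y hy x hx => abs_inv_mul_pk_le hy.1 hx.1.le)
    (T := fun U y => MN 9 (fun x => U x) y) ?_ ?_ hU
  · intro U y hy
    rw [hval U y hy, ← integral_pk (L := L) ⟨hy.1, lt_of_le_of_lt hy.2 h0⟩, ← integral_const_mul]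
    refine integral_congr_ae (Eventually.of_forall fun x => ?_)
    simp only
    ring
  · intro U
    refine ContinuousOn.congr ?_ (hval U)
    refine ContinuousOn.mul (ContinuousOn.inv₀ continuousOn_id fun y hy => hy.1.ne') ?_
    exact (continuousOn_K (integrableOn_wHL U)).mono fun y hy => ⟨hy.1, lt_of_le_of_lt hy.2 h0⟩

/-- right end -/
theorem SC_MN_right (hL : 0 < L) (h0 : y0 < L) {U : ℝ → HL L} (hU : ContDiffOn ℝ ∞ U s) :
    SC s y0 1 (fun τ y => MN 0 (fun x => (L - x) ^ 9 * U τ (L - x)) y) := by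
  have hval : ∀ U : HL L, ∀ y ∈ Ioc 0 y0, y ^ 1 * MN 0 (fun x => (L - x) ^ 9 * U (L - x)) y =
      y⁻¹ * ∫ x in (0 : ℝ)..y, (y - x) * ((L - x) ^ 9 * U (L - x)) := by
    intro U y hy
    have h1 := MN_eq 0 (fun x => (L - x) ^ 9 * U (L - x)) hy.1
    simp only [pow_zero, one_mul] at h1
    rw [← h1]
    have := hy.1.ne'
    field_simp
    ring
  refine SC.of_kernel hL (fun y x => y⁻¹ * pk y (L - x))
    (fun y _ => ((continuous_pk_right y).comp (by fun_prop)).const_mul _)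
    (fun y hy x hx => abs_inv_mul_pk_le hy.1 (by linarith [hx.2]))
    (T := fun U y => MN 0 (fun x => (L - x) ^ 9 * U (L - x)) y) ?_ ?_ hU
  · intro U y hy
    rw [hval U y hy, ← integral_pk (L := L) ⟨hy.1, lt_of_le_of_lt hy.2 h0⟩, ← integral_const_mul,
      ← setIntegral_reflect hL]
    refine integral_congr_ae (Eventually.of_forall fun x => ?_)
    simp only
    rw [sub_sub_cancel]
    ring
  · intro U
    refine ContinuousOn.congr ?_ (hval U)
    refine ContinuousOn.mul (ContinuousOn.inv₀ continuousOn_id fun y hy => hy.1.ne') ?_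
    exact (continuousOn_K (w := fun x => (L - x) ^ 9 * U (L - x))
      (integrableOn_Ioo_reflect hL (integrableOn_wHL U))).mono
      fun y hy => ⟨hy.1, lt_of_le_of_lt hy.2 h0⟩

end Crest.Agent.R213.B
end
end

-- ▼ part R213/B/Boot
section

/-!
# Row 213, part B3b/B3c (helper962): the bootstrap theorem `boot`
-/

set_option autoImplicit false

open Set MeasureTheory Filter Topology
open scoped ContDiff BoundedContinuousFunction RealInnerProductSpace ENNReal

noncomputable section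

namespace Crest.Agent.R213.B

variable {L y0 : ℝ} {s : Set ℝ}

/-- pointwise and `L²` time derivatives agree a.e. -/
theorem ae_deriv {D : ℝ → HL L} {D' : HL L} {τ : ℝ} (hτ : τ ∈ Ioo (0 : ℝ) 1)
    (hD : HasDerivAt D D' τ) {δ : ℝ → ℝ → ℝ} {δ1 : ℝ → ℝ}
    (hae : ∀ σ ∈ Ioo (0 : ℝ) 1, ∀ᵐ x ∂(volume.restrict (Ioo 0 L)), D σ x = δ σ x)
    (hδ : ∀ x ∈ Ioo 0 L, HasDerivAt (fun r => δ r x) (δ1 x) τ) :
    ∀ᵐ x ∂(volume.restrict (Ioo 0 L)), D' x = δ1 x := by
  have h1τ : 0 < 1 - τ := by linarith [hτ.2]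
  set h : ℕ → ℝ := fun n => (1 - τ) / ((n : ℝ) + 2) with hh
  have hpos : ∀ n, 0 < h n := fun n => by positivity
  have hlt : ∀ n, h n < 1 - τ := fun n => by
    rw [hh]
    simp only
    refine div_lt_self h1τ ?_
    have : (0 : ℝ) ≤ n := n.cast_nonneg
    linarith
  have hmem : ∀ n, τ + h n ∈ Ioo (0 : ℝ) 1 := fun n =>
    ⟨by linarith [hτ.1, hpos n], by linarith [hlt n]⟩
  have h0 : Tendsto h atTop (𝓝 0) := by
    refine Tendsto.const_div_atTop ?_ _
    exact tendsto_atTop_add_const_right _ _ tendsto_natCast_atTop_atTop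
  have hne : Tendsto h atTop (𝓝[≠] 0) :=
    tendsto_nhdsWithin_iff.2 ⟨h0, Eventually.of_forall fun n => (hpos n).ne'⟩
  have hq : Tendsto (fun n => (h n)⁻¹ • (D (τ + h n) - D τ)) atTop (𝓝 D') :=
    hD.tendsto_slope_zero.comp hne
  have hm := tendstoInMeasure_of_tendsto_Lp hq
  obtain ⟨ns, hns, hlim⟩ := hm.exists_seq_tendsto_ae
  rw [← ae_mu_iff]
  have hall : ∀ᵐ x ∂(mu L), ∀ n, ((h n)⁻¹ • (D (τ + h n) - D τ) : HL L) x =
      (h n)⁻¹ * (δ (τ + h n) x - δ τ x) := by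
    rw [ae_all_iff]
    intro n
    filter_upwards [Lp.coeFn_smul (h n)⁻¹ (D (τ + h n) - D τ), Lp.coeFn_sub (D (τ + h n)) (D τ),
      ae_mu_iff.2 (hae _ (hmem n)), ae_mu_iff.2 (hae τ hτ)] with x h1 h2 h3 h4
    rw [h1, Pi.smul_apply, h2, Pi.sub_apply, h3, h4, smul_eq_mul]
  filter_upwards [hlim, hall, ae_mu_mem L] with x hx1 hx2 hx3
  have h5 : Tendsto (fun n => (h n)⁻¹ • (δ (τ + h n) x - δ τ x)) atTop (𝓝 (δ1 x)) :=
    (hδ x hx3).tendsto_slope_zero.comp hne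
  have h6 := h5.comp hns.tendsto_atTop
  refine tendsto_nhds_unique hx1 (h6.congr fun i => ?_)
  simp only [Function.comp, smul_eq_mul]
  exact (hx2 (ns i)).symm

theorem dprim_reflect (a b : ℝ → ℝ) (r : ℝ → ℝ → ℝ) (τ y : ℝ) :
    dprim (L / 2) a b r τ (L - y) =
      dprim (L / 2) a (fun τ => - b τ) (fun τ x => r τ (L - x)) τ y := by
  unfold dprim
  have h := intervalIntegral.integral_comp_sub_left (a := y) (b := L / 2)
    (fun x => ((L - y) - x) * r τ x) L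
  have e1 : L - L / 2 = L / 2 := by ring
  rw [e1] at h
  rw [← h, intervalIntegral.integral_symm, ← intervalIntegral.integral_neg]
  have e2 : ∫ x in (L / 2)..y, -((L - y - (L - x)) * r τ (L - x)) =
      ∫ x in (L / 2)..y, (y - x) * r τ (L - x) :=
    intervalIntegral.integral_congr fun x _ => by ring
  rw [e2]
  ring

theorem MN_reflect (hL : 0 < L) {F : ℝ → ℝ} (hF : IntervalIntegrable (fun x => x ^ 9 * F x) volume 0 L)
    (h0 : ∫ x in (0 : ℝ)..L, x ^ 9 * F x = 0) (h1 : ∫ x in (0 : ℝ)..L, x ^ 10 * F x = 0)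
    {y : ℝ} (hy : 0 < y) (hyL : y ≤ L) :
    y ^ 2 * MN 0 (fun x => (L - x) ^ 9 * F (L - x)) y = Kint F (L - y) := by
  have e1 := MN_eq 0 (fun x => (L - x) ^ 9 * F (L - x)) hy
  simp only [pow_zero, one_mul, zero_add] at e1
  rw [e1]
  set g : ℝ → ℝ := fun z => (z - (L - y)) * (z ^ 9 * F z) with hg
  have e2 : ∫ x in (0 : ℝ)..y, (y - x) * ((L - x) ^ 9 * F (L - x)) =
      ∫ x in (L - y)..L, g x := by
    have h := intervalIntegral.integral_comp_sub_left (a := (0 : ℝ)) (b := y) g L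
    rw [sub_zero] at h
    rw [← h]
    refine intervalIntegral.integral_congr fun x _ => ?_
    simp only [hg]
    ring
  have e3 : Kint F (L - y) = - ∫ x in (0 : ℝ)..(L - y), g x := by
    unfold Kint
    rw [← intervalIntegral.integral_neg]
    refine intervalIntegral.integral_congr fun x _ => ?_
    simp only [hg]
    ring
  have hgi : IntervalIntegrable g volume 0 L := hF.continuousOn_mul (by fun_prop)
  have e4 : ∫ x in (0 : ℝ)..L, g x = 0 := by
    have e5 : ∀ x, g x = x ^ 10 * F x - (L - y) * (x ^ 9 * F x) := fun x => by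
      simp only [hg]
      ring
    have hi : IntervalIntegrable (fun x => x ^ 10 * F x) volume 0 L := by
      have := hF.continuousOn_mul (g := fun x : ℝ => x) (by fun_prop)
      exact this.congr fun x _ => by
        ring
    simp_rw [e5]
    rw [intervalIntegral.integral_sub hi (hF.const_mul _), intervalIntegral.integral_const_mul,
      h0, h1]
    ring
  have hm : L - y ∈ Icc 0 L := ⟨by linarith, by linarith⟩
  have e6 := intervalIntegral.integral_add_adjacent_intervals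
    (ii_sub hgi (left_mem_Icc.2 hL.le) hm hL.le) (ii_sub hgi hm (right_mem_Icc.2 hL.le) hL.le)
  rw [e2, e3]
  linarith

theorem Sm_reflect {u : ℝ → ℝ → ℝ} (hu : Sm s L u) (h : y0 ≤ L) :
    Sm s y0 (fun τ y => u τ (L - y)) := by
  unfold Sm at hu ⊢
  exact ContDiffOn.comp (g := fun p : ℝ × ℝ => u p.1 p.2) (f := fun p : ℝ × ℝ => (p.1, L - p.2))
    hu (by fun_prop) (fun p hp => ⟨hp.1, ⟨by linarith [hp.2.2], by linarith [hp.2.1]⟩⟩)

theorem Sm_glue (hL : 0 < L) {u : ℝ → ℝ → ℝ} (h1 : Sm s (3 * L / 4) u)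
    (h2 : Sm s (3 * L / 4) (fun τ y => u τ (L - y))) : Sm s L u := by
  unfold Sm at h1 h2 ⊢
  have h3 : ContDiffOn ℝ (⊤ : ℕ∞) (fun p : ℝ × ℝ => u p.1 p.2) (s ×ˢ Icc (L / 4) L) := by
    have := ContDiffOn.comp (g := fun p : ℝ × ℝ => u p.1 (L - p.2))
      (f := fun p : ℝ × ℝ => (p.1, L - p.2)) (s := s ×ˢ Icc (L / 4) L) h2 (by fun_prop)
      (fun p hp => ⟨hp.1, ⟨by linarith [hp.2.2], by linarith [hp.2.1]⟩⟩)
    refine this.congr fun p _ => ?_
    simp only [Function.comp, sub_sub_cancel]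
  intro p hp
  rcases le_or_gt p.2 (L / 2) with h | h
  · refine (h1 p ⟨hp.1, ⟨hp.2.1, by linarith⟩⟩).mono_of_mem_nhdsWithin ?_
    have ho : {q : ℝ × ℝ | q.2 < 3 * L / 4} ∈ 𝓝 p :=
      (isOpen_lt continuous_snd continuous_const).mem_nhds (by
        show p.2 < 3 * L / 4
        linarith)
    filter_upwards [mem_nhdsWithin_of_mem_nhds ho, self_mem_nhdsWithin] with q hq1 hq2
    exact ⟨hq2.1, ⟨hq2.2.1, le_of_lt hq1⟩⟩
  · refine (h3 p ⟨hp.1, ⟨by linarith, hp.2.2⟩⟩).mono_of_mem_nhdsWithin ?_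
    have ho : {q : ℝ × ℝ | L / 4 < q.2} ∈ 𝓝 p :=
      (isOpen_lt continuous_const continuous_snd).mem_nhds (by
        show L / 4 < p.2
        linarith)
    filter_upwards [mem_nhdsWithin_of_mem_nhds ho, self_mem_nhdsWithin] with q hq1 hq2
    exact ⟨hq2.1, ⟨le_of_lt hq1, hq2.2.2⟩⟩

theorem dprim_hasDeriv2 {y1 : ℝ} {a b : ℝ → ℝ} {r : ℝ → ℝ → ℝ} {τ : ℝ}
    (hr : ContinuousOn (r τ) (Ioo 0 L)) (hy1 : y1 ∈ Ioo 0 L) {x : ℝ} (hx : x ∈ Ioo 0 L) :
    HasDerivAt (dprim y1 a b r τ) (b τ + ∫ t in y1..x, r τ t) x ∧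
      HasDerivAt (fun x => b τ + ∫ t in y1..x, r τ t) (r τ x) x := by
  have hsub : ∀ z ∈ Ioo 0 L, uIcc y1 z ⊆ Ioo 0 L := fun z hz =>
    ordConnected_Ioo.uIcc_subset hy1 hz
  have hi : ∀ z ∈ Ioo 0 L, ∀ {k : ℝ → ℝ}, ContinuousOn k (Ioo 0 L) →
      HasDerivAt (fun x => ∫ t in y1..x, k t) (k z) z := by
    intro z hz k hk
    refine intervalIntegral.integral_hasDerivAt_right
      ((hk.mono (hsub z hz)).intervalIntegrable) ?_ (hk.continuousAt (Ioo_mem_nhds hz.1 hz.2))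
    exact hk.stronglyMeasurableAtFilter isOpen_Ioo z hz
  refine ⟨?_, (hi x hx hr).const_add _⟩
  have hr2 : ContinuousOn (fun t => t * r τ t) (Ioo 0 L) := continuousOn_id.mul hr
  have e : ∀ z ∈ Ioo 0 L, dprim y1 a b r τ z =
      a τ + b τ * (z - y1) + (z * (∫ t in y1..z, r τ t) - ∫ t in y1..z, t * r τ t) := by
    intro z hz
    unfold dprim
    rw [← intervalIntegral.integral_const_mul, ← intervalIntegral.integral_sub]
    · congr 1
      exact intervalIntegral.integral_congr fun t _ => by ring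
    · exact ((hr.mono (hsub z hz)).intervalIntegrable).const_mul _
    · exact (hr2.mono (hsub z hz)).intervalIntegrable
  have h1 : HasDerivAt (fun z => a τ + b τ * (z - y1) +
      (z * (∫ t in y1..z, r τ t) - ∫ t in y1..z, t * r τ t))
      (b τ * 1 + ((1 * (∫ t in y1..x, r τ t) + x * r τ x) - x * r τ x)) x := by
    refine HasDerivAt.add ?_ (((hasDerivAt_id' x).mul (hi x hx hr)).sub (hi x hx hr2))
    exact (((hasDerivAt_id' x).sub_const y1).const_mul (b τ)).const_add (a τ)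
  have h2 : b τ * 1 + ((1 * (∫ t in y1..x, r τ t) + x * r τ x) - x * r τ x) =
      b τ + ∫ t in y1..x, r τ t := by ring
  rw [h2] at h1
  refine h1.congr_of_eventuallyEq ?_
  filter_upwards [Ioo_mem_nhds hx.1 hx.2] with z hz
  exact e z hz

theorem boot {c0 C0 : ℝ} {g : ℝ → ℝ} {φ m : ℝ → ℝ → ℝ} (hB : Bg c0 C0 g L φ m)
    (hc0 : 0 < c0) {E ht : ℝ → ℝ → ℝ} (hE : Sm (Ioo 0 1) L E) (hh : Sm (Ioo 0 1) L ht)
    {D : ℝ → HL L} (hD : ContDiffOn ℝ (⊤ : ℕ∞) D (Ioo 0 1)) {a b : ℝ → ℝ}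
    (ha : ContDiffOn ℝ (⊤ : ℕ∞) a (Ioo 0 1)) (hb : ContDiffOn ℝ (⊤ : ℕ∞) b (Ioo 0 1))
    (hrep : ∀ τ ∈ Ioo (0 : ℝ) 1, ∀ᵐ x ∂(volume.restrict (Ioo 0 L)),
        (D τ) x = a τ + b τ * (x - L / 2) + ∫ ξ in (L / 2)..x, (x - ξ) *
          (ht τ ξ + Kint (fun z => E τ z + (deriv D τ : HL L) z) ξ / (ξ ^ 9 * φ τ ξ ^ 2)))
    (hm0 : ∀ τ ∈ Ioo (0 : ℝ) 1, ∫ x in (0 : ℝ)..L, x ^ 9 * (E τ x + (deriv D τ : HL L) x) = 0)
    (hm1 : ∀ τ ∈ Ioo (0 : ℝ) 1, ∫ x in (0 : ℝ)..L, x ^ 10 * (E τ x + (deriv D τ : HL L) x) = 0) :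
    ∃ δ' : ℝ → ℝ → ℝ, Sm (Ioo 0 1) L δ' ∧ ∀ τ ∈ Ioo (0 : ℝ) 1,
      (∀ᵐ x ∂(volume.restrict (Ioo 0 L)), (D τ) x = δ' τ x) ∧
      (∀ᵐ x ∂(volume.restrict (Ioo 0 L)), dt δ' τ x = (deriv D τ : HL L) x) ∧
      (∀ x ∈ Ioo 0 L, dx L (dx L δ') τ x = ht τ x +
        Kint (fun z => E τ z + (deriv D τ : HL L) z) x / (x ^ 9 * φ τ x ^ 2)) ∧
      ∀ x ∈ Icc 0 L, x ^ 9 * (φ τ x ^ 2 * dx L (dx L δ') τ x - φ τ x ^ 2 * ht τ x) =
        Kint (fun ξ => E τ ξ + dt δ' τ ξ) x := by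
  have hL : 0 < L := bg_L_pos hB
  have hs : IsOpen (Ioo (0 : ℝ) 1) := isOpen_Ioo
  have hy0 : 0 < 3 * L / 4 := by positivity
  have hy0L : 3 * L / 4 < L := by linarith
  have hy1 : L / 2 ∈ Ioc 0 (3 * L / 4) := ⟨by positivity, by linarith⟩
  have hD' : ContDiffOn ℝ ∞ (deriv D) (Ioo 0 1) := smoothCurve_deriv hs hD
  set F : ℝ → ℝ → ℝ := fun τ z => E τ z + (deriv D τ : HL L) z with hF
  set r : ℝ → ℝ → ℝ := fun τ ξ => ht τ ξ + Kint (F τ) ξ / (ξ ^ 9 * φ τ ξ ^ 2) with hr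
  set δ : ℝ → ℝ → ℝ := dprim (L / 2) a b r with hδ
  set rR : ℝ → ℝ → ℝ := fun τ y => r τ (L - y) with hrR
  have hδR : ∀ τ y, δ τ (L - y) = dprim (L / 2) a (fun τ => - b τ) rR τ y := fun τ y =>
    dprim_reflect a b r τ y
  -- the coefficients
  set aL : ℝ → ℝ → ℝ := fun τ y => ((1 - y / L) ^ 2 * (m τ y * m τ y))⁻¹ with haL
  set aR : ℝ → ℝ → ℝ := fun τ y => L ^ 2 * ((L - y) ^ 11 * (m τ (L - y) * m τ (L - y)))⁻¹ with haR
  have hmpos : ∀ τ ∈ Ioo (0 : ℝ) 1, ∀ x ∈ Icc 0 L, m τ x ≠ 0 := fun τ hτ x hx =>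
    (lt_of_lt_of_le hc0 (hB.lower τ hτ x hx)).ne'
  have hmL : ∀ k, CK (Ioo 0 1) (3 * L / 4) k m := fun k =>
    CK.of_sm hs hy0 (hB.sm.mono_right hy0L.le) k
  have hmR : ∀ k, CK (Ioo 0 1) (3 * L / 4) k (fun τ y => m τ (L - y)) := fun k =>
    CK.of_sm hs hy0 (Sm_reflect hB.sm hy0L.le) k
  have hEL : ∀ k, CK (Ioo 0 1) (3 * L / 4) k E := fun k =>
    CK.of_sm hs hy0 (hE.mono_right hy0L.le) k
  have hhL : ∀ k, CK (Ioo 0 1) (3 * L / 4) k ht := fun k =>
    CK.of_sm hs hy0 (hh.mono_right hy0L.le) k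
  have hhR : ∀ k, CK (Ioo 0 1) (3 * L / 4) k (fun τ y => ht τ (L - y)) := fun k =>
    CK.of_sm hs hy0 (Sm_reflect hh hy0L.le) k
  have hw : ∀ k, CK (Ioo 0 1) (3 * L / 4) k (fun _ y => (L - y) ^ 9) := fun k =>
    CK.of_right (by fun_prop) k
  have hER : ∀ k, CK (Ioo 0 1) (3 * L / 4) k (fun τ y => (L - y) ^ 9 * E τ (L - y)) := fun k =>
    (hw k).mul (CK.of_sm hs hy0 (Sm_reflect hE hy0L.le) k)
  have haLk : ∀ k, CK (Ioo 0 1) (3 * L / 4) k aL := fun k => by
    refine CK.inv ((CK.of_right (c := fun y => (1 - y / L) ^ 2) (by fun_prop) k).mul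
      ((hmL k).mul (hmL k))) fun τ hτ y hy => ?_
    have h1 := hmpos τ hτ y ⟨hy.1, hy.2.trans hy0L.le⟩
    have h2 : 1 - y / L ≠ 0 := by
      have : y / L < 1 := (div_lt_one hL).2 (lt_of_le_of_lt hy.2 hy0L)
      linarith
    exact mul_ne_zero (pow_ne_zero 2 h2) (mul_ne_zero h1 h1)
  have haRk : ∀ k, CK (Ioo 0 1) (3 * L / 4) k aR := fun k => by
    refine (CK.const (L ^ 2) k).mul (CK.inv ((CK.of_right (c := fun y => (L - y) ^ 11)
      (by fun_prop) k).mul ((hmR k).mul (hmR k))) fun τ hτ y hy => ?_)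
    have h1 := hmpos τ hτ (L - y) ⟨by linarith [hy.2], by linarith [hy.1]⟩
    have h2 : L - y ≠ 0 := by
      have := hy.2
      intro h
      linarith
    exact mul_ne_zero (pow_ne_zero 11 h2) (mul_ne_zero h1 h1)
  -- integrability
  have iE : ∀ τ ∈ Ioo (0 : ℝ) 1, IntervalIntegrable (fun x => x ^ 9 * E τ x) volume 0 L := by
    intro τ hτ
    refine ContinuousOn.intervalIntegrable ?_
    rw [uIcc_of_le hL.le]
    exact ContinuousOn.mul (by fun_prop) (hE.continuousOn_right hτ)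
  have iD : ∀ τ, IntervalIntegrable (fun x => x ^ 9 * (deriv D τ : HL L) x) volume 0 L := fun τ =>
    ii_of_Ioo hL (integrableOn_wHL _)
  have iF : ∀ τ ∈ Ioo (0 : ℝ) 1, IntervalIntegrable (fun x => x ^ 9 * F τ x) volume 0 L := by
    intro τ hτ
    exact ((iE τ hτ).add (iD τ)).congr fun x _ => by
      simp only [hF]
      ring
  -- left and right formulas
  have fL : ∀ τ ∈ Ioo (0 : ℝ) 1, ∀ y ∈ Ioc 0 (3 * L / 4), ∀ G : ℝ → ℝ,
      Kint G y / (y ^ 9 * φ τ y ^ 2) = aL τ y * MN 9 G y := by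
    intro τ hτ y hy G
    have hyI : y ∈ Icc 0 L := ⟨hy.1.le, hy.2.trans hy0L.le⟩
    rw [Kint_eq_MN G hy.1, hB.phi_eq τ hτ y hyI, haL]
    have h1 := hmpos τ hτ y hyI
    have h2 : 1 - y / L ≠ 0 := by
      have : y / L < 1 := (div_lt_one hL).2 (lt_of_le_of_lt hy.2 hy0L)
      linarith
    have h3 := hy.1.ne'
    simp only
    generalize 1 - y / L = t at h2
    field_simp
  have fR : ∀ τ ∈ Ioo (0 : ℝ) 1, ∀ y ∈ Ioc 0 (3 * L / 4), ∀ G : ℝ → ℝ, ∀ M : ℝ,
      y ^ 2 * M = Kint G (L - y) →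
      Kint G (L - y) / ((L - y) ^ 9 * φ τ (L - y) ^ 2) = aR τ y * M := by
    intro τ hτ y hy G M hM
    have hyI : L - y ∈ Icc 0 L := ⟨by linarith [hy.2], by linarith [hy.1]⟩
    rw [← hM, hB.phi_eq τ hτ (L - y) hyI, haR]
    have h1 := hmpos τ hτ (L - y) hyI
    have h2 : L - y ≠ 0 := by
      have := hy.2
      intro h
      linarith
    have h3 := hy.1.ne'
    have h4 := hL.ne'
    have h5 : 1 - (L - y) / L = y / L := by
      field_simp
      ring
    simp only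
    rw [h5]
    generalize L - y = t at h2
    field_simp
  -- H1
  have H1L : SC (Ioo 0 1) (3 * L / 4) 10 r := by
    have h1 : SC (Ioo 0 1) (3 * L / 4) 10 (fun τ y => MN 9 (E τ) y) :=
      SC.of_c0 (R213.C0.MN hy0.le 9 (hEL 0).c0)
    have h2 : SC (Ioo 0 1) (3 * L / 4) 10 (fun τ y => MN 9 (fun x => (deriv D τ : HL L) x) y) :=
      SC_MN_left hL hy0L hD'
    refine ((SC.of_c0 (hhL 0).c0).add ((h1.add h2).mul_c0 (haLk 0).c0)).congr fun τ hτ y hy => ?_
    simp only [hr]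
    rw [fL τ hτ y hy, ← MN_add hy.1]
    · exact ii_sub (iE τ hτ) (left_mem_Icc.2 hL.le) ⟨hy.1.le, hy.2.trans hy0L.le⟩ hL.le
    · exact ii_sub (iD τ) (left_mem_Icc.2 hL.le) ⟨hy.1.le, hy.2.trans hy0L.le⟩ hL.le
  have keyR : ∀ τ ∈ Ioo (0 : ℝ) 1, ∀ y ∈ Ioc 0 (3 * L / 4),
      y ^ 2 * MN 0 (fun x => (L - x) ^ 9 * F τ (L - x)) y = Kint (F τ) (L - y) := by
    intro τ hτ y hy
    exact MN_reflect hL (iF τ hτ) (hm0 τ hτ) (hm1 τ hτ) hy.1 (hy.2.trans hy0L.le)
  have H1R : SC (Ioo 0 1) (3 * L / 4) 1 rR := by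
    have h1 : SC (Ioo 0 1) (3 * L / 4) 1 (fun τ y => MN 0 (fun x => (L - x) ^ 9 * E τ (L - x)) y) :=
      SC.of_c0 (R213.C0.MN hy0.le 0 (hER 0).c0)
    have h2 : SC (Ioo 0 1) (3 * L / 4) 1
        (fun τ y => MN 0 (fun x => (L - x) ^ 9 * (deriv D τ : HL L) (L - x)) y) :=
      SC_MN_right hL hy0L hD'
    refine ((SC.of_c0 (hhR 0).c0).add ((h1.add h2).mul_c0 (haRk 0).c0)).congr fun τ hτ y hy => ?_
    simp only [hrR, hr]
    rw [fR τ hτ y hy (F τ) _ (keyR τ hτ y hy), ← MN_add hy.1]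
    · congr 3
      funext x
      simp only [hF]
      ring
    · refine (ii_sub (ii_reflect (iE τ hτ)) (left_mem_Icc.2 hL.le)
        ⟨hy.1.le, hy.2.trans hy0L.le⟩ hL.le).congr fun x _ => ?_
      simp only [pow_zero, one_mul]
    · refine (ii_sub (ii_reflect (iD τ)) (left_mem_Icc.2 hL.le)
        ⟨hy.1.le, hy.2.trans hy0L.le⟩ hL.le).congr fun x _ => ?_
      simp only [pow_zero, one_mul]
  -- pointwise time derivative of δ on (0,L)
  have hb' : ContDiffOn ℝ ∞ (fun τ => - b τ) (Ioo 0 1) := hb.neg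
  have hδt : ∀ τ ∈ Ioo (0 : ℝ) 1, ∀ x ∈ Ioo 0 L, HasDerivAt (fun r => δ r x) (dt δ τ x) τ := by
    intro τ hτ x hx
    rcases le_or_gt x (L / 2) with h | h
    · exact SC.hasDerivAt hs (SC.dprim (p := 9) hy1 ha hb H1L) hτ ⟨hx.1, by linarith⟩
    · have h1 := SC.hasDerivAt hs (SC.dprim (p := 0) hy1 ha hb' H1R) hτ (y := L - x)
        ⟨by linarith [hx.2], by linarith⟩
      have h2 : (fun r => δ r x) = fun r => dprim (L / 2) a (fun τ => - b τ) rR r (L - x) := by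
        funext r
        rw [← hδR, sub_sub_cancel]
      rw [h2]
      have h3 : dt δ τ x = dt (dprim (L / 2) a (fun τ => - b τ) rR) τ (L - x) := by
        unfold dt
        rw [h2]
      rw [h3]
      exact h1
  have hDae : ∀ τ ∈ Ioo (0 : ℝ) 1, ∀ᵐ x ∂(volume.restrict (Ioo 0 L)),
      (deriv D τ : HL L) x = dt δ τ x := fun τ hτ =>
    ae_deriv hτ (smoothCurve_hasDerivAt hs hD hτ) hrep (hδt τ hτ)
  have hFae : ∀ τ ∈ Ioo (0 : ℝ) 1, ∀ᵐ x ∂(volume.restrict (Ioo 0 L)),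
      F τ x = E τ x + dt δ τ x := fun τ hτ => by
    filter_upwards [hDae τ hτ] with x hx
    simp only [hF]
    rw [hx]
  -- H2
  have H2L : ∀ τ ∈ Ioo (0 : ℝ) 1, ∀ y ∈ Ioc 0 (3 * L / 4), r τ y = ht τ y + aL τ y *
      MN 9 (fun z => E τ z + 1 * dt (dprim (L / 2) a b r) τ z) y := by
    intro τ hτ y hy
    simp only [hr]
    rw [fL τ hτ y hy]
    congr 2
    refine MN_congr_ae hy.1 (hy.2.trans hy0L.le) ?_
    filter_upwards [hFae τ hτ] with x hx
    rw [hx, one_mul]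
  have H2R : ∀ τ ∈ Ioo (0 : ℝ) 1, ∀ y ∈ Ioc 0 (3 * L / 4), rR τ y = ht τ (L - y) + aR τ y *
      MN 0 (fun z => (L - z) ^ 9 * E τ (L - z) + (L - z) ^ 9 *
        dt (dprim (L / 2) a (fun τ => - b τ) rR) τ z) y := by
    intro τ hτ y hy
    have hdt : ∀ z, dt (dprim (L / 2) a (fun τ => - b τ) rR) τ z = dt δ τ (L - z) := by
      intro z
      unfold dt
      congr 1
      funext r
      exact (hδR r z).symm
    simp only [hrR, hr]
    congr 1
    refine fR τ hτ y hy (F τ) _ ?_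
    have hFae' := (ae_restrict_iff' measurableSet_Ioo).1 (hFae τ hτ)
    have hne : ∀ c : ℝ, ∀ᵐ x : ℝ, x ≠ c := fun c => by
      have : volume ({c} : Set ℝ) = 0 := by simp
      exact compl_mem_ae_iff.2 this
    have iG : IntervalIntegrable (fun x => x ^ 9 * (E τ x + dt δ τ x)) volume 0 L := by
      refine (iF τ hτ).congr_ae ?_
      rw [Filter.EventuallyEq, ae_restrict_iff' measurableSet_uIoc]
      filter_upwards [hFae', hne L] with x hx hxL hxu
      rw [uIoc_of_le hL.le] at hxu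
      rw [hx ⟨hxu.1, lt_of_le_of_ne hxu.2 hxL⟩]
    have hGm : ∀ n : ℕ, ∫ x in (0 : ℝ)..L, x ^ n * (E τ x + dt δ τ x) =
        ∫ x in (0 : ℝ)..L, x ^ n * F τ x := by
      intro n
      refine intervalIntegral.integral_congr_ae ?_
      filter_upwards [hFae', hne L] with x hx hxL hxu
      rw [uIoc_of_le hL.le] at hxu
      rw [hx ⟨hxu.1, lt_of_le_of_ne hxu.2 hxL⟩]
    have hR := MN_reflect hL iG (by rw [hGm]; exact hm0 τ hτ) (by rw [hGm]; exact hm1 τ hτ) hy.1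
      (hy.2.trans hy0L.le)
    have hK : Kint (F τ) (L - y) = Kint (fun x => E τ x + dt δ τ x) (L - y) :=
      Kint_congr_ae' (by linarith [hy.2]) (by linarith [hy.1]) (hFae τ hτ)
    rw [hK, ← hR]
    congr 2
    funext z
    rw [hdt z]
    ring
  obtain ⟨bL1, bL2⟩ := half_boot hs hy0 hy1 (p := 9) (N := 9) le_rfl hhL haLk hEL
    (fun k => CK.const 1 k) ha hb H1L H2L
  obtain ⟨bR1, bR2⟩ := half_boot hs hy0 hy1 (p := 0) (N := 0) le_rfl hhR haRk hER hw ha hb' H1R H2R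
  have smL : Sm (Ioo 0 1) (3 * L / 4) δ := sm_of_CK hy0 bL1
  have smR : Sm (Ioo 0 1) (3 * L / 4) (fun τ y => δ τ (L - y)) :=
    (sm_of_CK hy0 bR1).congr fun τ _ y _ => hδR τ y
  have smδ : Sm (Ioo 0 1) L δ := Sm_glue hL smL smR
  have hrc : ∀ τ ∈ Ioo (0 : ℝ) 1, ContinuousOn (r τ) (Ioo 0 L) := by
    intro τ hτ x hx
    have c1 : ContinuousOn (r τ) (Ioc 0 (3 * L / 4)) :=
      (((bL2 0).c0.continuousOn_right hτ).mono Ioc_subset_Icc_self).congr fun y hy => H2L τ hτ y hy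
    have c2 : ContinuousOn (rR τ) (Ioc 0 (3 * L / 4)) :=
      (((bR2 0).c0.continuousOn_right hτ).mono Ioc_subset_Icc_self).congr fun y hy => H2R τ hτ y hy
    refine ContinuousAt.continuousWithinAt ?_
    rcases le_or_gt x (L / 2) with h | h
    · exact c1.continuousAt (mem_of_superset (Ioo_mem_nhds hx.1 (by linarith : x < 3 * L / 4))
        Ioo_subset_Ioc_self)
    · have h1 : ContinuousAt (rR τ) (L - x) :=
        c2.continuousAt (mem_of_superset (Ioo_mem_nhds (by linarith [hx.2])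
          (by linarith : L - x < 3 * L / 4)) Ioo_subset_Ioc_self)
      have h2 : r τ = fun z => rR τ (L - z) := by
        funext z
        simp only [hrR, sub_sub_cancel]
      rw [h2]
      exact ContinuousAt.comp (f := fun z : ℝ => L - z) (x := x) h1 (by fun_prop)
  have hm2 : L / 2 ∈ Ioo 0 L := ⟨by positivity, by linarith⟩
  have hdd : ∀ τ ∈ Ioo (0 : ℝ) 1, ∀ x ∈ Ioo 0 L, dx L (dx L δ) τ x = r τ x := by
    intro τ hτ x hx
    rw [dxdx_eq_interior hx (f := δ τ) (fun y _ => rfl)]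
    have h1 : deriv (δ τ) =ᶠ[𝓝 x] fun z => b τ + ∫ t in (L / 2)..z, r τ t := by
      filter_upwards [Ioo_mem_nhds hx.1 hx.2] with z hz
      exact (dprim_hasDeriv2 (hrc τ hτ) hm2 hz).1.deriv
    rw [h1.deriv_eq]
    exact (dprim_hasDeriv2 (a := a) (b := b) (hrc τ hτ) hm2 hx).2.deriv
  refine ⟨δ, smδ, fun τ hτ => ⟨hrep τ hτ, ?_, fun x hx => hdd τ hτ x hx, ?_⟩⟩
  · filter_upwards [hDae τ hτ] with x hx
    exact hx.symm
  · intro x hx
    rcases eq_or_lt_of_le hx.1 with h0 | h0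
    · rw [← h0]
      simp [Kint]
    · rcases eq_or_lt_of_le hx.2 with h1 | h1
      · have e1 : φ τ x = 0 := by
          rw [hB.phi_eq τ hτ x hx, h1, div_self hL.ne']
          ring
        have e2 : Kint (fun ξ => E τ ξ + dt δ τ ξ) x = Kint (F τ) x :=
          (Kint_congr_ae' h0 hx.2 (hFae τ hτ)).symm
        rw [e1, e2, h1]
        unfold Kint
        have e3 : ∀ ξ, (L - ξ) * ξ ^ 9 * F τ ξ = L * (ξ ^ 9 * F τ ξ) - ξ ^ 10 * F τ ξ := fun ξ => by
          ring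
        have hi : IntervalIntegrable (fun x => x ^ 10 * F τ x) volume 0 L := by
          have := (iF τ hτ).continuousOn_mul (g := fun x : ℝ => x) (by fun_prop)
          exact this.congr fun x _ => by
            ring
        simp_rw [e3]
        rw [intervalIntegral.integral_sub ((iF τ hτ).const_mul _) hi,
          intervalIntegral.integral_const_mul, hm0 τ hτ, hm1 τ hτ]
        ring
      · have hxI : x ∈ Ioo 0 L := ⟨h0, h1⟩
        rw [hdd τ hτ x hxI, ← Kint_congr_ae' h0 hx.2 (hFae τ hτ)]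
        simp only [hr]
        have hφ : φ τ x ≠ 0 := by
          rw [hB.phi_eq τ hτ x hx]
          have h2 : 1 - x / L ≠ 0 := by
            have : x / L < 1 := (div_lt_one hL).2 h1
            linarith
          exact mul_ne_zero (mul_ne_zero h0.ne' h2) (hmpos τ hτ x hx)
        have hx0 := h0.ne'
        field_simp
        ring

end Crest.Agent.R213.B
end
end

-- ▼ part R213/B/SpaceBoot

/-!
# Row 213, part B: `space_boot` (helper80, from `rep_data` and helper962's `boot`)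
-/

set_option autoImplicit false

open Set MeasureTheory Filter Topology
open scoped RealInnerProductSpace ContDiff

noncomputable section

namespace Crest.Agent.R213.B

theorem bootStmt : BootStmt := by
  intro c0 C0 g L φ m hB hc0 E ht hE hh D hD a b ha hb hrep hm0 hm1
  obtain ⟨d, h1, h2⟩ := boot hB hc0 hE hh hD ha hb hrep hm0 hm1
  exact ⟨d, h1, fun τ hτ => ⟨(h2 τ hτ).1, (h2 τ hτ).2.2.2⟩⟩


end Crest.Agent.R213.B
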