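import Mathlib

-- ▼ part R213/B/TGrp
section

/-!
Row 213, part B1 (helper418).  One-parameter groups of isometries on Hilbert spaces, the
generator relation, and the difference-quotient estimate.
-/

set_option autoImplicit false

open Set MeasureTheory Filter Topology
open scoped RealInnerProductSpace

noncomputable section

namespace Crest.Agent.R213.B

/-- A strongly continuous one-parameter group of linear isometries. -/
structure OneGrp (X : Type*) [NormedAddCommGroup X] [InnerProductSpace ℝ X] where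
  T : ℝ → X →ₗᵢ[ℝ] X
  T_zero : ∀ x, T 0 x = x
  T_add : ∀ r s x, T (r + s) x = T r (T s x)
  cont : ∀ x, Continuous fun r => T r x

namespace OneGrp

variable {X : Type*} [NormedAddCommGroup X] [InnerProductSpace ℝ X] (G : OneGrp X)

/-- `y` is the generator applied to `x`. -/
def Gen (x y : X) : Prop := ∀ r, HasDerivAt (fun r => G.T r x) (G.T r y) r

/-- Smoothness of order `k` along the group. -/
def Sm : ℕ → X → Prop
  | 0, _ => True
  | (k + 1), x => ∃ y, G.Gen x y ∧ Sm k y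


theorem T_neg' (r : ℝ) (x : X) : G.T r (G.T (-r) x) = x := by
  rw [← G.T_add, add_neg_cancel, G.T_zero]

theorem inner_T (r : ℝ) (x y : X) : ⟪G.T r x, G.T r y⟫ = ⟪x, y⟫ :=
  (G.T r).inner_map_map x y

theorem inner_T_left (r : ℝ) (x y : X) : ⟪G.T r x, y⟫ = ⟪x, G.T (-r) y⟫ := by
  rw [← G.inner_T r x, G.T_neg']

theorem norm_T (r : ℝ) (x : X) : ‖G.T r x‖ = ‖x‖ := (G.T r).norm_map x

theorem gen_of_zero {x y : X} (h : HasDerivAt (fun r => G.T r x) y 0) : G.Gen x y := by
  intro r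
  have h1 : HasDerivAt (fun s => G.T r (G.T (s - r) x)) (G.T r y) r := by
    have h2 : HasDerivAt (fun s => G.T (s - r) x) y r := by
      have h3 : HasDerivAt (fun r => G.T r x) y (r - r) := by rwa [sub_self]
      have h5 := HasDerivAt.scomp (h := fun s : ℝ => s - r) r h3 ((hasDerivAt_id r).sub_const r)
      simpa [Function.comp_def] using h5
    have h4 := ((G.T r).toContinuousLinearMap.hasFDerivAt (x := G.T (r - r) x)).comp_hasDerivAt r h2
    exact h4
  have : (fun s => G.T r (G.T (s - r) x)) = fun s => G.T s x := by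
    funext s
    rw [← G.T_add, add_sub_cancel]
  rwa [this] at h1

theorem Gen.zero {x y : X} (h : G.Gen x y) : HasDerivAt (fun r => G.T r x) y 0 := by
  have := h 0
  rwa [G.T_zero] at this

variable {G}

theorem Gen.unique {x y z : X} (h : G.Gen x y) (h' : G.Gen x z) : y = z :=
  (h.zero).unique (h'.zero)

theorem Gen.add {x y x' y' : X} (h : G.Gen x y) (h' : G.Gen x' y') : G.Gen (x + x') (y + y') := by
  intro r
  have := (h r).add (h' r)
  simp only [map_add]
  exact this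

theorem Gen.sub {x y x' y' : X} (h : G.Gen x y) (h' : G.Gen x' y') : G.Gen (x - x') (y - y') := by
  intro r
  have := (h r).sub (h' r)
  simp only [map_sub]
  exact this

theorem Sm.add {k : ℕ} : ∀ {x x' : X}, G.Sm k x → G.Sm k x' → G.Sm k (x + x') := by
  induction k with
  | zero => intros; trivial
  | succ k ih =>
    rintro x x' ⟨y, h, hy⟩ ⟨y', h', hy'⟩
    exact ⟨y + y', h.add h', ih hy hy'⟩

theorem Sm.sub {k : ℕ} : ∀ {x x' : X}, G.Sm k x → G.Sm k x' → G.Sm k (x - x') := by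
  induction k with
  | zero => intros; trivial
  | succ k ih =>
    rintro x x' ⟨y, h, hy⟩ ⟨y', h', hy'⟩
    exact ⟨y - y', h.sub h', ih hy hy'⟩

theorem Sm.of_succ {k : ℕ} : ∀ {x : X}, G.Sm (k + 1) x → G.Sm k x := by
  induction k with
  | zero => intros; trivial
  | succ k ih =>
    rintro x ⟨y, h, hy⟩
    exact ⟨y, h, ih hy⟩

/-- Intertwining maps preserve the generator relation. -/
theorem Gen.map {Y : Type*} [NormedAddCommGroup Y] [InnerProductSpace ℝ Y] {G' : OneGrp Y}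
    {L : X →L[ℝ] Y} (hL : ∀ r x, L (G.T r x) = G'.T r (L x)) {x y : X} (h : G.Gen x y) :
    G'.Gen (L x) (L y) := by
  intro r
  have h4 := (L.hasFDerivAt (x := G.T r x)).comp_hasDerivAt r (h r)
  have h5 : HasDerivAt (fun r => L (G.T r x)) (L (G.T r y)) r := h4
  simpa only [hL] using h5

theorem Sm.map {Y : Type*} [NormedAddCommGroup Y] [InnerProductSpace ℝ Y] {G' : OneGrp Y}
    {L : X →L[ℝ] Y} (hL : ∀ r x, L (G.T r x) = G'.T r (L x)) {k : ℕ} :
    ∀ {x : X}, G.Sm k x → G'.Sm k (L x) := by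
  induction k with
  | zero => intros; trivial
  | succ k ih =>
    rintro x ⟨y, h, hy⟩
    exact ⟨L y, h.map hL, ih hy⟩

/-- The generator relation gives a Lipschitz orbit. -/
theorem Gen.lip {x y : X} (h : G.Gen x y) (r : ℝ) : ‖G.T r x - x‖ ≤ ‖y‖ * |r| := by
  have := Convex.norm_image_sub_le_of_norm_hasDerivWithin_le (𝕜 := ℝ) (f := fun r => G.T r x)
    (f' := fun r => G.T r y) (s := univ) (x := 0) (y := r) (C := ‖y‖)
    (fun r _ => (h r).hasDerivWithinAt) (fun r _ => by rw [G.norm_T]) convex_univ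
    (mem_univ _) (mem_univ _)
  simpa [G.T_zero] using this

/-- The difference-quotient criterion. -/
theorem exists_gen [CompleteSpace X] {x : X} {C : ℝ}
    (hC : ∀ h : ℝ, 0 < h → ‖G.T h x - x‖ ≤ C * h) : ∃ y, G.Gen x y := by
  classical
  -- weak cluster point of the difference quotients
  let U : Ultrafilter ℝ := Ultrafilter.of (𝓝[>] (0 : ℝ))
  have hU : (U : Filter ℝ) ≤ 𝓝[>] (0 : ℝ) := Ultrafilter.of_le _
  let φ : ℝ → WeakDual ℝ X := fun h =>
    StrongDual.toWeakDual (InnerProductSpace.toDual ℝ X (h⁻¹ • (G.T h x - x)))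
  have hφ : ∀ h z, φ h z = ⟪h⁻¹ • (G.T h x - x), z⟫ := fun h z => rfl
  have hball : ∀ᶠ h in (U : Filter ℝ), φ h ∈
      (WeakDual.toStrongDual ⁻¹' Metric.closedBall (0 : StrongDual ℝ X) C) := by
    have : ∀ᶠ h in 𝓝[>] (0 : ℝ), φ h ∈
      (WeakDual.toStrongDual ⁻¹' Metric.closedBall (0 : StrongDual ℝ X) C) := by
      filter_upwards [self_mem_nhdsWithin] with h hh
      have hh' : (0 : ℝ) < h := hh
      simp only [mem_preimage, Metric.mem_closedBall, dist_zero_right]
      change ‖InnerProductSpace.toDual ℝ X (h⁻¹ • (G.T h x - x))‖ ≤ C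
      rw [LinearIsometryEquiv.norm_map, norm_smul, norm_inv, Real.norm_of_nonneg hh'.le]
      calc h⁻¹ * ‖G.T h x - x‖ ≤ h⁻¹ * (C * h) := by gcongr; exact hC h hh'
        _ = C := by field_simp
    exact hU this
  obtain ⟨ψ, -, hψ⟩ := (WeakDual.isCompact_closedBall (0 : StrongDual ℝ X) C).ultrafilter_le_nhds
    (U.map φ) (by rw [le_principal_iff]; exact hball)
  let y : X := (InnerProductSpace.toDual ℝ X).symm (WeakDual.toStrongDual ψ)
  have hy : ∀ z, ψ z = ⟪y, z⟫ := by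
    intro z
    simp only [y, InnerProductSpace.toDual_symm_apply]
    rfl
  have hlim : ∀ z, Tendsto (fun h => ⟪h⁻¹ • (G.T h x - x), z⟫) U (𝓝 ⟪y, z⟫) := by
    intro z
    rw [← hy z]
    exact ((WeakDual.eval_continuous z).tendsto ψ).comp hψ
  refine ⟨y, ?_⟩
  -- one-sided inequality
  have key : ∀ z : X, ∀ a b : ℝ, a ≤ b →
      ⟪G.T b x, z⟫ - ⟪G.T a x, z⟫ ≤ ∫ s in a..b, ⟪G.T s y, z⟫ := by
    intro z a b hab
    have hcg : Continuous fun s => ⟪G.T s y, z⟫ := (G.cont y).inner continuous_const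
    have hmain := image_le_of_liminf_slope_right_le_deriv_boundary
      (f := fun r => ⟪G.T r x, z⟫) (a := a) (b := b)
      (B := fun r => ⟪G.T a x, z⟫ + ∫ s in a..r, ⟪G.T s y, z⟫) (B' := fun r => ⟪G.T r y, z⟫)
      (((G.cont x).inner continuous_const).continuousOn) (by simp)
      (by
        apply Continuous.continuousOn
        refine continuous_const.add ?_
        exact intervalIntegral.continuous_primitive (fun _ _ => hcg.intervalIntegrable _ _) a)
      (by
        intro r _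
        have := (intervalIntegral.integral_hasDerivAt_right (hcg.intervalIntegrable a r)
          (hcg.stronglyMeasurableAtFilter _ _) hcg.continuousAt)
        exact (this.const_add _).hasDerivWithinAt)
      (by
        intro r _ ρ hρ
        -- slopes converge along the ultrafilter
        have h1 : Tendsto (fun h => ⟪h⁻¹ • (G.T h x - x), G.T (-r) z⟫) U (𝓝 ⟪y, G.T (-r) z⟫) :=
          hlim _
        have h2 : ⟪y, G.T (-r) z⟫ = ⟪G.T r y, z⟫ := (G.inner_T_left r y z).symm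
        rw [h2] at h1
        have h3 : ∀ᶠ h in (U : Filter ℝ), ⟪h⁻¹ • (G.T h x - x), G.T (-r) z⟫ < ρ :=
          h1.eventually_lt_const hρ
        have h4 : ∀ᶠ h in (U : Filter ℝ), slope (fun r => ⟪G.T r x, z⟫) r (r + h) < ρ := by
          filter_upwards [h3] with h hh
          convert hh using 1
          rw [slope_def_field]
          simp only [add_sub_cancel_left]
          rw [← G.inner_T_left, map_smul, map_sub, ← G.T_add, real_inner_smul_left,
            inner_sub_left]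
          field_simp
        have h5 : ∃ᶠ h in 𝓝[>] (0 : ℝ), slope (fun r => ⟪G.T r x, z⟫) r (r + h) < ρ :=
          h4.frequently.filter_mono hU
        have h6 : Tendsto (fun h => r + h) (𝓝[>] (0 : ℝ)) (𝓝[>] r) := by
          refine tendsto_nhdsWithin_iff.2 ⟨?_, ?_⟩
          · have : Tendsto (fun h : ℝ => r + h) (𝓝 0) (𝓝 (r + 0)) :=
              (continuous_const.add continuous_id).tendsto 0
            rw [add_zero] at this
            exact this.mono_left nhdsWithin_le_nhds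
          · filter_upwards [self_mem_nhdsWithin] with h hh
            have : (0 : ℝ) < h := hh
            simp only [mem_Ioi]
            linarith
        exact h6.frequently h5)
      (right_mem_Icc.2 hab)
    linarith
  have key2 : ∀ z : X, ∀ a b : ℝ, a ≤ b →
      ⟪G.T b x, z⟫ - ⟪G.T a x, z⟫ = ∫ s in a..b, ⟪G.T s y, z⟫ := by
    intro z a b hab
    refine le_antisymm (key z a b hab) ?_
    have := key (-z) a b hab
    simp only [inner_neg_right, intervalIntegral.integral_neg] at this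
    linarith
  have key3 : ∀ r : ℝ, G.T r x = x + ∫ s in (0 : ℝ)..r, G.T s y := by
    intro r
    have hi : ∀ a b, IntervalIntegrable (fun s => G.T s y) volume a b :=
      fun a b => (G.cont y).intervalIntegrable a b
    refine ext_inner_right ℝ fun z => ?_
    rw [inner_add_left]
    have h1 : ⟪∫ s in (0 : ℝ)..r, G.T s y, z⟫ = ∫ s in (0 : ℝ)..r, ⟪G.T s y, z⟫ := by
      have := ((innerSL ℝ z).intervalIntegral_comp_comm (hi 0 r))
      simp only [innerSL_apply_apply] at this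
      rw [real_inner_comm, ← this]
      congr 1
      funext s
      rw [real_inner_comm]
    rw [h1]
    rcases le_total 0 r with hr | hr
    · rw [← key2 z 0 r hr, G.T_zero]
      ring
    · rw [intervalIntegral.integral_symm, ← key2 z r 0 hr, G.T_zero]
      ring
  intro r
  have h1 : HasDerivAt (fun r => x + ∫ s in (0 : ℝ)..r, G.T s y) (G.T r y) r :=
    ((intervalIntegral.integral_hasDerivAt_right ((G.cont y).intervalIntegrable 0 r)
          ((G.cont y).stronglyMeasurableAtFilter _ _) (G.cont y).continuousAt)).const_add _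
  have h2 : (fun r => G.T r x) = fun r => x + ∫ s in (0 : ℝ)..r, G.T s y := funext key3
  rw [h2]
  exact h1

end OneGrp

end Crest.Agent.R213.B
end
end

-- ▼ part R213/B/TCore
section

/-!
Row 213, part B1 (helper418).  Core Lipschitz estimates for the weak equation in time, abstract
group form.
-/

set_option autoImplicit false

open Set MeasureTheory Filter Topology
open scoped RealInnerProductSpace

noncomputable section

namespace Crest.Agent.R213.B

variable {V H K : Type*} [NormedAddCommGroup V] [InnerProductSpace ℝ V]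
    [NormedAddCommGroup H] [InnerProductSpace ℝ H]
    [NormedAddCommGroup K] [InnerProductSpace ℝ K]

/-- The weak equation, in group form, for `v` with data `N`, `R`, `F`. -/
def WEq (GH : OneGrp H) (GK : OneGrp K) (J : V →L[ℝ] H) (B : V →L[ℝ] K) (v : V) (P : K) (F : H) :
    Prop :=
  ∀ (y : V) (r : ℝ), HasDerivAt (fun r => ⟪J y, GH.T r (J v)⟫)
    (⟪B y, GK.T r P⟫ - ⟪J y, GH.T r F⟫) r

section

variable {GV : OneGrp V} {GH : OneGrp H} {GK : OneGrp K} {J : V →L[ℝ] H} {B : V →L[ℝ] K}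

theorem WEq.integral {v : V} {P : K} {F : H} (h : WEq GH GK J B v P F) (y : V) (a b : ℝ) :
    ⟪J y, GH.T b (J v)⟫ - ⟪J y, GH.T a (J v)⟫ =
      ∫ r in a..b, (⟪B y, GK.T r P⟫ - ⟪J y, GH.T r F⟫) := by
  symm
  apply intervalIntegral.integral_eq_sub_of_hasDerivAt (fun r _ => h y r)
  apply Continuous.intervalIntegrable
  exact (continuous_const.inner (GK.cont P)).sub (continuous_const.inner (GH.cont F))

theorem WEq.sub {v v' : V} {P P' : K} {F F' : H} (h : WEq GH GK J B v P F)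
    (h' : WEq GH GK J B v' P' F') : WEq GH GK J B (v - v') (P - P') (F - F') := by
  intro y r
  have h1 : HasDerivAt (fun r => ⟪J y, GH.T r (J v)⟫ - ⟪J y, GH.T r (J v')⟫)
      ((⟪B y, GK.T r P⟫ - ⟪J y, GH.T r F⟫) - (⟪B y, GK.T r P'⟫ - ⟪J y, GH.T r F'⟫)) r :=
    (h y r).sub (h' y r)
  simp only [map_sub, inner_sub_right]
  exact h1.congr_deriv (by ring)

theorem WEq.translate (hJ : ∀ r v, J (GV.T r v) = GH.T r (J v)) {v : V} {P : K} {F : H}
    (h : WEq GH GK J B v P F) (s : ℝ) :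
    WEq GH GK J B (GV.T s v) (GK.T s P) (GH.T s F) := by
  intro y r
  have h1 := h y (r + s)
  have h2 := HasDerivAt.comp_add_const (f := fun r => ⟪J y, GH.T r (J v)⟫) r s h1
  simp only [hJ, ← GH.T_add, ← GK.T_add]
  exact h2

/-- Step (i): the `H`-part is Lipschitz. -/
theorem core1 (hJ : ∀ r v, J (GV.T r v) = GH.T r (J v)) (hB : ∀ r v, B (GV.T r v) = GK.T r (B v))
    {N : K →L[ℝ] K} (hNs : ∀ x y, ⟪N x, y⟫ = ⟪x, N y⟫) {L : ℝ}
    (hNL : ∀ r z, ‖N (GK.T r z) - GK.T r (N z)‖ ≤ L * |r| * ‖z‖)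
    {v : V} {R : K} {F : H} (h : WEq GH GK J B v (N (B v) - R) F) {CR : ℝ}
    (hR : ∀ r, ‖GK.T r R - R‖ ≤ CR * |r|) :
    ∃ C : ℝ, ∀ t : ℝ, 0 < t → ‖GH.T t (J v) - J v‖ ≤ C * t := by
  set z := B v with hz
  set A : ℝ := L * ‖z‖ ^ 2 + CR * ‖z‖ with hA
  refine ⟨Real.sqrt (|2 * A + ‖F‖ ^ 2|), fun t ht => ?_⟩
  set y : V := GV.T t v - v with hy
  have hJy : J y = GH.T t (J v) - J v := by rw [hy, map_sub, hJ]
  have hBy : B y = GK.T t z - z := by rw [hy, map_sub, hB]
  have h0 := h.integral y 0 t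
  rw [GH.T_zero, ← inner_sub_right, ← hJy, real_inner_self_eq_norm_sq] at h0
  have hc1 : Continuous fun r => ⟪B y, GK.T r (N z)⟫ := continuous_const.inner (GK.cont _)
  have hc2 : Continuous fun r => ⟪B y, GK.T r R⟫ := continuous_const.inner (GK.cont _)
  have hc3 : Continuous fun r => ⟪J y, GH.T r F⟫ := continuous_const.inner (GH.cont _)
  have hsplit : ∫ r in (0 : ℝ)..t, (⟪B y, GK.T r (N z - R)⟫ - ⟪J y, GH.T r F⟫) =
      (∫ r in (0 : ℝ)..t, ⟪B y, GK.T r (N z)⟫) - (∫ r in (0 : ℝ)..t, ⟪B y, GK.T r R⟫)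
        - ∫ r in (0 : ℝ)..t, ⟪J y, GH.T r F⟫ := by
    rw [← intervalIntegral.integral_sub (hc1.intervalIntegrable _ _) (hc2.intervalIntegrable _ _),
      ← intervalIntegral.integral_sub (Continuous.intervalIntegrable
        (u := fun r => ⟪B y, GK.T r (N z)⟫ - ⟪B y, GK.T r R⟫) (hc1.sub hc2) _ _)
        (hc3.intervalIntegrable _ _)]
    congr 1
    funext r
    rw [(GK.T r).map_sub, inner_sub_right]
  rw [hsplit] at h0
  -- first term
  have T1 : |∫ r in (0 : ℝ)..t, ⟪B y, GK.T r (N z)⟫| ≤ L * ‖z‖ ^ 2 * t * t := by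
    have e1 : ∫ r in (0 : ℝ)..t, ⟪B y, GK.T r (N z)⟫ =
        (∫ r in (0 : ℝ)..t, ⟪GK.T (t - r) z, N z⟫) - ∫ r in (0 : ℝ)..t, ⟪z, GK.T r (N z)⟫ := by
      have hc4 : Continuous fun r => ⟪GK.T (t - r) z, N z⟫ :=
        ((GK.cont z).comp (continuous_const.sub continuous_id)).inner continuous_const
      rw [← intervalIntegral.integral_sub (hc4.intervalIntegrable _ _)
        ((continuous_const.inner (GK.cont _)).intervalIntegrable _ _)]
      congr 1
      funext r
      rw [hBy, inner_sub_left]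
      congr 1
      have : GK.T t z = GK.T r (GK.T (t - r) z) := by rw [← GK.T_add]; congr 2; ring
      rw [this, GK.inner_T]
    have e2 : (∫ r in (0 : ℝ)..t, ⟪GK.T (t - r) z, N z⟫) = ∫ r in (0 : ℝ)..t, ⟪GK.T r z, N z⟫ := by
      have := intervalIntegral.integral_comp_sub_left (a := 0) (b := t)
        (fun r => ⟪GK.T r z, N z⟫) t
      simpa using this
    have hc5 : Continuous fun r => ⟪GK.T r z, N z⟫ := (GK.cont z).inner continuous_const
    have hc6 : Continuous fun r => ⟪z, GK.T r (N z)⟫ := continuous_const.inner (GK.cont _)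
    rw [e1, e2, ← intervalIntegral.integral_sub (hc5.intervalIntegrable _ _)
      (hc6.intervalIntegrable _ _)]
    have := intervalIntegral.norm_integral_le_of_norm_le_const (a := 0) (b := t)
      (f := fun r => ⟪GK.T r z, N z⟫ - ⟪z, GK.T r (N z)⟫) (C := L * ‖z‖ ^ 2 * t) (by
        intro r hr
        rw [uIoc_of_le ht.le] at hr
        have e3 : ⟪GK.T r z, N z⟫ - ⟪z, GK.T r (N z)⟫ = ⟪z, N (GK.T r z) - GK.T r (N z)⟫ := by
          rw [inner_sub_right, ← hNs, real_inner_comm]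
        rw [e3]
        have hr0 : |r| = r := abs_of_pos hr.1
        have hL := hNL r z
        have hL' : 0 ≤ L * |r| * ‖z‖ := (norm_nonneg _).trans hL
        calc ‖⟪z, N (GK.T r z) - GK.T r (N z)⟫‖ ≤ ‖z‖ * ‖N (GK.T r z) - GK.T r (N z)‖ :=
              norm_inner_le_norm _ _
          _ ≤ ‖z‖ * (L * |r| * ‖z‖) := by gcongr
          _ = L * ‖z‖ ^ 2 * r := by rw [hr0]; ring
          _ ≤ L * ‖z‖ ^ 2 * t := by
              have h0L : 0 ≤ L * ‖z‖ ^ 2 := by
                have h1 : 0 ≤ (L * |r| * ‖z‖) * ‖z‖ := mul_nonneg hL' (norm_nonneg _)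
                rw [hr0] at h1
                have h2 : 0 ≤ (L * ‖z‖ ^ 2) * r := by linarith [h1, (by ring :
                  (L * r * ‖z‖) * ‖z‖ = (L * ‖z‖ ^ 2) * r)]
                exact nonneg_of_mul_nonneg_left h2 hr.1
              exact mul_le_mul_of_nonneg_left hr.2 h0L)
    rw [sub_zero, abs_of_pos ht] at this
    exact this
  -- second term
  have T2 : |∫ r in (0 : ℝ)..t, ⟪B y, GK.T r R⟫| ≤ CR * ‖z‖ * t * t := by
    have := intervalIntegral.norm_integral_le_of_norm_le_const (a := 0) (b := t)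
      (f := fun r => ⟪B y, GK.T r R⟫) (C := CR * ‖z‖ * t) (by
        intro r hr
        have e3 : ⟪B y, GK.T r R⟫ = - ⟪GK.T t z, GK.T r (GK.T t R - R)⟫
            + (⟪GK.T t z, GK.T r (GK.T t R)⟫ - ⟪z, GK.T r R⟫) := by
          rw [hBy, inner_sub_left, map_sub, inner_sub_right]
          ring
        have e4 : GK.T r (GK.T t R) = GK.T t (GK.T r R) := by
          rw [← GK.T_add, ← GK.T_add, add_comm]
        rw [e3, e4, GK.inner_T, sub_self, add_zero, norm_neg]
        calc ‖⟪GK.T t z, GK.T r (GK.T t R - R)⟫‖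
            ≤ ‖GK.T t z‖ * ‖GK.T r (GK.T t R - R)‖ := norm_inner_le_norm _ _
          _ = ‖z‖ * ‖GK.T t R - R‖ := by rw [GK.norm_T, GK.norm_T]
          _ ≤ ‖z‖ * (CR * |t|) := by gcongr; exact hR t
          _ = CR * ‖z‖ * t := by rw [abs_of_pos ht]; ring)
    rw [sub_zero, abs_of_pos ht] at this
    exact this
  -- third term
  have T3 : |∫ r in (0 : ℝ)..t, ⟪J y, GH.T r F⟫| ≤ ‖J y‖ * ‖F‖ * t := by
    have := intervalIntegral.norm_integral_le_of_norm_le_const (a := 0) (b := t)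
      (f := fun r => ⟪J y, GH.T r F⟫) (C := ‖J y‖ * ‖F‖) (by
        intro r hr
        calc ‖⟪J y, GH.T r F⟫‖ ≤ ‖J y‖ * ‖GH.T r F‖ := norm_inner_le_norm _ _
          _ = ‖J y‖ * ‖F‖ := by rw [GH.norm_T])
    rw [sub_zero, abs_of_pos ht] at this
    exact this
  have hfin : ‖J y‖ ^ 2 ≤ A * t ^ 2 + ‖J y‖ * ‖F‖ * t := by
    have a1 := (abs_le.1 T1).2
    have a2 := (abs_le.1 T2).1
    have a3 := (abs_le.1 T3).1
    rw [h0]
    rw [hA]
    nlinarith
  have hfin2 : ‖J y‖ ^ 2 ≤ (2 * A + ‖F‖ ^ 2) * t ^ 2 := by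
    nlinarith [sq_nonneg (‖J y‖ - ‖F‖ * t)]
  rw [← hJy]
  have hfin3 : ‖J y‖ ^ 2 ≤ |2 * A + ‖F‖ ^ 2| * t ^ 2 :=
    hfin2.trans (mul_le_mul_of_nonneg_right (le_abs_self _) (sq_nonneg _))
  have h4 := Real.sqrt_le_sqrt hfin3
  rw [Real.sqrt_sq (norm_nonneg _), Real.sqrt_mul (abs_nonneg _), Real.sqrt_sq ht.le] at h4
  exact h4

/-- A quadratic inequality. -/
theorem le_of_sq_le {a P Q c t : ℝ} (hc : 0 < c) (ha : 0 ≤ a) (ht : 0 < t) (hP : 0 ≤ P) (hQ : 0 ≤ Q)
    (h : c * a ^ 2 ≤ P * t ^ 2 + Q * t * a) :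
    a ≤ Real.sqrt ((2 * P) / c + (Q / c) ^ 2) * t := by
  have h1 : a ^ 2 ≤ ((2 * P) / c + (Q / c) ^ 2) * t ^ 2 := by
    have h2 : a ^ 2 ≤ P / c * t ^ 2 + Q / c * t * a := by
      rw [← mul_le_mul_iff_right₀ hc]
      calc c * a ^ 2 ≤ P * t ^ 2 + Q * t * a := h
        _ = c * (P / c * t ^ 2 + Q / c * t * a) := by field_simp
    have h3 : (2 * P) / c = 2 * (P / c) := by ring
    rw [h3]
    nlinarith [sq_nonneg (a - Q / c * t)]
  have h4 := Real.sqrt_le_sqrt h1
  rw [Real.sqrt_sq ha, Real.sqrt_mul (by positivity), Real.sqrt_sq ht.le] at h4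
  exact h4

/-- Step (ii): full Lipschitz estimate and existence of the generator. -/
theorem core2 [CompleteSpace V]
    (hJ : ∀ r v, J (GV.T r v) = GH.T r (J v)) (hB : ∀ r v, B (GV.T r v) = GK.T r (B v))
    {CJB : ℝ} (hJB : ∀ v, ‖v‖ ^ 2 ≤ CJB * (‖J v‖ ^ 2 + ‖B v‖ ^ 2))
    {N : K →L[ℝ] K} (hNs : ∀ x y, ⟪N x, y⟫ = ⟪x, N y⟫) {c : ℝ} (hc : 0 < c)
    (hNc : ∀ x, c * ‖x‖ ^ 2 ≤ ⟪N x, x⟫) {L : ℝ}
    (hNL : ∀ r z, ‖N (GK.T r z) - GK.T r (N z)‖ ≤ L * |r| * ‖z‖)
    {v : V} {R : K} {F : H} (h : WEq GH GK J B v (N (B v) - R) F) {CR : ℝ}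
    (hR : ∀ r, ‖GK.T r R - R‖ ≤ CR * |r|) {CF : ℝ} (hF : ∀ t, 0 < t → ‖GH.T t F - F‖ ≤ CF * t) :
    ∃ w, GV.Gen v w := by
  obtain ⟨C1, hC1⟩ := core1 (GV := GV) hJ hB hNs hNL h hR
  set z := B v with hz
  have hC10 : 0 ≤ C1 := by
    have := (norm_nonneg _).trans (hC1 1 one_pos)
    simpa using this
  have hCF0 : 0 ≤ CF := by
    have := (norm_nonneg _).trans (hF 1 one_pos)
    simpa using this
  have hCR0 : 0 ≤ CR := by
    have := (norm_nonneg _).trans (hR 1)
    simpa using this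
  have hLz : 0 ≤ L * ‖z‖ := by
    have := (norm_nonneg _).trans (hNL 1 z)
    simpa using this
  -- the difference equation tested with itself
  have key : ∀ t : ℝ, 0 < t →
      ⟪GK.T t z - z, GK.T t (N z - R) - (N z - R)⟫ = ⟪GH.T t (J v) - J v, GH.T t F - F⟫ := by
    intro t ht
    set D : V := GV.T t v - v with hD
    have hJD : J D = GH.T t (J v) - J v := by rw [hD, map_sub, hJ]
    have hBD : B D = GK.T t z - z := by rw [hD, map_sub, hB]
    set P : K := GK.T t (N z - R) - (N z - R) with hP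
    set Q : H := GH.T t F - F with hQ
    have hW : WEq GH GK J B D P Q := (h.translate hJ t).sub h
    -- for every e > 0 the integral vanishes
    have hI : ∀ e : ℝ, ∫ r in (0 : ℝ)..e,
        (⟪B (GV.T e D + D), GK.T r P⟫ - ⟪J (GV.T e D + D), GH.T r Q⟫) = 0 := by
      intro e
      rw [← hW.integral, GH.T_zero, map_add, hJ, inner_add_left, inner_add_left, GH.inner_T,
        real_inner_comm (J D) (GH.T e (J D))]
      ring
    -- pass to the limit
    set g : ℝ → ℝ → ℝ := fun e r => ⟪B (GV.T e D + D), GK.T r P⟫ - ⟪J (GV.T e D + D), GH.T r Q⟫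
      with hg
    have hgc : Continuous (Function.uncurry g) := by
      have a1 : Continuous fun p : ℝ × ℝ => B (GV.T p.1 D + D) :=
        B.continuous.comp (((GV.cont D).comp continuous_fst).add continuous_const)
      have a2 : Continuous fun p : ℝ × ℝ => J (GV.T p.1 D + D) :=
        J.continuous.comp (((GV.cont D).comp continuous_fst).add continuous_const)
      have a3 : Continuous fun p : ℝ × ℝ => GK.T p.2 P := (GK.cont P).comp continuous_snd
      have a4 : Continuous fun p : ℝ × ℝ => GH.T p.2 Q := (GH.cont Q).comp continuous_snd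
      exact (a1.inner a3).sub (a2.inner a4)
    have hg00 : g 0 0 = 0 := by
      by_contra hne
      have hpos : 0 < |g 0 0| := abs_pos.2 hne
      -- near (0,0), g has the sign of g 0 0
      have hnear : ∀ᶠ p in 𝓝 ((0 : ℝ), (0 : ℝ)), |g p.1 p.2 - g 0 0| < |g 0 0| := by
        have : Tendsto (fun p : ℝ × ℝ => |g p.1 p.2 - g 0 0|) (𝓝 (0, 0)) (𝓝 |g 0 0 - g 0 0|) :=
          ((hgc.tendsto (0, 0)).sub_const _).abs
        rw [sub_self, abs_zero] at this
        exact this.eventually_lt_const hpos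
      rw [Metric.eventually_nhds_iff] at hnear
      obtain ⟨δ, hδ, hball⟩ := hnear
      set e := δ / 2 with he
      have hepos : 0 < e := by positivity
      have hin : ∀ r ∈ Icc (0 : ℝ) e, |g e r - g 0 0| < |g 0 0| := by
        intro r hr
        apply @hball (e, r)
        rw [Prod.dist_eq]
        simp only [dist_zero_right, Real.norm_eq_abs]
        rw [abs_of_pos hepos, abs_of_nonneg hr.1]
        have := hr.2
        apply max_lt <;> linarith
      have hInt : ∫ r in (0 : ℝ)..e, g e r = 0 := hI e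
      have hce : Continuous (g e) := by
        have : Continuous fun r => Function.uncurry g (e, r) :=
          hgc.comp (continuous_const.prodMk continuous_id)
        exact this
      rcases lt_or_gt_of_ne hne with hlt | hgt
      · have : ∫ r in (0 : ℝ)..e, g e r < 0 := by
          have h1 : 0 < ∫ r in (0 : ℝ)..e, -g e r := by
            apply intervalIntegral.intervalIntegral_pos_of_pos_on
              (hce.neg.intervalIntegrable _ _) _ hepos
            intro r hr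
            have := hin r (Ioo_subset_Icc_self hr)
            rw [abs_of_neg hlt] at this
            have := (abs_lt.1 this).2
            change 0 < -(g e r)
            linarith
          rw [intervalIntegral.integral_neg] at h1
          linarith
        linarith
      · have : 0 < ∫ r in (0 : ℝ)..e, g e r := by
          apply intervalIntegral.intervalIntegral_pos_of_pos_on
            (hce.intervalIntegrable _ _) _ hepos
          intro r hr
          have := hin r (Ioo_subset_Icc_self hr)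
          rw [abs_of_pos hgt] at this
          have := (abs_lt.1 this).1
          linarith
        linarith
    have hg00' : g 0 0 = 2 * ⟪B D, P⟫ - 2 * ⟪J D, Q⟫ := by
      simp only [hg, GV.T_zero, GK.T_zero, GH.T_zero, map_add, inner_add_left]
      ring
    rw [hg00'] at hg00
    rw [← hBD, ← hJD]
    linarith
  -- estimate for B
  set A1 : ℝ := C1 * CF with hA1
  set A2 : ℝ := L * ‖z‖ + CR with hA2
  have hA10 : 0 ≤ A1 := mul_nonneg hC10 hCF0
  have hA20 : 0 ≤ A2 := add_nonneg hLz hCR0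
  set C2 : ℝ := Real.sqrt ((2 * A1) / c + (A2 / c) ^ 2) with hC2
  have hBt : ∀ t : ℝ, 0 < t → ‖GK.T t z - z‖ ≤ C2 * t := by
    intro t ht
    set Z : K := GK.T t z - z with hZ
    apply le_of_sq_le hc (norm_nonneg _) ht hA10 hA20
    have e1 : ⟪Z, N Z⟫ = ⟪GH.T t (J v) - J v, GH.T t F - F⟫
        + ⟪Z, N (GK.T t z) - GK.T t (N z)⟫ + ⟪Z, GK.T t R - R⟫ := by
      rw [← key t ht, ← inner_add_right, ← inner_add_right]
      congr 1
      rw [hZ, map_sub, map_sub]
      abel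
    have e2 : ⟪GH.T t (J v) - J v, GH.T t F - F⟫ ≤ A1 * t ^ 2 := by
      calc ⟪GH.T t (J v) - J v, GH.T t F - F⟫ ≤ ‖GH.T t (J v) - J v‖ * ‖GH.T t F - F‖ :=
            real_inner_le_norm _ _
        _ ≤ (C1 * t) * (CF * t) := by
            gcongr
            · exact hC1 t ht
            · exact hF t ht
        _ = A1 * t ^ 2 := by rw [hA1]; ring
    have e3 : ⟪Z, N (GK.T t z) - GK.T t (N z)⟫ ≤ L * ‖z‖ * t * ‖Z‖ := by
      calc ⟪Z, N (GK.T t z) - GK.T t (N z)⟫ ≤ ‖Z‖ * ‖N (GK.T t z) - GK.T t (N z)‖ :=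
            real_inner_le_norm _ _
        _ ≤ ‖Z‖ * (L * |t| * ‖z‖) := by gcongr; exact hNL t z
        _ = L * ‖z‖ * t * ‖Z‖ := by rw [abs_of_pos ht]; ring
    have e4 : ⟪Z, GK.T t R - R⟫ ≤ CR * t * ‖Z‖ := by
      calc ⟪Z, GK.T t R - R⟫ ≤ ‖Z‖ * ‖GK.T t R - R‖ := real_inner_le_norm _ _
        _ ≤ ‖Z‖ * (CR * |t|) := by gcongr; exact hR t
        _ = CR * t * ‖Z‖ := by rw [abs_of_pos ht]; ring
    calc c * ‖Z‖ ^ 2 ≤ ⟪N Z, Z⟫ := hNc Z
      _ = ⟪Z, N Z⟫ := real_inner_comm _ _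
      _ ≤ A1 * t ^ 2 + A2 * t * ‖Z‖ := by rw [e1, hA2]; linarith
  -- conclusion
  apply GV.exists_gen (C := Real.sqrt (|CJB| * (C1 ^ 2 + C2 ^ 2)))
  intro t ht
  have h1 := hJB (GV.T t v - v)
  rw [map_sub, map_sub, hJ, hB] at h1
  have h2 : ‖GV.T t v - v‖ ^ 2 ≤ (|CJB| * (C1 ^ 2 + C2 ^ 2)) * t ^ 2 := by
    have h3 : ‖GH.T t (J v) - J v‖ ^ 2 ≤ (C1 * t) ^ 2 :=
      pow_le_pow_left₀ (norm_nonneg _) (hC1 t ht) 2
    have h4 : ‖GK.T t (B v) - B v‖ ^ 2 ≤ (C2 * t) ^ 2 :=
      pow_le_pow_left₀ (norm_nonneg _) (hBt t ht) 2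
    calc ‖GV.T t v - v‖ ^ 2 ≤ CJB * (‖GH.T t (J v) - J v‖ ^ 2 + ‖GK.T t (B v) - B v‖ ^ 2) := h1
      _ ≤ |CJB| * (‖GH.T t (J v) - J v‖ ^ 2 + ‖GK.T t (B v) - B v‖ ^ 2) := by
          gcongr
          exact le_abs_self _
      _ ≤ |CJB| * ((C1 * t) ^ 2 + (C2 * t) ^ 2) := by gcongr
      _ = (|CJB| * (C1 ^ 2 + C2 ^ 2)) * t ^ 2 := by ring
  have h5 := Real.sqrt_le_sqrt h2
  rw [Real.sqrt_sq (norm_nonneg _), Real.sqrt_mul (by positivity), Real.sqrt_sq ht.le] at h5
  exact h5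

end

end Crest.Agent.R213.B
end
end

-- ▼ part R213/B/TAbs
section

/-!
Row 213, part B1 (helper418).  Smoothness of all orders along the group for localized families.
-/

set_option autoImplicit false

open Set MeasureTheory Filter Topology
open scoped RealInnerProductSpace

noncomputable section

namespace Crest.Agent.R213.B

variable {V H K : Type*} [NormedAddCommGroup V] [InnerProductSpace ℝ V]
    [NormedAddCommGroup H] [InnerProductSpace ℝ H]
    [NormedAddCommGroup K] [InnerProductSpace ℝ K]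

/-- A localized family of solutions: index `i` (cutoff), `d i` (derivative of the cutoff). -/
def Fam {ι : Type*} (d : ι → ι) (GH : OneGrp H) (GK : OneGrp K) (J : V →L[ℝ] H) (B : V →L[ℝ] K)
    (N : K →L[ℝ] K) (v : ι → V) (E : ι → H) (R : ι → K) : Prop :=
  ∀ i, WEq GH GK J B (v i) (N (B (v i)) - R i) (E i - J (v (d i)))

/-- A sequence of multipliers, each being the "derivative" of the previous one. -/
def MulSeq (GK : OneGrp K) (N : ℕ → K →L[ℝ] K) : Prop :=
  ∀ j z z', GK.Gen z z' → GK.Gen (N j z) (N (j + 1) z + N j z')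

theorem MulSeq.sm {GK : OneGrp K} {N : ℕ → K →L[ℝ] K} (hN : MulSeq GK N) {k : ℕ} :
    ∀ {j : ℕ} {z : K}, GK.Sm k z → GK.Sm k (N j z) := by
  induction k with
  | zero => intros; trivial
  | succ k ih =>
    rintro j z ⟨z', h, hz'⟩
    refine ⟨N (j + 1) z + N j z', hN j z z' h, ?_⟩
    exact (ih (OneGrp.Sm.of_succ ⟨z', h, hz'⟩)).add (ih hz')

variable {GV : OneGrp V} {GH : OneGrp H} {GK : OneGrp K} {J : V →L[ℝ] H} {B : V →L[ℝ] K}

/-- The derived equation. -/
theorem WEq.derived (hJ : ∀ r v, J (GV.T r v) = GH.T r (J v)) {v v1 : V} {P P1 : K} {F F1 : H}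
    (h : WEq GH GK J B v P F) (hv : GV.Gen v v1) (hP : GK.Gen P P1) (hF : GH.Gen F F1) :
    WEq GH GK J B v1 P1 F1 := by
  intro y r
  have hJv : GH.Gen (J v) (J v1) := hv.map hJ
  have e : (fun r => ⟪J y, GH.T r (J v1)⟫) = fun r => ⟪B y, GK.T r P⟫ - ⟪J y, GH.T r F⟫ := by
    funext s
    have h1 : HasDerivAt (fun r => ⟪J y, GH.T r (J v)⟫) ⟪J y, GH.T s (J v1)⟫ s := by
      have := (hasDerivAt_const s (J y)).inner ℝ (hJv s)
      simpa using this
    exact h1.unique (h y s)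
  rw [e]
  have h2 : HasDerivAt (fun r => ⟪B y, GK.T r P⟫) ⟪B y, GK.T r P1⟫ r := by
    have := (hasDerivAt_const r (B y)).inner ℝ (hP r)
    simpa using this
  have h3 : HasDerivAt (fun r => ⟪J y, GH.T r F⟫) ⟪J y, GH.T r F1⟫ r := by
    have := (hasDerivAt_const r (J y)).inner ℝ (hF r)
    simpa using this
  exact h2.sub h3

/-- **Abstract smoothness.** -/
theorem fam_smooth [CompleteSpace V] {ι : Type*} {d : ι → ι}
    (hJ : ∀ r v, J (GV.T r v) = GH.T r (J v)) (hB : ∀ r v, B (GV.T r v) = GK.T r (B v))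
    {CJB : ℝ} (hJB : ∀ v, ‖v‖ ^ 2 ≤ CJB * (‖J v‖ ^ 2 + ‖B v‖ ^ 2))
    {N : ℕ → K →L[ℝ] K} (hN : MulSeq GK N)
    (hNs : ∀ x y, ⟪N 0 x, y⟫ = ⟪x, N 0 y⟫) {c : ℝ} (hc : 0 < c)
    (hNc : ∀ x, c * ‖x‖ ^ 2 ≤ ⟪N 0 x, x⟫) {L : ℝ}
    (hNL : ∀ r z, ‖N 0 (GK.T r z) - GK.T r (N 0 z)‖ ≤ L * |r| * ‖z‖) (k : ℕ) :
    ∀ (v : ι → V) (E : ι → H) (R : ι → K), Fam d GH GK J B (N 0) v E R →
      (∀ i, GH.Sm k (E i)) → (∀ i, GK.Sm k (R i)) → ∀ i, GV.Sm k (v i) := by
  induction k with
  | zero => intros; trivial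
  | succ k ih =>
    intro v E R hF hE hR
    -- first derivatives
    choose E1 hE1 hE1k using hE
    choose R1 hR1 hR1k using hR
    have hgen : ∀ i, ∃ w, GV.Gen (v i) w := by
      intro i
      -- Lipschitz bound for `J (v (d i))`
      obtain ⟨C1, hC1⟩ := core1 (GV := GV) hJ hB hNs hNL (hF (d i))
        (CR := ‖R1 (d i)‖) (fun r => (hR1 (d i)).lip r)
      refine core2 hJ hB hJB hNs hc hNc hNL (hF i) (CR := ‖R1 i‖) (fun r => (hR1 i).lip r)
        (CF := ‖E1 i‖ + C1) ?_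
      intro t ht
      have h1 := (hE1 i).lip t
      have h2 := hC1 t ht
      rw [abs_of_pos ht] at h1
      calc ‖GH.T t (E i - J (v (d i))) - (E i - J (v (d i)))‖
          = ‖(GH.T t (E i) - E i) - (GH.T t (J (v (d i))) - J (v (d i)))‖ := by
            rw [(GH.T t).map_sub]
            congr 1
            abel
        _ ≤ ‖GH.T t (E i) - E i‖ + ‖GH.T t (J (v (d i))) - J (v (d i))‖ := norm_sub_le _ _
        _ ≤ ‖E1 i‖ * t + C1 * t := add_le_add h1 h2
        _ = (‖E1 i‖ + C1) * t := by ring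
    choose A hA using hgen
    -- smoothness of order `k` of `v`
    have hvk : ∀ i, GV.Sm k (v i) := ih v E R hF
      (fun i => OneGrp.Sm.of_succ ⟨E1 i, hE1 i, hE1k i⟩)
      (fun i => OneGrp.Sm.of_succ ⟨R1 i, hR1 i, hR1k i⟩)
    -- the derived family
    have hder : Fam d GH GK J B (N 0) (fun i => A i - v (d i)) (fun i => E1 i - E (d i))
        (fun i => R1 i - R (d i) - N 1 (B (v i))) := by
      intro i
      have h1 : WEq GH GK J B (A i) (N 1 (B (v i)) + N 0 (B (A i)) - R1 i)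
          (E1 i - J (A (d i))) := by
        refine (hF i).derived hJ (hA i) ?_ ?_
        · exact (hN 0 _ _ ((hA i).map hB)).sub (hR1 i)
        · exact (hE1 i).sub ((hA (d i)).map hJ)
      have h2 := h1.sub (hF (d i))
      have e1 : N 1 (B (v i)) + N 0 (B (A i)) - R1 i - (N 0 (B (v (d i))) - R (d i)) =
          N 0 (B (A i - v (d i))) - (R1 i - R (d i) - N 1 (B (v i))) := by
        rw [map_sub, map_sub]; abel
      have e2 : E1 i - J (A (d i)) - (E (d i) - J (v (d (d i)))) =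
          (E1 i - E (d i)) - J (A (d i) - v (d (d i))) := by
        rw [map_sub]; abel
      rw [e1, e2] at h2
      exact h2
    have hEk : ∀ i, GH.Sm k (E i) := fun i => OneGrp.Sm.of_succ ⟨E1 i, hE1 i, hE1k i⟩
    have hRk : ∀ i, GK.Sm k (R i) := fun i => OneGrp.Sm.of_succ ⟨R1 i, hR1 i, hR1k i⟩
    have h3 := ih _ _ _ hder (fun i => (hE1k i).sub (hEk (d i)))
      (fun i => ((hR1k i).sub (hRk (d i))).sub (hN.sm ((hvk i).map hB)))
    intro i
    refine ⟨A i, hA i, ?_⟩
    have h4 := (h3 i).add (hvk (d i))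
    simpa using h4

end Crest.Agent.R213.B
end
end

-- ▼ part R213/B/TLp
section

/-!
Row 213, part B1 (helper418).  The translation group on `L²(ℝ; X)`, orbits of smooth compactly
supported functions, multiplication operators.
-/

set_option autoImplicit false

open Set MeasureTheory Filter Topology
open scoped RealInnerProductSpace ContDiff ENNReal

noncomputable section

namespace Crest.Agent.R213.B

/-- `L²(ℝ; X)`. -/
abbrev L2 (X : Type*) [NormedAddCommGroup X] := Lp X 2 (volume : Measure ℝ)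

section group

variable (X : Type*) [NormedAddCommGroup X] [InnerProductSpace ℝ X]

/-- translation by `r`: `(tr r f) τ = f (τ + r)`. -/
def tr (r : ℝ) : L2 X →ₗᵢ[ℝ] L2 X :=
  Lp.compMeasurePreservingₗᵢ ℝ (fun τ : ℝ => τ + r) (measurePreserving_add_right volume r)

variable {X}

theorem coe_tr (r : ℝ) (f : L2 X) : tr X r f =ᵐ[volume] fun τ => f (τ + r) :=
  Lp.coeFn_compMeasurePreserving f (measurePreserving_add_right volume r)


theorem ae_comp_add {p : ℝ → Prop} (r : ℝ) (h : ∀ᵐ τ, p τ) : ∀ᵐ τ : ℝ, p (τ + r) :=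
  (measurePreserving_add_right volume r).quasiMeasurePreserving.ae h

variable (X)

/-- The translation group. -/
def trG : OneGrp (L2 X) where
  T := tr X
  T_zero x := by
    apply Lp.ext
    filter_upwards [coe_tr 0 x] with τ h
    rw [h, add_zero]
  T_add r s x := by
    apply Lp.ext
    filter_upwards [coe_tr (r + s) x, coe_tr r (tr X s x), ae_comp_add r (coe_tr s x)] with τ h1 h2 h3
    rw [h1, h2, h3, add_assoc]
  cont x := by
    let g : ℝ → C(ℝ, ℝ) := fun r => ⟨fun τ => τ + r, by fun_prop⟩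
    have hg : Continuous g := by
      have : g = (ContinuousMap.mk (fun p : ℝ × ℝ => p.2 + p.1) (by fun_prop)).curry := by
        funext r
        ext τ
        rfl
      rw [this]
      exact ContinuousMap.continuous _
    exact (continuous_const (y := x)).compMeasurePreservingLp hg
      (fun r => measurePreserving_add_right volume r) (by simp)

variable {X}

theorem trG_T (r : ℝ) : (trG X).T r = tr X r := rfl

end group

section maps

variable {X Y : Type*} [NormedAddCommGroup X] [InnerProductSpace ℝ X]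
  [NormedAddCommGroup Y] [InnerProductSpace ℝ Y]

/-- The map induced on `L²` by a continuous linear map. -/
def lift2 (L : X →L[ℝ] Y) : L2 X →L[ℝ] L2 Y := L.compLpL 2 volume

theorem coe_lift2 (L : X →L[ℝ] Y) (f : L2 X) : lift2 L f =ᵐ[volume] fun τ => L (f τ) :=
  L.coeFn_compLpL f

theorem lift2_tr (L : X →L[ℝ] Y) (r : ℝ) (f : L2 X) : lift2 L (tr X r f) = tr Y r (lift2 L f) := by
  apply Lp.ext
  filter_upwards [coe_lift2 L (tr X r f), coe_tr r f, coe_tr r (lift2 L f),
    ae_comp_add r (coe_lift2 L f)] with τ h1 h2 h3 h4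
  rw [h1, h2, h3, h4]

end maps

section smooth

variable {Y : Type*} [NormedAddCommGroup Y] [NormedSpace ℝ Y]

/-- Taylor estimate for compactly supported smooth functions. -/
theorem taylor2_cc {g : ℝ → Y} (hg : ContDiff ℝ ∞ g) (hc : HasCompactSupport g) :
    ∃ M, 0 ≤ M ∧ ∀ τ h, ‖g (τ + h) - g τ - h • deriv g τ‖ ≤ M * h ^ 2 := by
  have hg1 : ContDiff ℝ ∞ (deriv g) := (contDiff_infty_iff_deriv.1 hg).2
  have hg2 : ContDiff ℝ ∞ (deriv (deriv g)) := (contDiff_infty_iff_deriv.1 hg1).2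
  obtain ⟨M, hM⟩ := (hc.deriv.deriv).exists_bound_of_continuous hg2.continuous
  refine ⟨M, (norm_nonneg _).trans (hM 0), fun τ h => ?_⟩
  have hd : ∀ s, HasDerivAt (fun s => g (τ + s) - s • deriv g τ) (deriv g (τ + s) - deriv g τ) s := by
    intro s
    have h1 : HasDerivAt g (deriv g (τ + s)) (τ + s) :=
      (hg.differentiable (by simp) _).hasDerivAt
    have h2 := HasDerivAt.comp_const_add (f := g) τ s h1
    have h3 : HasDerivAt (fun s : ℝ => s • deriv g τ) ((1 : ℝ) • deriv g τ) s :=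
      (hasDerivAt_id s).smul_const _
    rw [one_smul] at h3
    exact h2.sub h3
  have hd1 : ∀ s, ‖deriv g (τ + s) - deriv g τ‖ ≤ M * |s| := by
    intro s
    have := Convex.norm_image_sub_le_of_norm_hasDerivWithin_le (𝕜 := ℝ) (f := deriv g)
      (f' := deriv (deriv g)) (s := univ) (x := τ) (y := τ + s) (C := M)
      (fun r _ => (hg1.differentiable (by simp) _).hasDerivAt.hasDerivWithinAt)
      (fun r _ => hM r) convex_univ (mem_univ _) (mem_univ _)
    simpa using this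
  have := Convex.norm_image_sub_le_of_norm_hasDerivWithin_le (𝕜 := ℝ)
      (f := fun s => g (τ + s) - s • deriv g τ)
      (f' := fun s => deriv g (τ + s) - deriv g τ) (s := Icc (-|h|) |h|) (x := 0) (y := h)
      (C := M * |h|)
      (fun r _ => (hd r).hasDerivWithinAt)
      (fun r hr => (hd1 r).trans (by
        have : |r| ≤ |h| := abs_le.2 hr
        have hM0 : 0 ≤ M := (norm_nonneg _).trans (hM 0)
        gcongr)) (convex_Icc _ _) (by simp) (by
          exact ⟨neg_abs_le h, le_abs_self h⟩)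
  simp only [add_zero, zero_smul, sub_zero, Real.norm_eq_abs] at this
  calc ‖g (τ + h) - g τ - h • deriv g τ‖ = ‖g (τ + h) - h • deriv g τ - g τ‖ := by
        congr 1; abel
    _ ≤ M * |h| * |h| := this
    _ = M * h ^ 2 := by rw [← sq_abs]; ring

/-- Uniform Lipschitz estimate for compactly supported smooth functions. -/
theorem lip1 {g : ℝ → Y} (hg : ContDiff ℝ ∞ g) (hc : HasCompactSupport g) :
    ∃ M, 0 ≤ M ∧ ∀ τ h, ‖g (τ + h) - g τ‖ ≤ M * |h| := by
  have hg1 : ContDiff ℝ ∞ (deriv g) := (contDiff_infty_iff_deriv.1 hg).2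
  obtain ⟨M, hM⟩ := (hc.deriv).exists_bound_of_continuous hg1.continuous
  refine ⟨M, (norm_nonneg _).trans (hM 0), fun τ h => ?_⟩
  have := Convex.norm_image_sub_le_of_norm_hasDerivWithin_le (𝕜 := ℝ) (f := g)
      (f' := deriv g) (s := univ) (x := τ) (y := τ + h) (C := M)
      (fun r _ => (hg.differentiable (by simp) _).hasDerivAt.hasDerivWithinAt)
      (fun r _ => hM r) convex_univ (mem_univ _) (mem_univ _)
  simpa using this

theorem deriv_smooth {g : ℝ → Y} (hg : ContDiff ℝ ∞ g) : ContDiff ℝ ∞ (deriv g) :=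
  (contDiff_infty_iff_deriv.1 hg).2

end smooth

section orbit

variable {X : Type*} [NormedAddCommGroup X] [InnerProductSpace ℝ X]

/-- The class in `L²` of a compactly supported smooth function. -/
theorem memLp_cc {g : ℝ → X} (hg : ContDiff ℝ ∞ g) (hc : HasCompactSupport g) :
    MemLp g 2 volume := hg.continuous.memLp_of_hasCompactSupport hc

open Classical in
/-- `toLp`, totalized. -/
def cl (g : ℝ → X) : L2 X := if h : MemLp g 2 volume then h.toLp g else 0

theorem coe_cl {g : ℝ → X} (h : MemLp g 2 volume) : cl g =ᵐ[volume] g := by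
  rw [cl, dif_pos h]
  exact h.coeFn_toLp


theorem memLp_shift {g : ℝ → X} (h : MemLp g 2 volume) (r : ℝ) :
    MemLp (fun τ => g (τ + r)) 2 volume :=
  h.comp_measurePreserving (measurePreserving_add_right volume r)

theorem tr_cl {g : ℝ → X} (h : MemLp g 2 volume) (r : ℝ) :
    tr X r (cl g) = cl fun τ => g (τ + r) := by
  apply Lp.ext
  filter_upwards [coe_tr r (cl g), ae_comp_add r (coe_cl h), coe_cl (memLp_shift h r)] with τ h1 h2 h3
  rw [h1, h2, h3]

theorem cl_sub {g g' : ℝ → X} (h : MemLp g 2 volume) (h' : MemLp g' 2 volume) :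
    cl (fun τ => g τ - g' τ) = cl g - cl g' := by
  apply Lp.ext
  filter_upwards [coe_cl (h.sub h'), coe_cl h, coe_cl h', Lp.coeFn_sub (cl g) (cl g')]
    with τ h1 h2 h3 h4
  rw [h4]
  change (cl (g - g')) τ = _
  rw [h1, Pi.sub_apply, Pi.sub_apply, h2, h3]

theorem cl_smul {g : ℝ → X} (h : MemLp g 2 volume) (a : ℝ) :
    cl (fun τ => a • g τ) = a • cl g := by
  apply Lp.ext
  filter_upwards [coe_cl (h.const_smul a), coe_cl h, Lp.coeFn_smul a (cl g)] with τ h1 h2 h4
  rw [h4]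
  change (cl (a • g)) τ = _
  rw [h1, Pi.smul_apply, Pi.smul_apply, h2]

/-- Norm bound for bounded functions supported in a compact interval. -/
theorem norm_cl_le {g : ℝ → X} (h : MemLp g 2 volume) {a b C : ℝ} (hC : 0 ≤ C)
    (hs : ∀ τ, τ ∉ Icc a b → g τ = 0) (hb : ∀ τ, ‖g τ‖ ≤ C) :
    ‖cl g‖ ≤ (volume (Icc a b) ^ ((2 : ℝ≥0∞).toReal⁻¹)).toReal * C := by
  rw [cl, dif_pos h, Lp.norm_toLp]
  have h1 : eLpNorm g 2 volume = eLpNorm g 2 (volume.restrict (Icc a b)) := by
    rw [eLpNorm_restrict_eq_of_support_subset]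
    intro τ hτ
    by_contra hn
    exact hτ (hs τ hn)
  have h2 : eLpNorm g 2 (volume.restrict (Icc a b)) ≤
      (volume.restrict (Icc a b)) univ ^ ((2 : ℝ≥0∞).toReal⁻¹) * ENNReal.ofReal C :=
    eLpNorm_le_of_ae_bound (Eventually.of_forall hb)
  rw [Measure.restrict_apply_univ] at h2
  rw [h1]
  have hfin : volume (Icc a b) ^ ((2 : ℝ≥0∞).toReal⁻¹) ≠ ⊤ := by
    apply ENNReal.rpow_ne_top_of_nonneg (by positivity)
    rw [Real.volume_Icc]
    exact ENNReal.ofReal_ne_top
  have h3 := ENNReal.toReal_mono (ENNReal.mul_ne_top hfin ENNReal.ofReal_ne_top) h2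
  rwa [ENNReal.toReal_mul, ENNReal.toReal_ofReal hC] at h3

/-- Orbits of smooth compactly supported functions. -/
theorem gen_cl {g : ℝ → X} (hg : ContDiff ℝ ∞ g) (hc : HasCompactSupport g) :
    (trG X).Gen (cl g) (cl (deriv g)) := by
  apply OneGrp.gen_of_zero
  have hg' := deriv_smooth hg
  have hc' : HasCompactSupport (deriv g) := hc.deriv
  obtain ⟨M, hM0, hM⟩ := taylor2_cc hg hc
  -- a compact interval containing the support
  obtain ⟨A, hA⟩ := (hc.isCompact.isBounded).subset_closedBall (0 : ℝ)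
  have hz : ∀ τ, A < |τ| → g τ = 0 := by
    intro τ hτ
    apply image_eq_zero_of_notMem_tsupport
    intro h
    have := hA h
    rw [Metric.mem_closedBall, dist_zero_right, Real.norm_eq_abs] at this
    linarith
  have hz' : ∀ τ, A < |τ| → deriv g τ = 0 := by
    intro τ hτ
    apply image_eq_zero_of_notMem_tsupport
    intro h
    have := hA (tsupport_deriv_subset (𝕜 := ℝ) h)
    rw [Metric.mem_closedBall, dist_zero_right, Real.norm_eq_abs] at this
    linarith
  set Q : ℝ := (volume (Icc (-(A + 1)) (A + 1)) ^ ((2 : ℝ≥0∞).toReal⁻¹)).toReal with hQ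
  rw [hasDerivAt_iff_isLittleO_nhds_zero]
  simp only [zero_add, OneGrp.T_zero]
  have key : ∀ h : ℝ, |h| ≤ 1 → ‖(trG X).T h (cl g) - cl g - h • cl (deriv g)‖ ≤ Q * M * h ^ 2 := by
    intro h hh
    have s1 : MemLp (fun τ => g (τ + h) - g τ) 2 volume :=
      (memLp_shift (memLp_cc hg hc) h).sub (memLp_cc hg hc)
    have s2 : MemLp (fun τ => h • deriv g τ) 2 volume := (memLp_cc hg' hc').const_smul h
    have e : (trG X).T h (cl g) - cl g - h • cl (deriv g) =
        cl (fun τ => (g (τ + h) - g τ) - h • deriv g τ) := by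
      rw [cl_sub s1 s2, cl_sub (memLp_shift (memLp_cc hg hc) h) (memLp_cc hg hc),
        cl_smul (memLp_cc hg' hc'), trG_T, tr_cl (memLp_cc hg hc)]
    rw [e]
    have := norm_cl_le (g := fun τ => (g (τ + h) - g τ) - h • deriv g τ)
      (s1.sub s2) (a := -(A + 1)) (b := A + 1) (C := M * h ^ 2)
      (by positivity) (by
        intro τ hτ
        have h1 : A + 1 < |τ| := by
          by_contra hn
          exact hτ (abs_le.1 (not_lt.1 hn))
        have h2 : A < |τ + h| := by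
          have := abs_sub_abs_le_abs_sub τ (-h)
          rw [abs_neg, sub_neg_eq_add] at this
          linarith
        rw [hz _ h2, hz τ (by linarith), hz' τ (by linarith)]
        simp) (fun τ => hM τ h)
    rw [← hQ] at this
    linarith [this]
  rw [Asymptotics.isLittleO_iff]
  intro ε hε
  have h1 : ∀ᶠ h in 𝓝 (0 : ℝ), |h| ≤ 1 ∧ Q * M * |h| ≤ ε := by
    apply Filter.Eventually.and
    · have : Tendsto (fun h : ℝ => |h|) (𝓝 0) (𝓝 |0|) := continuous_abs.tendsto 0
      rw [abs_zero] at this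
      exact (this.eventually_lt_const one_pos).mono fun _ h => h.le
    · have : Tendsto (fun h : ℝ => Q * M * |h|) (𝓝 0) (𝓝 (Q * M * |0|)) :=
        (continuous_const.mul continuous_abs).tendsto 0
      rw [abs_zero, mul_zero] at this
      exact (this.eventually_lt_const hε).mono fun _ h => h.le
  filter_upwards [h1] with h ⟨h2, h3⟩
  refine (key h h2).trans ?_
  calc Q * M * h ^ 2 = (Q * M * |h|) * |h| := by rw [← sq_abs]; ring
    _ ≤ ε * |h| := by gcongr
    _ = ε * ‖h‖ := by rw [Real.norm_eq_abs]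

theorem sm_cl (k : ℕ) : ∀ {g : ℝ → X}, ContDiff ℝ ∞ g → HasCompactSupport g →
    (trG X).Sm k (cl g) := by
  induction k with
  | zero => intros; trivial
  | succ k ih =>
    intro g hg hc
    exact ⟨cl (deriv g), gen_cl hg hc, ih (deriv_smooth hg) hc.deriv⟩

end orbit

section mult

variable {K : Type*} [NormedAddCommGroup K] [InnerProductSpace ℝ K]

/-- Multiplication by an essentially bounded operator-valued function. -/
def mulI (γ : Lp (K →L[ℝ] K) ⊤ (volume : Measure ℝ)) : L2 K →L[ℝ] L2 K :=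
  (ContinuousLinearMap.id ℝ (K →L[ℝ] K)).holderL volume ⊤ 2 2 γ

theorem coe_mulI (γ : Lp (K →L[ℝ] K) ⊤ (volume : Measure ℝ)) (z : L2 K) :
    mulI γ z =ᵐ[volume] fun τ => γ τ (z τ) :=
  (ContinuousLinearMap.id ℝ (K →L[ℝ] K)).coeFn_holder γ z

theorem norm_mulI_le (γ : Lp (K →L[ℝ] K) ⊤ (volume : Measure ℝ)) : ‖mulI γ‖ ≤ ‖γ‖ := by
  refine ContinuousLinearMap.opNorm_le_bound _ (norm_nonneg _) fun z => ?_
  have h1 := ContinuousLinearMap.norm_holder_apply_apply_le (r := 2)
    (ContinuousLinearMap.id ℝ (K →L[ℝ] K)) γ z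
  calc ‖mulI γ z‖ ≤ ‖ContinuousLinearMap.id ℝ (K →L[ℝ] K)‖ * ‖γ‖ * ‖z‖ := h1
    _ ≤ 1 * ‖γ‖ * ‖z‖ := by
        gcongr
        exact ContinuousLinearMap.norm_id_le
    _ = ‖γ‖ * ‖z‖ := by rw [one_mul]

open Classical in
/-- `toLp` in `L^∞`, totalized. -/
def clI (g : ℝ → K →L[ℝ] K) : Lp (K →L[ℝ] K) ⊤ (volume : Measure ℝ) :=
  if h : MemLp g ⊤ volume then h.toLp g else 0

theorem coe_clI {g : ℝ → K →L[ℝ] K} (h : MemLp g ⊤ volume) : clI g =ᵐ[volume] g := by
  rw [clI, dif_pos h]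
  exact h.coeFn_toLp

/-- Multiplication by a function. -/
def mulg (g : ℝ → K →L[ℝ] K) : L2 K →L[ℝ] L2 K := mulI (clI g)

theorem coe_mulg {g : ℝ → K →L[ℝ] K} (h : MemLp g ⊤ volume) (z : L2 K) :
    mulg g z =ᵐ[volume] fun τ => g τ (z τ) := by
  filter_upwards [coe_mulI (clI g) z, coe_clI h] with τ h1 h2
  rw [mulg, h1, h2]

theorem memI {g : ℝ → K →L[ℝ] K} (hg : ContDiff ℝ ∞ g) (hc : HasCompactSupport g) :
    MemLp g ⊤ volume := hg.continuous.memLp_of_hasCompactSupport hc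

theorem memI_shift {g : ℝ → K →L[ℝ] K} (h : MemLp g ⊤ volume) (r : ℝ) :
    MemLp (fun τ => g (τ + r)) ⊤ volume :=
  h.comp_measurePreserving (measurePreserving_add_right volume r)

theorem mulg_sub {g g' : ℝ → K →L[ℝ] K} (h : MemLp g ⊤ volume) (h' : MemLp g' ⊤ volume) :
    mulg (fun τ => g τ - g' τ) = mulg g - mulg g' := by
  ext1 z
  apply Lp.ext
  have h3 : MemLp (fun τ => g τ - g' τ) ⊤ volume := h.sub h'
  rw [_root_.sub_apply]
  filter_upwards [coe_mulg h3 z, coe_mulg h z, coe_mulg h' z,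
    Lp.coeFn_sub (mulg g z) (mulg g' z)] with τ h1 h2 h3 h4
  rw [h4, h1, Pi.sub_apply, h2, h3, _root_.sub_apply]

theorem mulg_smul {g : ℝ → K →L[ℝ] K} (h : MemLp g ⊤ volume) (a : ℝ) :
    mulg (fun τ => a • g τ) = a • mulg g := by
  ext1 z
  apply Lp.ext
  have h3 : MemLp (fun τ => a • g τ) ⊤ volume := h.const_smul a
  rw [_root_.smul_apply]
  filter_upwards [coe_mulg h3 z, coe_mulg h z, Lp.coeFn_smul a (mulg g z)] with τ h1 h2 h4
  rw [h4, h1, Pi.smul_apply, h2, _root_.smul_apply]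

theorem norm_mulg_le {g : ℝ → K →L[ℝ] K} (h : MemLp g ⊤ volume) {C : ℝ} (hC : 0 ≤ C)
    (hb : ∀ τ, ‖g τ‖ ≤ C) : ‖mulg g‖ ≤ C := by
  refine (norm_mulI_le _).trans ?_
  rw [clI, dif_pos h, Lp.norm_toLp]
  have h1 : eLpNorm g ⊤ volume ≤ ENNReal.ofReal C := by
    rw [eLpNorm_exponent_top]
    exact eLpNormEssSup_le_of_ae_bound (Eventually.of_forall hb)
  have h2 := ENNReal.toReal_mono ENNReal.ofReal_ne_top h1
  rwa [ENNReal.toReal_ofReal hC] at h2

theorem tr_mulg {g : ℝ → K →L[ℝ] K} (h : MemLp g ⊤ volume) (r : ℝ) (z : L2 K) :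
    tr K r (mulg g z) = mulg (fun τ => g (τ + r)) (tr K r z) := by
  apply Lp.ext
  filter_upwards [coe_tr r (mulg g z), ae_comp_add r (coe_mulg h z),
    coe_mulg (memI_shift h r) (tr K r z), coe_tr r z] with τ h1 h2 h3 h4
  rw [h1, h2, h3, h4]

/-- Operator-norm differentiability of the translated multiplier. -/
theorem hasDerivAt_mulg {g : ℝ → K →L[ℝ] K} (hg : ContDiff ℝ ∞ g) (hc : HasCompactSupport g) :
    HasDerivAt (fun r => mulg fun τ => g (τ + r)) (mulg (deriv g)) 0 := by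
  have hg' := deriv_smooth hg
  have hc' : HasCompactSupport (deriv g) := hc.deriv
  obtain ⟨M, hM0, hM⟩ := taylor2_cc hg hc
  refine (hasDerivAt_iff_isLittleO_nhds_zero (𝕜 := ℝ) (F := L2 K →L[ℝ] L2 K)
    (f := fun r => mulg fun τ => g (τ + r)) (f' := mulg (deriv g)) (x := 0)).2 ?_
  simp only [zero_add, add_zero]
  have key : ∀ h : ℝ, ‖(mulg fun τ => g (τ + h)) - mulg g - h • mulg (deriv g)‖ ≤ M * h ^ 2 := by
    intro h
    have s0 := memI_shift (memI hg hc) h
    have s1 : MemLp (fun τ => g (τ + h) - g τ) ⊤ volume := s0.sub (memI hg hc)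
    have s2 : MemLp (fun τ => h • deriv g τ) ⊤ volume := (memI hg' hc').const_smul h
    rw [← mulg_sub s0 (memI hg hc), ← mulg_smul (memI hg' hc'), ← mulg_sub s1 s2]
    exact norm_mulg_le (s1.sub s2) (by positivity) (fun τ => hM τ h)
  rw [Asymptotics.isLittleO_iff]
  intro ε hε
  have h1 : ∀ᶠ h in 𝓝 (0 : ℝ), M * |h| ≤ ε := by
    have : Tendsto (fun h : ℝ => M * |h|) (𝓝 0) (𝓝 (M * |0|)) :=
      (continuous_const.mul continuous_abs).tendsto 0
    rw [abs_zero, mul_zero] at this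
    exact (this.eventually_lt_const hε).mono fun _ h => h.le
  filter_upwards [h1] with h h3
  refine (key h).trans ?_
  calc M * h ^ 2 = (M * |h|) * |h| := by rw [← sq_abs]; ring
    _ ≤ ε * |h| := by gcongr
    _ = ε * ‖h‖ := by rw [Real.norm_eq_abs]

theorem gen_mulg {g : ℝ → K →L[ℝ] K} (hg : ContDiff ℝ ∞ g) (hc : HasCompactSupport g)
    {z z' : L2 K} (hz : (trG K).Gen z z') :
    (trG K).Gen (mulg g z) (mulg (deriv g) z + mulg g z') := by
  apply OneGrp.gen_of_zero
  have h1 : (fun r => (trG K).T r (mulg g z)) =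
      fun r => (mulg fun τ => g (τ + r)) ((trG K).T r z) := by
    funext r
    exact tr_mulg (memI hg hc) r z
  rw [h1]
  have h2 := (hasDerivAt_mulg hg hc).clm_apply hz.zero
  simpa [OneGrp.T_zero] using h2

theorem lip_mulg {g : ℝ → K →L[ℝ] K} (hg : ContDiff ℝ ∞ g) (hc : HasCompactSupport g) :
    ∃ M, ∀ r z, ‖mulg g (tr K r z) - tr K r (mulg g z)‖ ≤ M * |r| * ‖z‖ := by
  obtain ⟨M, hM0, hM⟩ := lip1 hg hc
  refine ⟨M, fun r z => ?_⟩
  have s0 := memI_shift (memI hg hc) r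
  rw [tr_mulg (memI hg hc), norm_sub_rev, ← _root_.sub_apply,
    ← mulg_sub s0 (memI hg hc)]
  refine (ContinuousLinearMap.le_opNorm _ _).trans ?_
  rw [(tr K r).norm_map]
  gcongr
  exact norm_mulg_le (s0.sub (memI hg hc)) (by positivity) (fun τ => hM τ r)

/-- The multiplier sequence of `c + g`. -/
def Nseq (c : ℝ) (g : ℝ → K →L[ℝ] K) : ℕ → (L2 K →L[ℝ] L2 K)
  | 0 => c • ContinuousLinearMap.id ℝ (L2 K) + mulg g
  | (j + 1) => mulg (deriv^[j + 1] g)

theorem iter_smooth {g : ℝ → K →L[ℝ] K} (hg : ContDiff ℝ ∞ g) (hc : HasCompactSupport g) (j : ℕ) :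
    ContDiff ℝ ∞ (deriv^[j] g) ∧ HasCompactSupport (deriv^[j] g) := by
  induction j with
  | zero => exact ⟨hg, hc⟩
  | succ j ih =>
    rw [Function.iterate_succ_apply']
    exact ⟨deriv_smooth ih.1, ih.2.deriv⟩

theorem mulSeq_Nseq (c : ℝ) {g : ℝ → K →L[ℝ] K} (hg : ContDiff ℝ ∞ g) (hc : HasCompactSupport g) :
    MulSeq (trG K) (Nseq c g) := by
  intro j z z' hz
  rcases j with _ | j
  · have h1 := gen_mulg hg hc hz
    have h2 : (trG K).Gen (c • z) (c • z') := by
      intro r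
      have := (hz r).const_smul c
      simp only [map_smul]
      exact this
    have h3 := h2.add h1
    have e1 : Nseq c g 0 z = c • z + mulg g z := rfl
    have e2 : Nseq c g 1 z + Nseq c g 0 z' = c • z' + (mulg (deriv g) z + mulg g z') := by
      change mulg (deriv g) z + (c • z' + mulg g z') = _
      abel
    rw [e1, e2]
    exact h3
  · have h0 := iter_smooth hg hc (j + 1)
    have h1 := gen_mulg h0.1 h0.2 hz
    have e : Nseq c g (j + 1 + 1) = mulg (deriv (deriv^[j + 1] g)) := by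
      change mulg (deriv^[j + 1 + 1] g) = _
      rw [Function.iterate_succ_apply' deriv (j + 1)]
    rw [e]
    exact h1

theorem coe_N0 (c : ℝ) {g : ℝ → K →L[ℝ] K} (h : MemLp g ⊤ volume) (z : L2 K) :
    Nseq c g 0 z =ᵐ[volume] fun τ => c • z τ + g τ (z τ) := by
  change ((c • z + mulg g z : L2 K) : ℝ → K) =ᵐ[volume] _
  filter_upwards [Lp.coeFn_add (c • z) (mulg g z), Lp.coeFn_smul c z, coe_mulg h z]
    with τ h1 h2 h3
  rw [h1, Pi.add_apply, h2, h3, Pi.smul_apply]

theorem N0_lip (c : ℝ) {g : ℝ → K →L[ℝ] K} (hg : ContDiff ℝ ∞ g) (hc : HasCompactSupport g) :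
    ∃ M, ∀ r z, ‖Nseq c g 0 ((trG K).T r z) - (trG K).T r (Nseq c g 0 z)‖ ≤ M * |r| * ‖z‖ := by
  obtain ⟨M, hM⟩ := lip_mulg hg hc
  refine ⟨M, fun r z => ?_⟩
  refine le_trans (le_of_eq ?_) (hM r z)
  congr 1
  change (c • tr K r z + mulg g (tr K r z)) - tr K r (c • z + mulg g z) = _
  rw [map_add, map_smul]
  abel

theorem N0_symm (c : ℝ) {g : ℝ → K →L[ℝ] K} (h : MemLp g ⊤ volume)
    (hs : ∀ τ x y, ⟪c • x + g τ x, y⟫ = ⟪x, c • y + g τ y⟫) (x y : L2 K) :
    ⟪Nseq c g 0 x, y⟫ = ⟪x, Nseq c g 0 y⟫ := by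
  rw [L2.inner_def, L2.inner_def]
  apply integral_congr_ae
  filter_upwards [coe_N0 c h x, coe_N0 c h y] with τ h1 h2
  rw [h1, h2, hs]

theorem N0_coer (c : ℝ) {g : ℝ → K →L[ℝ] K} (h : MemLp g ⊤ volume) {c0 : ℝ}
    (hs : ∀ τ x, c0 * ‖x‖ ^ 2 ≤ ⟪c • x + g τ x, x⟫) (x : L2 K) :
    c0 * ‖x‖ ^ 2 ≤ ⟪Nseq c g 0 x, x⟫ := by
  rw [← real_inner_self_eq_norm_sq, L2.inner_def, L2.inner_def, ← integral_const_mul]
  apply integral_mono_ae ((L2.integrable_inner x x).const_mul _) (L2.integrable_inner _ _)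
  filter_upwards [coe_N0 c h x] with τ h1
  rw [h1, real_inner_self_eq_norm_sq]
  exact hs τ _

end mult

end Crest.Agent.R213.B
end
end

-- ▼ part R213/B/TWeak
section

/-!
Row 213, part B1 (helper418).  From the weak equation with test functions to the group form, and
weak derivatives from the generator relation.
-/

set_option autoImplicit false

open Set MeasureTheory Filter Topology
open scoped RealInnerProductSpace ContDiff ENNReal

noncomputable section

namespace Crest.Agent.R213.B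

section testfn

variable {X : Type*} [NormedAddCommGroup X] [InnerProductSpace ℝ X]

theorem locInt (f : L2 X) : LocallyIntegrable f (volume : Measure ℝ) :=
  (Lp.memLp f).locallyIntegrable (by norm_num)

theorem int_smul (f : L2 X) {θ : ℝ → ℝ} (hθ : Continuous θ) (hc : HasCompactSupport θ) :
    Integrable (fun τ => θ τ • f τ) (volume : Measure ℝ) :=
  (locInt f).integrable_smul_left_of_hasCompactSupport hθ hc

theorem int_mul (f : L2 X) {θ : ℝ → ℝ} (hθ : Continuous θ) (hc : HasCompactSupport θ) (p : X) :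
    Integrable (fun τ => θ τ * ⟪p, f τ⟫) (volume : Measure ℝ) := by
  have h := (int_smul f hθ hc).const_inner (𝕜 := ℝ) p
  refine h.congr (Eventually.of_forall fun τ => ?_)
  simp only [real_inner_smul_right]

theorem smooth_smul_const {θ : ℝ → ℝ} (hθ : ContDiff ℝ ∞ θ) (p : X) :
    ContDiff ℝ ∞ (fun τ => θ τ • p) := hθ.smul contDiff_const

theorem cc_smul_const {θ : ℝ → ℝ} (hc : HasCompactSupport θ) (p : X) :
    HasCompactSupport (fun τ => θ τ • p) := hc.smul_right

/-- the test function `θ ⊗ p`. -/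
def tf (θ : ℝ → ℝ) (p : X) : L2 X := cl fun τ => θ τ • p

theorem coe_tf {θ : ℝ → ℝ} (hθ : ContDiff ℝ ∞ θ) (hc : HasCompactSupport θ) (p : X) :
    tf θ p =ᵐ[volume] fun τ => θ τ • p :=
  coe_cl (memLp_cc (smooth_smul_const hθ p) (cc_smul_const hc p))

theorem inner_tf {θ : ℝ → ℝ} (hθ : ContDiff ℝ ∞ θ) (hc : HasCompactSupport θ) (p : X) (f : L2 X) :
    ⟪tf θ p, f⟫ = ∫ τ, θ τ * ⟪p, f τ⟫ := by
  rw [L2.inner_def]
  apply integral_congr_ae
  filter_upwards [coe_tf hθ hc p] with τ h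
  rw [h, real_inner_smul_left]

theorem inner_tf' [CompleteSpace X] {θ : ℝ → ℝ} (hθ : ContDiff ℝ ∞ θ) (hc : HasCompactSupport θ)
    (p : X) (f : L2 X) : ⟪tf θ p, f⟫ = ⟪p, ∫ τ, θ τ • f τ⟫ := by
  rw [inner_tf hθ hc, ← integral_inner (int_smul f hθ.continuous hc)]
  congr 1
  funext τ
  rw [real_inner_smul_right]

/-- vectors orthogonal to all test functions vanish. -/
theorem eq_zero_of_tf [CompleteSpace X] {q : L2 X}
    (h : ∀ θ : ℝ → ℝ, ContDiff ℝ ∞ θ → HasCompactSupport θ → ∀ p : X, ⟪tf θ p, q⟫ = 0) : q = 0 := by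
  have h1 : ∀ᵐ τ, (q : ℝ → X) τ = 0 := by
    apply ae_eq_zero_of_integral_contDiff_smul_eq_zero (locInt q)
    intro θ hθ hc
    have h2 : ∀ p : X, ⟪p, ∫ τ, θ τ • q τ⟫ = 0 := fun p => by
      rw [← inner_tf' hθ hc]; exact h θ hθ hc p
    exact inner_self_eq_zero.1 (h2 _)
  apply Lp.ext
  filter_upwards [h1, Lp.coeFn_zero X 2 (volume : Measure ℝ)] with τ h1 h2
  rw [h1, h2, Pi.zero_apply]

theorem deriv_smul_const {θ : ℝ → ℝ} (hθ : ContDiff ℝ ∞ θ) (p : X) :
    deriv (fun τ => θ τ • p) = fun τ => deriv θ τ • p := by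
  funext τ
  exact ((hθ.differentiable (by simp) τ).hasDerivAt.smul_const p).deriv

theorem gen_tf {θ : ℝ → ℝ} (hθ : ContDiff ℝ ∞ θ) (hc : HasCompactSupport θ) (p : X) :
    (trG X).Gen (tf θ p) (tf (deriv θ) p) := by
  have := gen_cl (smooth_smul_const hθ p) (cc_smul_const hc p)
  rwa [deriv_smul_const hθ] at this

theorem tr_tf {θ : ℝ → ℝ} (hθ : ContDiff ℝ ∞ θ) (hc : HasCompactSupport θ) (p : X) (r : ℝ) :
    tr X r (tf θ p) = tf (fun τ => θ (τ + r)) p :=
  tr_cl (memLp_cc (smooth_smul_const hθ p) (cc_smul_const hc p)) r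

theorem lift2_tf {Y : Type*} [NormedAddCommGroup Y] [InnerProductSpace ℝ Y] (L : X →L[ℝ] Y)
    {θ : ℝ → ℝ} (hθ : ContDiff ℝ ∞ θ) (hc : HasCompactSupport θ) (p : X) :
    lift2 L (tf θ p) = tf θ (L p) := by
  apply Lp.ext
  filter_upwards [coe_lift2 L (tf θ p), coe_tf hθ hc p, coe_tf hθ hc (L p)] with τ h1 h2 h3
  rw [h1, h2, h3, map_smul]

theorem shift_smooth {θ : ℝ → ℝ} (hθ : ContDiff ℝ ∞ θ) (r : ℝ) :
    ContDiff ℝ ∞ (fun τ => θ (τ + r)) := hθ.comp (contDiff_id.add contDiff_const)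

theorem shift_cc {θ : ℝ → ℝ} (hc : HasCompactSupport θ) (r : ℝ) :
    HasCompactSupport (fun τ => θ (τ + r)) :=
  hc.comp_homeomorph (Homeomorph.addRight r)

theorem deriv_shift (θ : ℝ → ℝ) (r : ℝ) :
    deriv (fun τ => θ (τ + r)) = fun τ => deriv θ (τ + r) := by
  funext τ
  exact deriv_comp_add_const θ r τ

/-- The generator relation gives the weak derivative. -/
theorem weak_of_gen [CompleteSpace X] {x y : L2 X} (h : (trG X).Gen x y) {θ : ℝ → ℝ}
    (hθ : ContDiff ℝ ∞ θ) (hc : HasCompactSupport θ) :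
    ∫ τ, deriv θ τ • x τ = - ∫ τ, θ τ • y τ := by
  have key : ∀ p : X, ⟪tf θ p, y⟫ = -⟪tf (deriv θ) p, x⟫ := by
    intro p
    have h1 : HasDerivAt (fun r => ⟪tf θ p, (trG X).T r x⟫) ⟪tf θ p, y⟫ 0 := by
      have := (hasDerivAt_const (0 : ℝ) (tf θ p)).inner ℝ h.zero
      simpa using this
    have h2 : HasDerivAt (fun r : ℝ => ⟪(trG X).T (-r) (tf θ p), x⟫) (-⟪tf (deriv θ) p, x⟫) 0 := by
      have h3 : HasDerivAt (fun r : ℝ => (trG X).T (-r) (tf θ p)) (-(tf (deriv θ) p)) 0 := by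
        have h4 : HasDerivAt (fun r => (trG X).T r (tf θ p)) (tf (deriv θ) p) (-0) := by
          rw [neg_zero]; exact (gen_tf hθ hc p).zero
        have h5 := HasDerivAt.scomp (h := fun s : ℝ => -s) (0 : ℝ) h4 (hasDerivAt_neg (0 : ℝ))
        simpa [Function.comp_def] using h5
      have := h3.inner ℝ (hasDerivAt_const (0 : ℝ) x)
      simpa [inner_neg_left] using this
    have h3 : (fun r : ℝ => ⟪(trG X).T (-r) (tf θ p), x⟫) = fun r => ⟪tf θ p, (trG X).T r x⟫ := by
      funext r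
      rw [(trG X).inner_T_left, neg_neg]
    rw [h3] at h2
    exact h1.unique h2
  refine ext_inner_left ℝ fun p => ?_
  rw [inner_neg_right, ← inner_tf' hθ hc, key p, neg_neg,
    inner_tf' (deriv_smooth hθ) hc.deriv]

end testfn

section weq

variable {V H K : Type*} [NormedAddCommGroup V] [InnerProductSpace ℝ V] [CompleteSpace V]
    [NormedAddCommGroup H] [InnerProductSpace ℝ H] [CompleteSpace H]
    [NormedAddCommGroup K] [InnerProductSpace ℝ K] [CompleteSpace K]

/-- From test functions to the group form of the equation. -/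
theorem weq_of_weak (J : V →L[ℝ] H) (B : V →L[ℝ] K) {v : L2 V} {P : L2 K} {F : L2 H}
    (h : ∀ θ : ℝ → ℝ, ContDiff ℝ ∞ θ → HasCompactSupport θ → ∀ p : V,
      ∫ τ, deriv θ τ * ⟪J p, J (v τ)⟫ =
        -((∫ τ, θ τ * ⟪B p, P τ⟫) - ∫ τ, θ τ * ⟪J p, F τ⟫)) :
    WEq (trG H) (trG K) (lift2 J) (lift2 B) v P F := by
  set JJ : L2 V →L[ℝ] L2 H := lift2 J with hJJ
  set BB : L2 V →L[ℝ] L2 K := lift2 B with hBB
  have hJc : Continuous fun s => (trG H).T s F := (trG H).cont F
  -- the equation for test functions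
  have h0 : ∀ (θ : ℝ → ℝ), ContDiff ℝ ∞ θ → HasCompactSupport θ → ∀ p : V,
      ⟪JJ (tf (deriv θ) p), JJ v⟫ = -(⟪BB (tf θ p), P⟫ - ⟪JJ (tf θ p), F⟫) := by
    intro θ hθ hc p
    rw [hJJ, hBB, lift2_tf J (deriv_smooth hθ) hc.deriv, lift2_tf B hθ hc, lift2_tf J hθ hc,
      inner_tf (deriv_smooth hθ) hc.deriv, inner_tf hθ hc, inner_tf hθ hc, ← h θ hθ hc p]
    apply integral_congr_ae
    filter_upwards [coe_lift2 J v] with τ h1
    rw [h1]
  have h1 : ∀ (θ : ℝ → ℝ), ContDiff ℝ ∞ θ → HasCompactSupport θ → ∀ (p : V) (r : ℝ),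
      HasDerivAt (fun r => ⟪JJ (tf θ p), (trG H).T r (JJ v)⟫)
        (⟪BB (tf θ p), (trG K).T r P⟫ - ⟪JJ (tf θ p), (trG H).T r F⟫) r := by
    intro θ hθ hc p r
    have a1 : (trG H).Gen (JJ (tf θ p)) (JJ (tf (deriv θ) p)) :=
      (gen_tf hθ hc p).map (G' := trG H) (fun r x => lift2_tr J r x)
    have a2 : HasDerivAt (fun r : ℝ => (trG H).T (-r) (JJ (tf θ p)))
        (-((trG H).T (-r) (JJ (tf (deriv θ) p)))) r := by
      have h5 := HasDerivAt.scomp (h := fun s : ℝ => -s) r (a1 (-r)) (hasDerivAt_neg r)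
      simpa [Function.comp_def] using h5
    have a3 : HasDerivAt (fun r : ℝ => ⟪(trG H).T (-r) (JJ (tf θ p)), JJ v⟫)
        (-⟪(trG H).T (-r) (JJ (tf (deriv θ) p)), JJ v⟫) r := by
      have := a2.inner ℝ (hasDerivAt_const r (JJ v))
      simpa [inner_neg_left] using this
    have a4 : (fun r : ℝ => ⟪(trG H).T (-r) (JJ (tf θ p)), JJ v⟫) =
        fun r => ⟪JJ (tf θ p), (trG H).T r (JJ v)⟫ := by
      funext r
      rw [(trG H).inner_T_left, neg_neg]
    rw [a4] at a3
    have a5 : -⟪(trG H).T (-r) (JJ (tf (deriv θ) p)), JJ v⟫ =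
        ⟪BB (tf θ p), (trG K).T r P⟫ - ⟪JJ (tf θ p), (trG H).T r F⟫ := by
      have b1 : (trG H).T (-r) (JJ (tf (deriv θ) p)) =
          JJ (tf (deriv fun τ => θ (τ + -r)) p) := by
        rw [deriv_shift, ← tr_tf (deriv_smooth hθ) hc.deriv]
        exact (lift2_tr J _ _).symm
      have b2 : ⟪BB (tf θ p), (trG K).T r P⟫ = ⟪BB (tf (fun τ => θ (τ + -r)) p), P⟫ := by
        rw [← tr_tf hθ hc]
        have : BB (tr V (-r) (tf θ p)) = (trG K).T (-r) (BB (tf θ p)) := lift2_tr B _ _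
        rw [this, (trG K).inner_T_left, neg_neg]
      have b3 : ⟪JJ (tf θ p), (trG H).T r F⟫ = ⟪JJ (tf (fun τ => θ (τ + -r)) p), F⟫ := by
        rw [← tr_tf hθ hc]
        have : JJ (tr V (-r) (tf θ p)) = (trG H).T (-r) (JJ (tf θ p)) := lift2_tr J _ _
        rw [this, (trG H).inner_T_left, neg_neg]
      rw [b1, b2, b3, h0 _ (shift_smooth hθ (-r)) (shift_cc hc (-r)) p, neg_neg]
    rw [a5] at a3
    exact a3
  -- the vector representing the equation
  set AJ : L2 H →L[ℝ] L2 V := ContinuousLinearMap.adjoint JJ with hAJ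
  set AB : L2 K →L[ℝ] L2 V := ContinuousLinearMap.adjoint BB with hAB
  set φ : ℝ → L2 V := fun s => AB ((trG K).T s P) - AJ ((trG H).T s F) with hφ
  have hφc : Continuous φ :=
    (AB.continuous.comp ((trG K).cont P)).sub (AJ.continuous.comp ((trG H).cont F))
  have hφi : ∀ (y : L2 V) s, ⟪y, φ s⟫ = ⟪BB y, (trG K).T s P⟫ - ⟪JJ y, (trG H).T s F⟫ := by
    intro y s
    rw [hφ, inner_sub_right, ContinuousLinearMap.adjoint_inner_right,
      ContinuousLinearMap.adjoint_inner_right]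
  have hq : ∀ r : ℝ, AJ ((trG H).T r (JJ v)) = AJ (JJ v) + ∫ s in (0 : ℝ)..r, φ s := by
    intro r
    rw [← sub_eq_zero]
    apply eq_zero_of_tf
    intro θ hθ hc p
    have c1 : ∫ s in (0 : ℝ)..r, ⟪tf θ p, φ s⟫ =
        ⟪JJ (tf θ p), (trG H).T r (JJ v)⟫ - ⟪JJ (tf θ p), (trG H).T 0 (JJ v)⟫ := by
      apply intervalIntegral.integral_eq_sub_of_hasDerivAt
      · intro s _
        have := h1 θ hθ hc p s
        rwa [← hφi] at this
      · exact (continuous_const.inner hφc).intervalIntegrable _ _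
    have c2 : ⟪tf θ p, ∫ s in (0 : ℝ)..r, φ s⟫ = ∫ s in (0 : ℝ)..r, ⟪tf θ p, φ s⟫ := by
      have := ((innerSL ℝ (tf θ p)).intervalIntegral_comp_comm (μ := volume)
        (hφc.intervalIntegrable 0 r))
      simp only [innerSL_apply_apply] at this
      exact this.symm
    rw [inner_sub_right, inner_add_right, c2, c1, ContinuousLinearMap.adjoint_inner_right,
      ContinuousLinearMap.adjoint_inner_right, (trG H).T_zero]
    ring
  intro y r
  have d1 : (fun r => ⟪JJ y, (trG H).T r (JJ v)⟫) =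
      fun r => ⟪y, AJ (JJ v) + ∫ s in (0 : ℝ)..r, φ s⟫ := by
    funext r
    rw [← hq r, ContinuousLinearMap.adjoint_inner_right]
  rw [d1, ← hφi]
  have d2 : HasDerivAt (fun r => AJ (JJ v) + ∫ s in (0 : ℝ)..r, φ s) (φ r) r :=
    (intervalIntegral.integral_hasDerivAt_right (hφc.intervalIntegrable 0 r)
      (hφc.stronglyMeasurableAtFilter _ _) hφc.continuousAt).const_add _
  have := (hasDerivAt_const r y).inner ℝ d2
  simpa using this

end weq

end Crest.Agent.R213.B
end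
end

-- ▼ part R213/B/TFam
section

/-!
Row 213, part B1 (helper418).  The cut-off family of a weak solution; smoothness of `χ w` along
the translation group.
-/

set_option autoImplicit false

open Set MeasureTheory Filter Topology
open scoped RealInnerProductSpace ContDiff ENNReal

noncomputable section

namespace Crest.Agent.R213.B

theorem cut_smooth {Y : Type*} [NormedAddCommGroup Y] [NormedSpace ℝ Y] {F : ℝ → Y}
    (hF : ContDiffOn ℝ ∞ F (Ioo 0 1)) {θ : ℝ → ℝ} (hθ : ContDiff ℝ ∞ θ)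
    (hs : tsupport θ ⊆ Ioo 0 1) : ContDiff ℝ ∞ (fun τ => θ τ • F τ) := by
  rw [contDiff_iff_contDiffAt]
  intro τ
  by_cases h : τ ∈ Ioo (0 : ℝ) 1
  · exact hθ.contDiffAt.smul (hF.contDiffAt (isOpen_Ioo.mem_nhds h))
  · have h1 : τ ∉ tsupport θ := fun h' => h (hs h')
    have h2 : (fun τ => θ τ • F τ) =ᶠ[𝓝 τ] fun _ => 0 := by
      filter_upwards [notMem_tsupport_iff_eventuallyEq.1 h1] with t ht
      rw [ht, Pi.zero_apply, zero_smul]
    exact (contDiffAt_const (c := (0 : Y))).congr_of_eventuallyEq h2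

theorem exists_cut {a b : ℝ} (ha : 0 < a) (hab : a < b) (hb : b < 1) :
    ∃ θ : ℝ → ℝ, ContDiff ℝ ∞ θ ∧ HasCompactSupport θ ∧ tsupport θ ⊆ Ioo 0 1 ∧
      (∀ τ ∈ Icc a b, θ τ = 1) ∧ ∀ τ, θ τ ∈ Icc (0 : ℝ) 1 := by
  set ε := min a (1 - b) / 2 with hε
  have hεpos : 0 < ε := by
    have : 0 < min a (1 - b) := lt_min ha (by linarith)
    positivity
  have h1 : ε < a := by
    have : min a (1 - b) ≤ a := min_le_left _ _
    linarith
  have h2 : b + ε < 1 := by
    have : min a (1 - b) ≤ 1 - b := min_le_right _ _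
    linarith
  let f : ContDiffBump ((a + b) / 2 : ℝ) := ⟨(b - a) / 2, (b - a) / 2 + ε, by linarith, by linarith⟩
  refine ⟨f, f.contDiff, f.hasCompactSupport, ?_, ?_, ?_⟩
  · rw [f.tsupport_eq]
    intro τ hτ
    rw [Metric.mem_closedBall, Real.dist_eq, abs_le] at hτ
    have h3 : f.rOut = (b - a) / 2 + ε := rfl
    rw [h3] at hτ
    constructor <;> linarith [hτ.1, hτ.2]
  · intro τ hτ
    apply f.one_of_mem_closedBall
    rw [Metric.mem_closedBall, Real.dist_eq, abs_le]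
    have h3 : f.rIn = (b - a) / 2 := rfl
    rw [h3]
    constructor <;> linarith [hτ.1, hτ.2]
  · intro τ
    exact ⟨f.nonneg, f.le_one⟩

theorem exists_Ioo {S : Set ℝ} (hS : IsCompact S) (h : S ⊆ Ioo 0 1) :
    ∃ a b : ℝ, 0 < a ∧ a < b ∧ b < 1 ∧ S ⊆ Ioo a b := by
  rcases S.eq_empty_or_nonempty with rfl | hne
  · exact ⟨1 / 3, 2 / 3, by norm_num, by norm_num, by norm_num, empty_subset _⟩
  · obtain ⟨m, hm, hm'⟩ := hS.exists_isLeast hne
    obtain ⟨M, hM, hM'⟩ := hS.exists_isGreatest hne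
    have h1 := h hm
    have h2 := h hM
    have h3 : m ≤ M := hm' hM
    refine ⟨m / 2, (M + 1) / 2, by linarith [h1.1], by linarith [h1.1, h2.2], by linarith [h2.2], ?_⟩
    intro x hx
    have := hm' hx
    have := hM' hx
    constructor <;> linarith [h1.1, h2.2]

theorem memLp_cut {V : Type*} [NormedAddCommGroup V] [NormedSpace ℝ V] {w : ℝ → V} {a b : ℝ}
    (hw : MemLp w 2 (volume.restrict (Icc a b))) {χ : ℝ → ℝ} (hχ : Continuous χ)
    (hc : HasCompactSupport χ) (hs : tsupport χ ⊆ Ioo a b) :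
    MemLp (fun τ => χ τ • w τ) 2 volume := by
  obtain ⟨C, hC⟩ := hc.exists_bound_of_continuous hχ
  have h1 : MemLp (fun τ => χ τ • w τ) 2 (volume.restrict (Icc a b)) := by
    refine MemLp.of_le_mul (c := C) hw (hχ.aestronglyMeasurable.smul hw.1) ?_
    refine Eventually.of_forall fun τ => ?_
    rw [norm_smul]
    gcongr
    exact hC τ
  have h2 : (fun τ => χ τ • w τ) = (Icc a b).indicator fun τ => χ τ • w τ := by
    symm
    rw [indicator_eq_self]
    intro τ hτ
    rw [Function.mem_support] at hτ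
    apply Ioo_subset_Icc_self
    apply hs
    apply subset_tsupport
    rw [Function.mem_support]
    intro h0
    exact hτ (by rw [h0, zero_smul])
  rw [h2]
  exact (memLp_indicator_iff_restrict measurableSet_Icc).2 h1

/-- The cut-offs supported in `(a, b)`. -/
def Cut (a b : ℝ) : Type :=
  {χ : ℝ → ℝ // ContDiff ℝ ∞ χ ∧ HasCompactSupport χ ∧ tsupport χ ⊆ Ioo a b}

/-- derivative of a cut-off -/
def dCut {a b : ℝ} (χ : Cut a b) : Cut a b :=
  ⟨deriv χ.1, deriv_smooth χ.2.1, χ.2.2.1.deriv,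
    (tsupport_deriv_subset (𝕜 := ℝ)).trans χ.2.2.2⟩

theorem Cut.zero {a b : ℝ} (χ : Cut a b) {τ : ℝ} (h : τ ∉ Icc a b) : χ.1 τ = 0 := by
  apply image_eq_zero_of_notMem_tsupport
  exact fun h' => h (Ioo_subset_Icc_self (χ.2.2.2 h'))

theorem exists_chain {X : Type*} [NormedAddCommGroup X] [InnerProductSpace ℝ X] {G : OneGrp X}
    {x : X} (h : ∀ k, G.Sm k x) : ∃ s : ℕ → X, s 0 = x ∧ ∀ n, G.Gen (s n) (s (n + 1)) := by
  have step : ∀ y : {y : X // ∀ k, G.Sm k y}, ∃ z : {z : X // ∀ k, G.Sm k z}, G.Gen y.1 z.1 := by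
    rintro ⟨y, hy⟩
    obtain ⟨z, hz, -⟩ := hy 1
    refine ⟨⟨z, fun k => ?_⟩, hz⟩
    obtain ⟨z', hz', hk⟩ := hy (k + 1)
    rw [hz.unique hz']
    exact hk
  choose f hf using step
  let s : ℕ → {y : X // ∀ k, G.Sm k y} := fun n => Nat.rec ⟨x, h⟩ (fun _ y => f y) n
  exact ⟨fun n => (s n).1, rfl, fun n => hf (s n)⟩

section main

variable {V H K : Type*} [NormedAddCommGroup V] [InnerProductSpace ℝ V] [CompleteSpace V]
    [NormedAddCommGroup H] [InnerProductSpace ℝ H] [CompleteSpace H]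
    [NormedAddCommGroup K] [InnerProductSpace ℝ K] [CompleteSpace K]

theorem lift_coer (J : V →L[ℝ] H) (B : V →L[ℝ] K) {C : ℝ}
    (hJB : ∀ v, ‖v‖ ^ 2 ≤ C * (‖J v‖ ^ 2 + ‖B v‖ ^ 2)) (f : L2 V) :
    ‖f‖ ^ 2 ≤ C * (‖lift2 J f‖ ^ 2 + ‖lift2 B f‖ ^ 2) := by
  rw [← real_inner_self_eq_norm_sq, ← real_inner_self_eq_norm_sq, ← real_inner_self_eq_norm_sq,
    L2.inner_def, L2.inner_def, L2.inner_def, ← integral_add (L2.integrable_inner _ _)
      (L2.integrable_inner _ _), ← integral_const_mul]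
  apply integral_mono_ae (L2.integrable_inner _ _)
    (((L2.integrable_inner _ _).add (L2.integrable_inner _ _)).const_mul _)
  filter_upwards [coe_lift2 J f, coe_lift2 B f] with τ h1 h2
  rw [h1, h2]
  simp only [real_inner_self_eq_norm_sq]
  exact hJB _

theorem chain_of_weak
    (J : V →L[ℝ] H) (B : V →L[ℝ] K) {C : ℝ} (hJB : ∀ v, ‖v‖ ^ 2 ≤ C * (‖J v‖ ^ 2 + ‖B v‖ ^ 2))
    {N : ℝ → K →L[ℝ] K} (hN : ContDiffOn ℝ ∞ N (Ioo 0 1))
    (hNs : ∀ τ ∈ Ioo (0 : ℝ) 1, ∀ x y, ⟪N τ x, y⟫ = ⟪x, N τ y⟫)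
    {c : ℝ} (hc : 0 < c) (hNc : ∀ τ ∈ Ioo (0 : ℝ) 1, ∀ x, c * ‖x‖ ^ 2 ≤ ⟪N τ x, x⟫)
    {E : ℝ → H} (hE : ContDiffOn ℝ ∞ E (Ioo 0 1)) {R : ℝ → K} (hR : ContDiffOn ℝ ∞ R (Ioo 0 1))
    {w : ℝ → V} (hw : ∀ a b : ℝ, 0 < a → b < 1 → MemLp w 2 (volume.restrict (Icc a b)))
    (hweak : ∀ χ : ℝ → ℝ, ContDiff ℝ ∞ χ → HasCompactSupport χ → tsupport χ ⊆ Ioo 0 1 → ∀ v : V,
      ∫ τ, (deriv χ τ * ⟪J v, J (w τ)⟫ + χ τ * ⟪B v, N τ (B (w τ))⟫) =
        ∫ τ, χ τ * (⟪E τ, J v⟫ + ⟪R τ, B v⟫))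
    {χ0 : ℝ → ℝ} (hχ : ContDiff ℝ ∞ χ0) (hχc : HasCompactSupport χ0)
    (hχs : tsupport χ0 ⊆ Ioo 0 1) :
    ∃ x : ℕ → L2 V, (x 0 =ᵐ[volume] fun τ => χ0 τ • w τ) ∧
      ∀ n, (trG V).Gen (x n) (x (n + 1)) := by
  obtain ⟨a, b, ha, hab, hb, hsub⟩ := exists_Ioo hχc.isCompact hχs
  obtain ⟨θ, hθ, hθc, hθs, hθ1, hθr⟩ := exists_cut ha hab hb
  have hI : Icc a b ⊆ Ioo (0 : ℝ) 1 := fun x hx => ⟨ha.trans_le hx.1, hx.2.trans_lt hb⟩
  -- the modified coefficient
  set g : ℝ → K →L[ℝ] K := fun τ => θ τ • (N τ - c • ContinuousLinearMap.id ℝ K) with hg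
  have hgs : ContDiff ℝ ∞ g := cut_smooth (hN.sub contDiffOn_const) hθ hθs
  have hgc : HasCompactSupport g := hθc.smul_right
  have hgI := memI hgs hgc
  have hga : ∀ τ x, g τ x = θ τ • (N τ x - c • x) := fun τ x => rfl
  have hsym : ∀ τ x y, ⟪c • x + g τ x, y⟫ = ⟪x, c • y + g τ y⟫ := by
    intro τ x y
    rw [hga, hga]
    by_cases h : τ ∈ Ioo (0 : ℝ) 1
    · simp only [inner_add_left, inner_add_right, real_inner_smul_left, real_inner_smul_right,
        inner_sub_left, inner_sub_right, hNs τ h]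
    · have h1 : θ τ = 0 := image_eq_zero_of_notMem_tsupport fun h' => h (hθs h')
      simp only [h1, zero_smul, add_zero, real_inner_smul_left, real_inner_smul_right]
  have hcoer : ∀ τ x, c * ‖x‖ ^ 2 ≤ ⟪c • x + g τ x, x⟫ := by
    intro τ x
    rw [hga]
    by_cases h : τ ∈ Ioo (0 : ℝ) 1
    · simp only [inner_add_left, real_inner_smul_left, inner_sub_left, real_inner_self_eq_norm_sq]
      have h1 := hNc τ h x
      have h2 := (hθr τ).1
      nlinarith [mul_nonneg h2 (sub_nonneg.2 h1)]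
    · have h1 : θ τ = 0 := image_eq_zero_of_notMem_tsupport fun h' => h (hθs h')
      simp only [h1, zero_smul, add_zero, real_inner_smul_left, real_inner_self_eq_norm_sq, le_refl]
  obtain ⟨L, hL⟩ := N0_lip c hgs hgc
  -- the families
  have hwm : ∀ χ : Cut a b, MemLp (fun τ => χ.1 τ • w τ) 2 volume := fun χ =>
    memLp_cut (hw a b ha hb) χ.2.1.continuous χ.2.2.1 χ.2.2.2
  have hcs : ∀ χ : Cut a b, tsupport χ.1 ⊆ Ioo (0 : ℝ) 1 := fun χ =>
    χ.2.2.2.trans (Ioo_subset_Icc_self.trans hI)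
  have hEs : ∀ χ : Cut a b, ContDiff ℝ ∞ (fun τ => χ.1 τ • E τ) := fun χ =>
    cut_smooth hE χ.2.1 (hcs χ)
  have hEc : ∀ χ : Cut a b, HasCompactSupport (fun τ => χ.1 τ • E τ) := fun χ =>
    χ.2.2.1.smul_right
  have hRs : ∀ χ : Cut a b, ContDiff ℝ ∞ (fun τ => χ.1 τ • R τ) := fun χ =>
    cut_smooth hR χ.2.1 (hcs χ)
  have hRc : ∀ χ : Cut a b, HasCompactSupport (fun τ => χ.1 τ • R τ) := fun χ =>
    χ.2.2.1.smul_right
  set vf : Cut a b → L2 V := fun χ => cl fun τ => χ.1 τ • w τ with hvf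
  set Ef : Cut a b → L2 H := fun χ => cl fun τ => χ.1 τ • E τ with hEf
  set Rf : Cut a b → L2 K := fun χ => cl fun τ => χ.1 τ • R τ with hRf
  have hFam : Fam dCut (trG H) (trG K) (lift2 J) (lift2 B) (Nseq c g 0) vf Ef Rf := by
    intro χ
    apply weq_of_weak
    intro η hη hηc p
    -- a.e. formulas
    have e1 : (Nseq c g 0 (lift2 B (vf χ)) - Rf χ : L2 K) =ᵐ[volume]
        fun τ => χ.1 τ • (N τ (B (w τ)) - R τ) := by
      filter_upwards [Lp.coeFn_sub (Nseq c g 0 (lift2 B (vf χ))) (Rf χ),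
        coe_N0 c hgI (lift2 B (vf χ)), coe_lift2 B (vf χ), coe_cl (hwm χ),
        coe_cl (memLp_cc (hRs χ) (hRc χ))] with τ h1 h2 h3 h4 h5
      rw [h1, Pi.sub_apply, h2, h3, h4, h5, hga]
      by_cases h : τ ∈ Icc a b
      · rw [hθ1 τ h]
        simp only [map_smul, one_smul, smul_sub]
        rw [smul_comm c (χ.1 τ)]
        abel
      · rw [χ.zero h]
        simp
    have e2 : (Ef χ - lift2 J (vf (dCut χ)) : L2 H) =ᵐ[volume]
        fun τ => χ.1 τ • E τ - deriv χ.1 τ • J (w τ) := by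
      filter_upwards [Lp.coeFn_sub (Ef χ) (lift2 J (vf (dCut χ))), coe_lift2 J (vf (dCut χ)),
        coe_cl (hwm (dCut χ)), coe_cl (memLp_cc (hEs χ) (hEc χ))] with τ h1 h2 h3 h4
      rw [h1, Pi.sub_apply, h2, h3, h4, map_smul]
      rfl
    have e3 : (vf χ : ℝ → V) =ᵐ[volume] fun τ => χ.1 τ • w τ := coe_cl (hwm χ)
    -- the weak equation with test function `η χ`
    have hηχ : ContDiff ℝ ∞ (fun τ => η τ * χ.1 τ) := hη.mul χ.2.1
    have hηχc : HasCompactSupport (fun τ => η τ * χ.1 τ) := χ.2.2.1.mul_left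
    have hηχs : tsupport (fun τ => η τ * χ.1 τ) ⊆ Ioo 0 1 :=
      (closure_mono (Function.support_mul_subset_right η χ.1)).trans (hcs χ)
    have hW := hweak _ hηχ hηχc hηχs p
    have hder : ∀ τ, deriv (fun τ => η τ * χ.1 τ) τ = deriv η τ * χ.1 τ + η τ * deriv χ.1 τ := by
      intro τ
      exact ((hη.differentiable (by simp) τ).hasDerivAt.mul
        (χ.2.1.differentiable (by simp) τ).hasDerivAt).deriv
    -- integrability
    have i1 : Integrable (fun τ => deriv η τ * ⟪J p, J (χ.1 τ • w τ)⟫) volume := by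
      refine (int_mul (lift2 J (vf χ)) (deriv_smooth hη).continuous hηc.deriv (J p)).congr ?_
      filter_upwards [coe_lift2 J (vf χ), e3] with τ h1 h2
      rw [h1, h2]
    have i2 : Integrable (fun τ => η τ * ⟪B p, χ.1 τ • (N τ (B (w τ)) - R τ)⟫) volume := by
      refine (int_mul (Nseq c g 0 (lift2 B (vf χ)) - Rf χ : L2 K) hη.continuous hηc
        (B p)).congr ?_
      filter_upwards [e1] with τ h1
      rw [h1]
    have i3 : Integrable (fun τ => η τ * ⟪J p, χ.1 τ • E τ - deriv χ.1 τ • J (w τ)⟫) volume := by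
      refine (int_mul (Ef χ - lift2 J (vf (dCut χ)) : L2 H) hη.continuous hηc (J p)).congr ?_
      filter_upwards [e2] with τ h1
      rw [h1]
    have i4 : Integrable (fun τ => η τ * ⟪B p, χ.1 τ • R τ⟫) volume := by
      refine (int_mul (Rf χ) hη.continuous hηc (B p)).congr ?_
      filter_upwards [coe_cl (memLp_cc (hRs χ) (hRc χ))] with τ h1
      rw [h1]
    have i5 : Integrable (fun τ => η τ * ⟪J p, χ.1 τ • E τ⟫) volume := by
      refine (int_mul (Ef χ) hη.continuous hηc (J p)).congr ?_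
      filter_upwards [coe_cl (memLp_cc (hEs χ) (hEc χ))] with τ h1
      rw [h1]
    have hL1 : ∫ τ, (deriv (fun τ => η τ * χ.1 τ) τ * ⟪J p, J (w τ)⟫
        + (η τ * χ.1 τ) * ⟪B p, N τ (B (w τ))⟫) =
        (∫ τ, deriv η τ * ⟪J p, J (χ.1 τ • w τ)⟫)
        + (∫ τ, η τ * ⟪B p, χ.1 τ • (N τ (B (w τ)) - R τ)⟫)
        - (∫ τ, η τ * ⟪J p, χ.1 τ • E τ - deriv χ.1 τ • J (w τ)⟫)
        + (∫ τ, η τ * ⟪B p, χ.1 τ • R τ⟫) + ∫ τ, η τ * ⟪J p, χ.1 τ • E τ⟫ := by
      have i12 : Integrable (fun τ => deriv η τ * ⟪J p, J (χ.1 τ • w τ)⟫ +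
          η τ * ⟪B p, χ.1 τ • (N τ (B (w τ)) - R τ)⟫) volume := i1.add i2
      have i123 : Integrable (fun τ => deriv η τ * ⟪J p, J (χ.1 τ • w τ)⟫ +
          η τ * ⟪B p, χ.1 τ • (N τ (B (w τ)) - R τ)⟫ -
          η τ * ⟪J p, χ.1 τ • E τ - deriv χ.1 τ • J (w τ)⟫) volume := i12.sub i3
      have i1234 : Integrable (fun τ => deriv η τ * ⟪J p, J (χ.1 τ • w τ)⟫ +
          η τ * ⟪B p, χ.1 τ • (N τ (B (w τ)) - R τ)⟫ -
          η τ * ⟪J p, χ.1 τ • E τ - deriv χ.1 τ • J (w τ)⟫ +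
          η τ * ⟪B p, χ.1 τ • R τ⟫) volume := i123.add i4
      rw [← integral_add i1 i2, ← integral_sub i12 i3, ← integral_add i123 i4,
        ← integral_add i1234 i5]
      congr 1
      funext τ
      rw [hder]
      simp only [map_smul, real_inner_smul_right, inner_sub_right]
      ring
    have hR1 : ∫ τ, (η τ * χ.1 τ) * (⟪E τ, J p⟫ + ⟪R τ, B p⟫) =
        (∫ τ, η τ * ⟪B p, χ.1 τ • R τ⟫) + ∫ τ, η τ * ⟪J p, χ.1 τ • E τ⟫ := by
      rw [← integral_add i4 i5]
      congr 1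
      funext τ
      simp only [real_inner_smul_right]
      rw [real_inner_comm (J p) (E τ), real_inner_comm (B p) (R τ)]
      ring
    rw [hL1, hR1] at hW
    have g1 : ∫ τ, deriv η τ * ⟪J p, J (vf χ τ)⟫ = ∫ τ, deriv η τ * ⟪J p, J (χ.1 τ • w τ)⟫ := by
      apply integral_congr_ae
      filter_upwards [e3] with τ h1
      rw [h1]
    have g2 : ∫ τ, η τ * ⟪B p, (Nseq c g 0 (lift2 B (vf χ)) - Rf χ : L2 K) τ⟫ =
        ∫ τ, η τ * ⟪B p, χ.1 τ • (N τ (B (w τ)) - R τ)⟫ := by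
      apply integral_congr_ae
      filter_upwards [e1] with τ h1
      rw [h1]
    have g3 : ∫ τ, η τ * ⟪J p, (Ef χ - lift2 J (vf (dCut χ)) : L2 H) τ⟫ =
        ∫ τ, η τ * ⟪J p, χ.1 τ • E τ - deriv χ.1 τ • J (w τ)⟫ := by
      apply integral_congr_ae
      filter_upwards [e2] with τ h1
      rw [h1]
    rw [g1, g2, g3]
    linarith
  -- smoothness
  have hsm : ∀ k, (trG V).Sm k (vf ⟨χ0, hχ, hχc, hsub⟩) := fun k =>
    fam_smooth (GV := trG V) (fun r v => lift2_tr J r v) (fun r v => lift2_tr B r v)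
      (lift_coer J B hJB) (mulSeq_Nseq c hgs hgc) (N0_symm c hgI hsym) hc (N0_coer c hgI hcoer)
      hL k vf Ef Rf hFam (fun χ => sm_cl k (hEs χ) (hEc χ)) (fun χ => sm_cl k (hRs χ) (hRc χ)) _
  obtain ⟨s, hs0, hs⟩ := exists_chain hsm
  refine ⟨s, ?_, hs⟩
  rw [hs0]
  exact coe_cl (hwm ⟨χ0, hχ, hχc, hsub⟩)

end main

end Crest.Agent.R213.B
end
end

-- ▼ part R213/B/TRep

/-!
# Row 213, part B1: representatives (helper182)

`smooth_rep`: a chain of weak derivatives gives a smooth representative; `glue`: localisation;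
`strong_of_weak`: the pointwise equation.
-/

set_option autoImplicit false

open Set MeasureTheory Filter Topology
open scoped RealInnerProductSpace ContDiff

noncomputable section

namespace Crest.Agent.R213.B

section rep

variable {X : Type*} [NormedAddCommGroup X] [NormedSpace ℝ X] [CompleteSpace X]

/-- the integral of the derivative of a test function vanishes -/
theorem integral_deriv_test {θ : ℝ → ℝ} (hθ : ContDiff ℝ ∞ θ) (hc : HasCompactSupport θ) :
    ∫ τ, deriv θ τ = 0 := by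
  have h1 : ∀ x, HasDerivAt θ (deriv θ x) x := fun x =>
    (hθ.differentiable (by simp) x).hasDerivAt
  refine integral_eq_zero_of_hasDerivAt_of_integrable h1 ?_ ?_
  · exact (hθ.continuous_deriv (by simp)).integrable_of_hasCompactSupport hc.deriv
  · exact hθ.continuous.integrable_of_hasCompactSupport hc

/-- existence of a bounded interval containing the support and `0` -/
theorem exists_Ioo_of_hasCompactSupport {θ : ℝ → ℝ} (hc : HasCompactSupport θ) :
    ∃ R : ℝ, 0 < R ∧ ∀ τ, τ ∉ Ioo (-R) R → θ τ = 0 := by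
  obtain ⟨R, hR⟩ := hc.isCompact.isBounded.subset_ball 0
  refine ⟨max R 1, lt_of_lt_of_le one_pos (le_max_right _ _), fun τ hτ => ?_⟩
  by_contra hne
  have h1 : τ ∈ tsupport θ := subset_tsupport θ hne
  have h2 := hR h1
  rw [Metric.mem_ball, dist_zero_right, Real.norm_eq_abs] at h2
  have h3 := abs_lt.1 (lt_of_lt_of_le h2 (le_max_left R 1))
  exact hτ ⟨h3.1, h3.2⟩

/-- antiderivative of a test function of integral zero -/
theorem exists_primitive_test {k : ℝ → ℝ} (hk : ContDiff ℝ ∞ k) (hc : HasCompactSupport k)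
    (h0 : ∫ τ, k τ = 0) :
    ∃ η : ℝ → ℝ, ContDiff ℝ ∞ η ∧ HasCompactSupport η ∧ deriv η = k := by
  obtain ⟨R, hR, hk0⟩ := exists_Ioo_of_hasCompactSupport hc
  have hkc : Continuous k := hk.continuous
  have hd : ∀ x, HasDerivAt (fun τ => ∫ s in (-R)..τ, k s) (k x) x := fun x =>
    intervalIntegral.integral_hasDerivAt_right (hkc.intervalIntegrable _ _)
      (hkc.stronglyMeasurableAtFilter _ _) hkc.continuousAt
  have hder : deriv (fun τ => ∫ s in (-R)..τ, k s) = k := funext fun x => (hd x).deriv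
  refine ⟨fun τ => ∫ s in (-R)..τ, k s, ?_, ?_, hder⟩
  · rw [contDiff_infty_iff_deriv]
    refine ⟨fun x => (hd x).differentiableAt, ?_⟩
    rw [hder]
    exact hk
  · refine HasCompactSupport.intro (isCompact_Icc (a := -R) (b := R)) ?_
    intro τ hτ
    by_cases h1 : τ < -R
    · have : ∀ s ∈ uIcc (-R) τ, k s = 0 := by
        intro s hs
        rw [uIcc_of_ge h1.le] at hs
        exact hk0 s (fun h => absurd h.1 (not_lt.2 hs.2))
      rw [intervalIntegral.integral_congr this]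
      simp
    · have h2 : R < τ := by
        by_contra h3
        exact hτ ⟨not_lt.1 h1, not_lt.1 h3⟩
      have h3 : ∫ s in (-R)..τ, k s = ∫ s, k s := by
        refine intervalIntegral.integral_eq_integral_of_support_subset ?_
        intro s hs
        by_contra hs'
        refine hs (hk0 s fun h => hs' ⟨h.1, ?_⟩)
        exact (h.2.trans h2).le
      rw [h3, h0]

/-- du Bois-Reymond: zero weak derivative implies constant. -/
theorem const_of_weak_deriv_zero {f : ℝ → X} (hf : LocallyIntegrable f volume)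
    (h : ∀ θ : ℝ → ℝ, ContDiff ℝ ∞ θ → HasCompactSupport θ → ∫ τ, deriv θ τ • f τ = 0) :
    ∃ c : X, ∀ᵐ τ, f τ = c := by
  let b : ContDiffBump (0 : ℝ) := ⟨1, 2, one_pos, one_lt_two⟩
  let θ0 : ℝ → ℝ := b.normed volume
  have h0 : ContDiff ℝ ∞ θ0 := b.contDiff_normed
  have h0c : HasCompactSupport θ0 := b.hasCompactSupport_normed
  have h0i : ∫ τ, θ0 τ = 1 := b.integral_normed
  refine ⟨∫ τ, θ0 τ • f τ, ?_⟩
  have hconst : LocallyIntegrable (fun _ : ℝ => ∫ τ, θ0 τ • f τ) volume :=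
    locallyIntegrable_const _
  refine ae_eq_of_integral_contDiff_smul_eq hf hconst ?_
  intro g hg hgc
  -- the primitive
  set I := ∫ τ, g τ with hI
  have hk : ContDiff ℝ ∞ (fun τ => g τ - I * θ0 τ) := hg.sub (contDiff_const.mul h0)
  have hkc : HasCompactSupport (fun τ => g τ - I * θ0 τ) := by
    refine HasCompactSupport.sub hgc ?_
    exact h0c.mul_left
  have hgi : Integrable g := hg.continuous.integrable_of_hasCompactSupport hgc
  have h0i' : Integrable θ0 := h0.continuous.integrable_of_hasCompactSupport h0c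
  have hkint : ∫ τ, (g τ - I * θ0 τ) = 0 := by
    rw [integral_sub hgi (h0i'.const_mul I), integral_const_mul, h0i, mul_one, sub_self]
  obtain ⟨η, hη, hηc, hηd⟩ := exists_primitive_test hk hkc hkint
  have h1 := h η hη hηc
  rw [hηd] at h1
  have hi1 : Integrable (fun τ => g τ • f τ) :=
    hf.integrable_smul_left_of_hasCompactSupport hg.continuous hgc
  have hi2 : Integrable (fun τ => θ0 τ • f τ) :=
    hf.integrable_smul_left_of_hasCompactSupport h0.continuous h0c
  have hi3 : Integrable (fun τ => I • θ0 τ • f τ) := hi2.smul I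
  have h2 : ∫ τ, (g τ - I * θ0 τ) • f τ = (∫ τ, g τ • f τ) - I • ∫ τ, θ0 τ • f τ := by
    rw [← integral_smul, ← integral_sub hi1 hi3]
    refine integral_congr_ae (Eventually.of_forall fun τ => ?_)
    simp only [sub_smul, mul_smul]
  rw [h2, sub_eq_zero] at h1
  rw [h1, integral_smul_const]

/-- the primitive of a locally integrable function has it as weak derivative -/
theorem weak_deriv_primitive {x : ℝ → X} (hx : LocallyIntegrable x volume) {θ : ℝ → ℝ}
    (hθ : ContDiff ℝ ∞ θ) (hc : HasCompactSupport θ) :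
    ∫ τ, deriv θ τ • (∫ s in (0 : ℝ)..τ, x s) = - ∫ τ, θ τ • x τ := by
  obtain ⟨R, hR, hts⟩ : ∃ R : ℝ, 0 < R ∧ tsupport θ ⊆ Ioo (-R) R := by
    obtain ⟨R, hR⟩ := hc.isCompact.isBounded.subset_ball 0
    refine ⟨max R 1, lt_of_lt_of_le one_pos (le_max_right _ _), fun τ hτ => ?_⟩
    have h2 := hR hτ
    rw [Metric.mem_ball, dist_zero_right, Real.norm_eq_abs] at h2
    have h3 := abs_lt.1 (lt_of_lt_of_le h2 (le_max_left R 1))
    exact ⟨h3.1, h3.2⟩
  have hθ0 : ∀ τ, τ ∉ Ioo (-R) R → θ τ = 0 := fun τ hτ =>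
    image_eq_zero_of_notMem_tsupport fun h => hτ (hts h)
  have hθ'0 : ∀ τ, τ ∉ Ioo (-R) R → deriv θ τ = 0 := by
    intro τ hτ
    by_contra hne
    exact hτ (hts (support_deriv_subset hne))
  have hd : ∀ τ, HasDerivAt θ (deriv θ τ) τ := fun τ =>
    (hθ.differentiable (by simp) τ).hasDerivAt
  have hdc : Continuous (deriv θ) := hθ.continuous_deriv (by simp)
  have hii : ∀ a b : ℝ, IntervalIntegrable x volume a b := fun a b =>
    (hx.integrableOn_isCompact isCompact_uIcc).intervalIntegrable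
  set S : Set ℝ := Ioc (-R) R with hS
  have hSm : MeasurableSet S := measurableSet_Ioc
  -- step 1: shift the base point
  have hF : ∀ τ, (∫ s in (0 : ℝ)..τ, x s) = (∫ s in (-R)..τ, x s) - ∫ s in (-R)..0, x s := by
    intro τ
    rw [← intervalIntegral.integral_add_adjacent_intervals (hii (-R) 0) (hii 0 τ)]
    abel
  have hcontF : Continuous (fun τ => ∫ s in (-R)..τ, x s) :=
    intervalIntegral.continuous_primitive hii (-R)
  have hcd : HasCompactSupport (deriv θ) := hc.deriv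
  have hI1 : Integrable (fun τ => deriv θ τ • ∫ s in (-R)..τ, x s) :=
    (hdc.smul hcontF).integrable_of_hasCompactSupport hcd.smul_right
  have hI2 : Integrable (fun τ => deriv θ τ • ∫ s in (-R)..0, x s) :=
    (hdc.smul continuous_const).integrable_of_hasCompactSupport hcd.smul_right
  have e1 : ∫ τ, deriv θ τ • (∫ s in (0 : ℝ)..τ, x s) =
      ∫ τ, deriv θ τ • ∫ s in (-R)..τ, x s := by
    have : ∀ τ, deriv θ τ • (∫ s in (0 : ℝ)..τ, x s) =
        deriv θ τ • (∫ s in (-R)..τ, x s) - deriv θ τ • ∫ s in (-R)..0, x s := by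
      intro τ
      rw [hF τ, smul_sub]
    simp_rw [this]
    rw [integral_sub hI1 hI2, integral_smul_const, integral_deriv_test hθ hc, zero_smul, sub_zero]
  -- step 2: restrict to `S`
  have e2 : ∫ τ, deriv θ τ • (∫ s in (-R)..τ, x s) =
      ∫ τ in S, deriv θ τ • ∫ s in (-R)..τ, x s := by
    refine (setIntegral_eq_integral_of_forall_compl_eq_zero fun τ hτ => ?_).symm
    rw [hθ'0 τ (fun h => hτ ⟨h.1, h.2.le⟩), zero_smul]
  have e3 : ∫ τ, θ τ • x τ = ∫ τ in S, θ τ • x τ := by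
    refine (setIntegral_eq_integral_of_forall_compl_eq_zero fun τ hτ => ?_).symm
    rw [hθ0 τ (fun h => hτ ⟨h.1, h.2.le⟩), zero_smul]
  -- step 3: the double integral
  have e4 : ∫ τ in S, deriv θ τ • (∫ s in (-R)..τ, x s) =
      ∫ τ in S, ∫ s in S, ({z : ℝ × ℝ | z.2 ≤ z.1}.indicator
        (fun z : ℝ × ℝ => deriv θ z.1 • x z.2) (τ, s)) := by
    refine setIntegral_congr_fun hSm fun τ hτ => ?_
    have h1 : (∫ s in (-R)..τ, x s) = ∫ s in S, (Iic τ).indicator x s := by
      rw [intervalIntegral.integral_of_le hτ.1.le, integral_indicator measurableSet_Iic,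
        Measure.restrict_restrict measurableSet_Iic]
      congr 2
      ext s
      simp only [hS, mem_Ioc, mem_inter_iff, mem_Iic]
      constructor
      · rintro ⟨h1, h2⟩; exact ⟨h2, h1, h2.trans hτ.2⟩
      · rintro ⟨h1, h2, _⟩; exact ⟨h2, h1⟩
    rw [h1, ← integral_smul]
    refine integral_congr_ae (Eventually.of_forall fun s => ?_)
    by_cases hs : s ≤ τ
    · simp [indicator, hs]
    · simp [indicator, hs]
  have hprod : Integrable (fun z : ℝ × ℝ => {z : ℝ × ℝ | z.2 ≤ z.1}.indicator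
      (fun z : ℝ × ℝ => deriv θ z.1 • x z.2) z) ((volume.restrict S).prod (volume.restrict S)) := by
    have hm : MeasurableSet {z : ℝ × ℝ | z.2 ≤ z.1} := measurableSet_le measurable_snd measurable_fst
    have hi1 : Integrable (deriv θ) (volume.restrict S) :=
      (hdc.integrable_of_hasCompactSupport hcd).integrableOn
    have hi2 : Integrable x (volume.restrict S) := by
      have := (hii (-R) R)
      rwa [intervalIntegrable_iff_integrableOn_Ioc_of_le (by linarith)] at this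
    exact (hi1.smul_prod hi2).indicator hm
  have e5 : ∫ τ in S, ∫ s in S, ({z : ℝ × ℝ | z.2 ≤ z.1}.indicator
        (fun z : ℝ × ℝ => deriv θ z.1 • x z.2) (τ, s)) =
      ∫ s in S, ∫ τ in S, ({z : ℝ × ℝ | z.2 ≤ z.1}.indicator
        (fun z : ℝ × ℝ => deriv θ z.1 • x z.2) (τ, s)) :=
    integral_integral_swap hprod
  have e6 : ∫ s in S, ∫ τ in S, ({z : ℝ × ℝ | z.2 ≤ z.1}.indicator
        (fun z : ℝ × ℝ => deriv θ z.1 • x z.2) (τ, s)) = ∫ s in S, - (θ s • x s) := by
    refine setIntegral_congr_fun hSm fun s hs => ?_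
    have h1 : ∀ τ, ({z : ℝ × ℝ | z.2 ≤ z.1}.indicator
        (fun z : ℝ × ℝ => deriv θ z.1 • x z.2) (τ, s)) = ((Ici s).indicator (deriv θ) τ) • x s := by
      intro τ
      by_cases h : s ≤ τ
      · simp [indicator, h]
      · simp [indicator, h]
    simp_rw [h1]
    rw [integral_smul_const]
    have h2 : ∫ τ in S, (Ici s).indicator (deriv θ) τ = θ R - θ s := by
      rw [integral_indicator measurableSet_Ici, Measure.restrict_restrict measurableSet_Ici]
      have h3 : Ici s ∩ S = Icc s R := by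
        ext τ
        simp only [hS, mem_Ioc, mem_inter_iff, mem_Ici, mem_Icc]
        constructor
        · rintro ⟨h1, _, h3⟩; exact ⟨h1, h3⟩
        · rintro ⟨h1, h2⟩; exact ⟨h1, lt_of_lt_of_le hs.1 h1, h2⟩
      rw [h3, integral_Icc_eq_integral_Ioc, ← intervalIntegral.integral_of_le hs.2]
      exact intervalIntegral.integral_eq_sub_of_hasDerivAt (fun τ _ => hd τ)
        (hdc.intervalIntegrable _ _)
    rw [h2, hθ0 R (fun h => lt_irrefl _ h.2), zero_sub, neg_smul]
  rw [e1, e2, e4, e5, e6, integral_neg, e3]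

/-- a chain of weak derivatives gives a smooth representative -/
theorem smooth_rep (x : ℕ → ℝ → X) (hx : ∀ n, LocallyIntegrable (x n) volume)
    (hd : ∀ n (θ : ℝ → ℝ), ContDiff ℝ ∞ θ → HasCompactSupport θ →
      ∫ τ, deriv θ τ • x n τ = - ∫ τ, θ τ • x (n + 1) τ) :
    ∃ x' : ℝ → X, ContDiff ℝ ∞ x' ∧ x' =ᵐ[volume] x 0 := by
  have hii : ∀ n (a b : ℝ), IntervalIntegrable (x n) volume a b := fun n a b =>
    ((hx n).integrableOn_isCompact isCompact_uIcc).intervalIntegrable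
  have hcont : ∀ n, Continuous (fun τ => ∫ s in (0 : ℝ)..τ, x (n + 1) s) := fun n =>
    intervalIntegral.continuous_primitive (hii (n + 1)) 0
  have key : ∀ n, ∃ c : X, ∀ᵐ τ, x n τ - (∫ s in (0 : ℝ)..τ, x (n + 1) s) = c := by
    intro n
    refine const_of_weak_deriv_zero ((hx n).sub (hcont n).locallyIntegrable) ?_
    intro θ hθ hc
    have hdc : Continuous (deriv θ) := hθ.continuous_deriv (by simp)
    have hi1 : Integrable (fun τ => deriv θ τ • x n τ) :=
      (hx n).integrable_smul_left_of_hasCompactSupport hdc hc.deriv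
    have hi2 : Integrable (fun τ => deriv θ τ • ∫ s in (0 : ℝ)..τ, x (n + 1) s) :=
      (hdc.smul (hcont n)).integrable_of_hasCompactSupport hc.deriv.smul_right
    show ∫ τ, deriv θ τ • (x n τ - ∫ s in (0 : ℝ)..τ, x (n + 1) s) = 0
    simp_rw [smul_sub]
    rw [integral_sub hi1 hi2, hd n θ hθ hc, weak_deriv_primitive (hx (n + 1)) hθ hc, sub_self]
  choose c hc using key
  set w : ℕ → ℝ → X := fun n τ => c n + ∫ s in (0 : ℝ)..τ, x (n + 1) s with hw
  have hwc : ∀ n, Continuous (w n) := fun n => continuous_const.add (hcont n)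
  have hwae : ∀ n, w n =ᵐ[volume] x n := by
    intro n
    filter_upwards [hc n] with τ hτ
    simp only [hw]
    rw [← hτ]
    abel
  have hwd : ∀ n τ, HasDerivAt (w n) (w (n + 1) τ) τ := by
    intro n τ
    have e : w n = fun τ => c n + ∫ s in (0 : ℝ)..τ, w (n + 1) s := by
      funext r
      simp only [hw]
      congr 1
      refine intervalIntegral.integral_congr_ae ?_
      filter_upwards [hwae (n + 1)] with s hs _
      exact hs.symm
    rw [e]
    exact (intervalIntegral.integral_hasDerivAt_right ((hwc (n + 1)).intervalIntegrable _ _)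
      ((hwc (n + 1)).stronglyMeasurableAtFilter _ _) (hwc (n + 1)).continuousAt).const_add (c n)
  have hsm : ∀ (k : ℕ) n, ContDiff ℝ k (w n) := by
    intro k
    induction k with
    | zero => intro n; exact contDiff_zero.2 (hwc n)
    | succ k ih =>
      intro n
      have : ContDiff ℝ ((k : WithTop ℕ∞) + 1) (w n) := by
        rw [contDiff_succ_iff_deriv]
        refine ⟨fun τ => (hwd n τ).differentiableAt, fun h => absurd h (by simp), ?_⟩
        have : deriv (w n) = w (n + 1) := funext fun τ => (hwd n τ).deriv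
        rw [this]
        exact ih (n + 1)
      exact_mod_cast this
  exact ⟨w 0, contDiff_infty.2 fun k => hsm k 0, hwae 0⟩

end rep

/-- localisation: smooth representatives of all `χ • w` glue to a smooth representative of `w` on
`(0,1)`. -/
theorem glue {V : Type*} [NormedAddCommGroup V] [NormedSpace ℝ V] {w : ℝ → V}
    (h : ∀ χ : ℝ → ℝ, ContDiff ℝ ∞ χ → HasCompactSupport χ → tsupport χ ⊆ Ioo 0 1 →
      ∃ x : ℝ → V, ContDiff ℝ ∞ x ∧ x =ᵐ[volume] fun τ => χ τ • w τ) :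
    ∃ w' : ℝ → V, ContDiffOn ℝ ∞ w' (Ioo 0 1) ∧ ∀ᵐ τ, τ ∈ Ioo (0 : ℝ) 1 → w' τ = w τ := by
  classical
  -- the intervals
  set r : ℕ → ℝ := fun n => 1 / 2 - 1 / ((n : ℝ) + 3) with hr
  have hr0 : ∀ n, 0 < r n := by
    intro n
    have h1 : (0 : ℝ) ≤ n := Nat.cast_nonneg n
    have h2 : 1 / ((n : ℝ) + 3) < 1 / 2 := by
      apply one_div_lt_one_div_of_lt <;> linarith
    simp only [hr]
    linarith
  have hr1 : ∀ n, r n < 1 / 2 := by
    intro n
    have h1 : (0 : ℝ) ≤ n := Nat.cast_nonneg n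
    have h2 : 0 < 1 / ((n : ℝ) + 3) := by positivity
    simp only [hr]
    linarith
  have hrm : ∀ {n m : ℕ}, n < m → r n < r m := by
    intro n m hnm
    have h1 : (0 : ℝ) ≤ n := Nat.cast_nonneg n
    have h2 : (n : ℝ) < m := by exact_mod_cast hnm
    have h3 : 1 / ((m : ℝ) + 3) < 1 / ((n : ℝ) + 3) := by
      apply one_div_lt_one_div_of_lt <;> linarith
    simp only [hr]
    linarith
  have hrm' : ∀ {n m : ℕ}, n ≤ m → r n ≤ r m := by
    intro n m hnm
    rcases hnm.lt_or_eq with h1 | h1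
    · exact (hrm h1).le
    · rw [h1]
  set I : ℕ → Set ℝ := fun n => Metric.ball (1 / 2 : ℝ) (r n) with hI
  have hIopen : ∀ n, IsOpen (I n) := fun n => Metric.isOpen_ball
  have hImono : ∀ {n m : ℕ}, n ≤ m → I n ⊆ I m := fun hnm => Metric.ball_subset_ball (hrm' hnm)
  have hcover : ∀ τ ∈ Ioo (0 : ℝ) 1, ∃ n, τ ∈ I n := by
    intro τ hτ
    have h1 : dist τ (1 / 2 : ℝ) < 1 / 2 := by
      rw [Real.dist_eq, abs_lt]
      constructor <;> linarith [hτ.1, hτ.2]
    have h2 : 0 < 1 / 2 - dist τ (1 / 2 : ℝ) := by linarith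
    obtain ⟨n, hn⟩ := exists_nat_one_div_lt h2
    refine ⟨n, ?_⟩
    rw [hI, Metric.mem_ball]
    have h3 : 1 / ((n : ℝ) + 3) < 1 / ((n : ℝ) + 1) := by
      have h1 : (0 : ℝ) ≤ n := Nat.cast_nonneg n
      apply one_div_lt_one_div_of_lt <;> linarith
    simp only [hr]
    linarith
  -- cut-offs
  have hχ : ∀ n, ∃ x : ℝ → V, ContDiff ℝ ∞ x ∧ ∀ᵐ τ, τ ∈ I n → x τ = w τ := by
    intro n
    let b : ContDiffBump (1 / 2 : ℝ) := ⟨r n, r (n + 1), hr0 n, hrm (Nat.lt_succ_self n)⟩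
    have hb1 : ContDiff ℝ ∞ (b : ℝ → ℝ) := b.contDiff
    have hb2 : HasCompactSupport (b : ℝ → ℝ) := b.hasCompactSupport
    have hb3 : tsupport (b : ℝ → ℝ) ⊆ Ioo 0 1 := by
      rw [b.tsupport_eq]
      intro τ hτ
      rw [Metric.mem_closedBall, Real.dist_eq, abs_le] at hτ
      have h1 : b.rOut < 1 / 2 := hr1 (n + 1)
      constructor <;> linarith [hτ.1, hτ.2]
    obtain ⟨x, hx, hxe⟩ := h b hb1 hb2 hb3
    refine ⟨x, hx, ?_⟩
    filter_upwards [hxe] with τ hτ hmem
    have h1 : b τ = 1 := b.one_of_mem_closedBall (Metric.ball_subset_closedBall hmem)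
    rw [hτ, h1, one_smul]
  choose x hx hxe using hχ
  have hagree : ∀ {n m : ℕ}, n ≤ m → ∀ τ ∈ I n, x n τ = x m τ := by
    intro n m hnm
    have h1 : ∀ᵐ τ ∂(volume.restrict (I n)), x n τ = x m τ := by
      rw [ae_restrict_iff' (hIopen n).measurableSet]
      filter_upwards [hxe n, hxe m] with τ h1 h2 h3
      rw [h1 h3, h2 (hImono hnm h3)]
    exact Measure.eqOn_open_of_ae_eq h1 (hIopen n) (hx n).continuous.continuousOn
      (hx m).continuous.continuousOn
  set w' : ℝ → V := fun τ => if hτ : ∃ n, τ ∈ I n then x (Nat.find hτ) τ else 0 with hw'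
  have hw'eq : ∀ n, ∀ τ ∈ I n, w' τ = x n τ := by
    intro n τ hτ
    have hex : ∃ n, τ ∈ I n := ⟨n, hτ⟩
    simp only [hw', dif_pos hex]
    exact hagree (Nat.find_min' hex hτ) τ (Nat.find_spec hex)
  refine ⟨w', ?_, ?_⟩
  · intro τ hτ
    obtain ⟨n, hn⟩ := hcover τ hτ
    have h1 : w' =ᶠ[𝓝 τ] x n := by
      filter_upwards [(hIopen n).mem_nhds hn] with σ hσ using hw'eq n σ hσ
    exact ((hx n).contDiffAt.congr_of_eventuallyEq h1).contDiffWithinAt
  · have h1 : ∀ᵐ τ, ∀ n, τ ∈ I n → x n τ = w τ := ae_all_iff.2 hxe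
    filter_upwards [h1] with τ hτ hmem
    obtain ⟨n, hn⟩ := hcover τ hmem
    rw [hw'eq n τ hn, hτ n hn]

/-- integration by parts against a smooth curve on `(0,1)` -/
theorem ibp_local {a a' : ℝ → ℝ} (ha : ∀ τ ∈ Ioo (0 : ℝ) 1, HasDerivAt a (a' τ) τ)
    (ha' : ContinuousOn a' (Ioo 0 1)) {χ : ℝ → ℝ} (hχ : ContDiff ℝ ∞ χ)
    (hc : HasCompactSupport χ) (hs : tsupport χ ⊆ Ioo 0 1) :
    ∫ τ, deriv χ τ * a τ = - ∫ τ, χ τ * a' τ := by
  have hac : ContinuousOn a (Ioo 0 1) := fun τ hτ => (ha τ hτ).continuousAt.continuousWithinAt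
  have hχd : ∀ τ, HasDerivAt χ (deriv χ τ) τ := fun τ =>
    (hχ.differentiable (by simp) τ).hasDerivAt
  have hz : ∀ τ, τ ∉ tsupport χ → χ =ᶠ[𝓝 τ] 0 := fun τ hτ =>
    notMem_tsupport_iff_eventuallyEq.1 hτ
  have hdz : ∀ τ, τ ∉ tsupport χ → deriv χ τ = 0 := by
    intro τ hτ
    rw [(hz τ hτ).deriv_eq]
    simp
  -- continuity of the products on all of `ℝ`
  have hcont : ∀ (f g : ℝ → ℝ), Continuous f → (∀ τ, τ ∉ tsupport χ → f =ᶠ[𝓝 τ] 0) →
      ContinuousOn g (Ioo 0 1) → Continuous (fun τ => f τ * g τ) := by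
    intro f g hf hf0 hg
    rw [continuous_iff_continuousAt]
    intro τ
    by_cases hτ : τ ∈ tsupport χ
    · exact hf.continuousAt.mul (hg.continuousAt (isOpen_Ioo.mem_nhds (hs hτ)))
    · have : (fun τ => f τ * g τ) =ᶠ[𝓝 τ] fun _ => 0 := by
        filter_upwards [hf0 τ hτ] with σ hσ
        rw [hσ]; simp
      exact this.continuousAt
  have hdc : Continuous (deriv χ) := hχ.continuous_deriv (by simp)
  have hdz' : ∀ τ, τ ∉ tsupport χ → deriv χ =ᶠ[𝓝 τ] 0 := by
    intro τ hτ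
    filter_upwards [(isClosed_tsupport χ).isOpen_compl.mem_nhds hτ] with σ hσ
    exact hdz σ hσ
  have hc1 : Continuous (fun τ => deriv χ τ * a τ) := hcont _ _ hdc hdz' hac
  have hc2 : Continuous (fun τ => χ τ * a' τ) := hcont _ _ hχ.continuous hz ha'
  have hc3 : Continuous (fun τ => χ τ * a τ) := hcont _ _ hχ.continuous hz hac
  have hs1 : HasCompactSupport (fun τ => deriv χ τ * a τ) := hc.deriv.mul_right
  have hs2 : HasCompactSupport (fun τ => χ τ * a' τ) := hc.mul_right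
  have hs3 : HasCompactSupport (fun τ => χ τ * a τ) := hc.mul_right
  have hder : ∀ τ, HasDerivAt (fun τ => χ τ * a τ) (deriv χ τ * a τ + χ τ * a' τ) τ := by
    intro τ
    by_cases hτ : τ ∈ tsupport χ
    · exact (hχd τ).mul (ha τ (hs hτ))
    · have e : (fun τ => χ τ * a τ) =ᶠ[𝓝 τ] fun _ => 0 := by
        filter_upwards [hz τ hτ] with σ hσ
        rw [hσ]; simp
      have h0 : χ τ = 0 := (hz τ hτ).self_of_nhds
      rw [hdz τ hτ, h0]
      simp only [zero_mul, add_zero]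
      exact (hasDerivAt_const τ (0 : ℝ)).congr_of_eventuallyEq e
  have hi1 := hc1.integrable_of_hasCompactSupport (μ := volume) hs1
  have hi2 := hc2.integrable_of_hasCompactSupport (μ := volume) hs2
  have h0 := integral_eq_zero_of_hasDerivAt_of_integrable hder (hi1.add hi2)
    (hc3.integrable_of_hasCompactSupport hs3)
  rw [integral_add hi1 hi2] at h0
  linarith

/-- the pointwise equation from the weak equation for a smooth curve -/
theorem strong_of_weak {V H K : Type*} [NormedAddCommGroup V] [InnerProductSpace ℝ V]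
    [NormedAddCommGroup H] [InnerProductSpace ℝ H] [NormedAddCommGroup K] [InnerProductSpace ℝ K]
    (J : V →L[ℝ] H) (B : V →L[ℝ] K) {N : ℝ → K →L[ℝ] K} (hN : ContDiffOn ℝ ∞ N (Ioo 0 1))
    {E : ℝ → H} (hE : ContDiffOn ℝ ∞ E (Ioo 0 1)) {R : ℝ → K} (hR : ContDiffOn ℝ ∞ R (Ioo 0 1))
    {w' : ℝ → V} (hw' : ContDiffOn ℝ ∞ w' (Ioo 0 1))
    (hweak : ∀ χ : ℝ → ℝ, ContDiff ℝ ∞ χ → HasCompactSupport χ → tsupport χ ⊆ Ioo 0 1 → ∀ v : V,
      ∫ τ, (deriv χ τ * ⟪J v, J (w' τ)⟫ + χ τ * ⟪B v, N τ (B (w' τ))⟫) =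
        ∫ τ, χ τ * (⟪E τ, J v⟫ + ⟪R τ, B v⟫)) :
    ∀ τ ∈ Ioo (0 : ℝ) 1, ∀ v : V,
      -⟪J v, J (deriv w' τ)⟫ + ⟪B v, N τ (B (w' τ))⟫ = ⟪E τ, J v⟫ + ⟪R τ, B v⟫ := by
  intro τ hτ v
  have hwc : ContinuousOn w' (Ioo 0 1) := hw'.continuousOn
  have hwd : ∀ τ ∈ Ioo (0 : ℝ) 1, HasDerivAt w' (deriv w' τ) τ := fun τ hτ =>
    ((hw'.differentiableOn (by simp) τ hτ).differentiableAt (isOpen_Ioo.mem_nhds hτ)).hasDerivAt
  have hwdc : ContinuousOn (deriv w') (Ioo 0 1) :=
    hw'.continuousOn_deriv_of_isOpen isOpen_Ioo (by simp)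
  set a : ℝ → ℝ := fun τ => ⟪J v, J (w' τ)⟫ with ha
  set a' : ℝ → ℝ := fun τ => ⟪J v, J (deriv w' τ)⟫ with ha'
  set p : ℝ → ℝ := fun τ => ⟪B v, N τ (B (w' τ))⟫ with hp
  set q : ℝ → ℝ := fun τ => ⟪E τ, J v⟫ + ⟪R τ, B v⟫ with hq
  have had : ∀ τ ∈ Ioo (0 : ℝ) 1, HasDerivAt a (a' τ) τ := by
    intro τ hτ
    have h1 : HasDerivAt (fun τ => J (w' τ)) (J (deriv w' τ)) τ :=
      J.hasFDerivAt.comp_hasDerivAt τ (hwd τ hτ)
    have h2 := (innerSL ℝ (J v)).hasFDerivAt.comp_hasDerivAt τ h1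
    exact h2
  have hac : ContinuousOn a (Ioo 0 1) := fun τ hτ => (had τ hτ).continuousAt.continuousWithinAt
  have ha'c : ContinuousOn a' (Ioo 0 1) :=
    continuousOn_const.inner (J.continuous.comp_continuousOn hwdc)
  have hpc : ContinuousOn p (Ioo 0 1) :=
    continuousOn_const.inner (hN.continuousOn.clm_apply (B.continuous.comp_continuousOn hwc))
  have hqc : ContinuousOn q (Ioo 0 1) :=
    (hE.continuousOn.inner continuousOn_const).add (hR.continuousOn.inner continuousOn_const)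
  have hfc : ContinuousOn (fun τ => -a' τ + p τ - q τ) (Ioo 0 1) := (ha'c.neg.add hpc).sub hqc
  have hint : ∀ (χ f : ℝ → ℝ), ContDiff ℝ ∞ χ → HasCompactSupport χ → tsupport χ ⊆ Ioo 0 1 →
      ContinuousOn f (Ioo 0 1) → Integrable (fun τ => χ τ * f τ) := by
    intro χ f hχ hc hs hf
    refine Continuous.integrable_of_hasCompactSupport ?_ hc.mul_right
    rw [continuous_iff_continuousAt]
    intro τ
    by_cases hτ : τ ∈ tsupport χ
    · exact hχ.continuous.continuousAt.mul (hf.continuousAt (isOpen_Ioo.mem_nhds (hs hτ)))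
    · have : (fun τ => χ τ * f τ) =ᶠ[𝓝 τ] fun _ => 0 := by
        filter_upwards [notMem_tsupport_iff_eventuallyEq.1 hτ] with σ hσ
        rw [hσ]; simp
      exact this.continuousAt
  have hz : ∀ᵐ τ, τ ∈ Ioo (0 : ℝ) 1 → -a' τ + p τ - q τ = 0 := by
    refine isOpen_Ioo.ae_eq_zero_of_integral_contDiff_smul_eq_zero
      (hfc.locallyIntegrableOn measurableSet_Ioo) ?_
    intro χ hχ hc hs
    have h1 := hweak χ hχ hc hs v
    have h2 := ibp_local had ha'c hχ hc hs
    have hdχ : ContDiff ℝ ∞ (deriv χ) := (contDiff_infty_iff_deriv.1 hχ).2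
    have hdc : HasCompactSupport (deriv χ) := hc.deriv
    have hds : tsupport (deriv χ) ⊆ Ioo 0 1 :=
      (closure_minimal support_deriv_subset (isClosed_tsupport χ)).trans hs
    have i1 : Integrable (fun τ => deriv χ τ * a τ) := hint _ _ hdχ hdc hds hac
    have i2 : Integrable (fun τ => χ τ * p τ) := hint _ _ hχ hc hs hpc
    have i3 : Integrable (fun τ => χ τ * a' τ) := hint _ _ hχ hc hs ha'c
    have i4 : Integrable (fun τ => χ τ * q τ) := hint _ _ hχ hc hs hqc
    have h3 : ∫ τ, (deriv χ τ * a τ + χ τ * p τ) = ∫ τ, χ τ * q τ := h1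
    rw [integral_add i1 i2, h2] at h3
    have h4 : ∫ τ, χ τ • (-a' τ + p τ - q τ) =
        -(∫ τ, χ τ * a' τ) + (∫ τ, χ τ * p τ) - ∫ τ, χ τ * q τ := by
      have i3' : Integrable (fun τ => -(χ τ * a' τ)) := i3.neg
      have i5 : Integrable (fun τ => -(χ τ * a' τ) + χ τ * p τ) := i3'.add i2
      rw [← integral_neg, ← integral_add i3' i2, ← integral_sub i5 i4]
      refine integral_congr_ae (Eventually.of_forall fun τ => ?_)
      simp only [smul_eq_mul]
      ring
    rw [h4]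
    linarith
  have hz' : ∀ᵐ τ ∂(volume.restrict (Ioo (0 : ℝ) 1)), (fun τ => -a' τ + p τ - q τ) τ =
      (fun _ => (0 : ℝ)) τ := (ae_restrict_iff' measurableSet_Ioo).2 hz
  have hfin := Measure.eqOn_open_of_ae_eq hz' isOpen_Ioo hfc continuousOn_const hτ
  have : -a' τ + p τ - q τ = 0 := hfin
  show -a' τ + p τ = q τ
  linarith

end Crest.Agent.R213.B
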